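import Vale.Agent.P225.Geom.CapProfile

/-!
P225: for large `T` the interpolated cap is slow, close to the path and has nonnegative radial
curvature on `[T, ∞)`.
-/

namespace Vale.Agent.P225

open Filter Set
open scoped Topology

noncomputable section

theorem norm_fin3_le {v : Fin 3 → ℝ} {r : ℝ} (hr : 0 ≤ r) (h0 : |v 0| ≤ r) (h1 : |v 1| ≤ r)
    (h2 : |v 2| ≤ r) : ‖v‖ ≤ r :=
  (pi_norm_le_iff_of_nonneg hr).2 fun i => by fin_cases i <;> assumption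

theorem capStep_tail {s : ℝ} (h : 3 / 4 < s) : deriv (deriv capStep) s = 0 := by
  have hev : capStep =ᶠ[𝓝 s] fun _ => (1 : ℝ) := by
    filter_upwards [lt_mem_nhds h] with y hy using capStep_of_ge hy.le
  rw [hev.deriv.deriv_eq]
  simp

theorem tendsto_quarterLog (κ : ℝ) :
    Tendsto (fun t => Real.log (dFun κ t) / 4) atTop (𝓝 (Real.log dMin / 4)) := by
  have h := ((tendsto_rpow_neg_atTop (by norm_num : (0 : ℝ) < 1 / 8)).const_mul κ)
  rw [mul_zero] at h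
  have h2 := (h.const_add (Real.log dMin)).div_const 4
  rw [add_zero] at h2
  refine h2.congr fun t => ?_
  rw [dFun, Real.log_mul (by norm_num [dMin]) (Real.exp_ne_zero _), Real.log_exp]

theorem exp_lip {a c : ℝ} (ha : -1 ≤ a) (hc : -1 ≤ c) :
    |Real.exp (-2 * a) - Real.exp (-2 * c)| ≤ 20 * |a - c| := by
  have key : ∀ x y : ℝ, x ≤ 2 → Real.exp x - Real.exp y ≤ 10 * |x - y| := by
    intro x y hx
    have h1 := Real.add_one_le_exp (y - x)
    have h2 : Real.exp y = Real.exp x * Real.exp (y - x) := by rw [← Real.exp_add]; ring_nf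
    have h3 : Real.exp x ≤ 10 := by
      refine le_trans (Real.exp_le_exp.2 hx) ?_
      rw [show (2 : ℝ) = 1 + 1 by norm_num, Real.exp_add]
      nlinarith [Real.exp_one_lt_d9, Real.exp_pos 1]
    nlinarith [Real.exp_pos x, le_abs_self (x - y), abs_nonneg (x - y)]
  have h1 := key (-2 * a) (-2 * c) (by linarith)
  have h2 := key (-2 * c) (-2 * a) (by linarith)
  rw [show -2 * a - -2 * c = 2 * (c - a) by ring, abs_mul, abs_two, abs_sub_comm] at h1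
  rw [show -2 * c - -2 * a = 2 * (a - c) by ring, abs_mul, abs_two] at h2
  exact abs_le.2 ⟨by linarith, by linarith⟩

/-- The limit of the profile is below the upper bound of `det Q` and above the target. -/
theorem capLimit : Real.log dMin / 4 < Real.log (1183 / 2000) ∧
    4 * Real.log (1183 / 2000) ≤ Real.log dMax ∧ -(3 / 4) ≤ Real.log dMin / 4 ∧
    Real.log (1183 / 2000) ≤ 0 := by
  have e : 4 * Real.log (1183 / 2000 : ℝ) = Real.log ((1183 / 2000 : ℝ) ^ 4) := by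
    rw [Real.log_pow]; norm_num
  refine ⟨?_, ?_, ?_, Real.log_nonpos (by norm_num) (by norm_num)⟩
  · have h : Real.log dMin < Real.log ((1183 / 2000 : ℝ) ^ 4) :=
      Real.log_lt_log (by norm_num [dMin]) (by norm_num [dMin])
    linarith
  · rw [e]; exact Real.log_le_log (by norm_num) (by norm_num [dMax])
  · have h : Real.exp (-3 : ℝ) ≤ dMin := by
      have h2 : (2 : ℝ) ≤ Real.exp 1 := by linarith [Real.add_one_le_exp (1 : ℝ)]
      rw [show (-3 : ℝ) = -((3 : ℕ) * 1) by norm_num, Real.exp_neg, Real.exp_nat_mul]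
      have h3 : (9 : ℝ) ≤ Real.exp 1 ^ 3 := by
        nlinarith [Real.exp_one_gt_d9, pow_le_pow_left₀ (by norm_num : (0 : ℝ) ≤ 21 / 10)
          (by linarith [Real.exp_one_gt_d9] : (21 / 10 : ℝ) ≤ Real.exp 1) 3]
      calc (Real.exp 1 ^ 3)⁻¹ ≤ (9 : ℝ)⁻¹ := inv_anti₀ (by norm_num) h3
        _ ≤ dMin := by norm_num [dMin]
    have h2 := Real.log_le_log (Real.exp_pos _) h
    rw [Real.log_exp] at h2
    linarith

/-- Smallness of the derivatives of an interpolation. -/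
theorem move_small {η χ χ1 χ2 g1 g2 f f' G : ℝ} (hη0 : 0 ≤ η) (hη1 : η ≤ 1) (hχ0 : 0 ≤ χ)
    (hχle : χ ≤ 1) (hχ10 : 0 ≤ χ1) (hχ1 : χ1 ≤ η) (hχ2 : |χ2| ≤ η) (hg1 : |g1| ≤ η)
    (hg2 : |g2| ≤ η) (hf : |f| ≤ η) (hf' : |f'| ≤ η) (hG : |G| ≤ 1) :
    |f + (χ1 * G + χ * (g1 - f))| ≤ 4 * η ∧
    |f' + (χ2 * G + χ1 * (g1 - f) + (χ1 * (g1 - f) + χ * (g2 - f')))| ≤ 9 * η := by
  have a1 : |χ1 * G| ≤ η := by
    rw [abs_mul, abs_of_nonneg hχ10]; exact (mul_le_of_le_one_right hχ10 hG).trans hχ1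
  have a2 : |χ * (g1 - f)| ≤ 2 * η := by
    rw [abs_mul, abs_of_nonneg hχ0]
    exact (mul_le_of_le_one_left (abs_nonneg _) hχle).trans ((abs_sub _ _).trans (by linarith))
  have a3 : |χ2 * G| ≤ η := by
    rw [abs_mul]
    exact (mul_le_of_le_one_right (abs_nonneg _) hG).trans hχ2
  have a4 : |χ1 * (g1 - f)| ≤ 2 * η := by
    rw [abs_mul, abs_of_nonneg hχ10]
    exact (mul_le_of_le_one_left (abs_nonneg _) (by linarith)).trans
      ((abs_sub _ _).trans (by linarith))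
  have a5 : |χ * (g2 - f')| ≤ 2 * η := by
    rw [abs_mul, abs_of_nonneg hχ0]
    exact (mul_le_of_le_one_left (abs_nonneg _) hχle).trans ((abs_sub _ _).trans (by linarith))
  have := abs_le.1 a1
  have := abs_le.1 a2
  have := abs_le.1 a3
  have := abs_le.1 a4
  have := abs_le.1 a5
  have := abs_le.1 hf
  have := abs_le.1 hf'
  exact ⟨abs_le.2 ⟨by linarith, by linarith⟩, abs_le.2 ⟨by linarith, by linarith⟩⟩

/-- A diagonal weight with nearly equal logarithms in range is near the path. -/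
theorem diagW_near {η δ a b : ℝ} (hη0 : 0 ≤ η) (hη1 : η ≤ 1 / 1000) (hηδ : 60 * η ≤ δ)
    (hab : |a - b| ≤ 2 * η) (ha1 : Real.log dMin / 4 - η ≤ a)
    (ha2 : a ≤ Real.log (1183 / 2000) + η) :
    ∃ k ∈ pathSet, ‖diagW a b - k‖ ≤ δ := by
  obtain ⟨hlim1, hlim2, hlim3, hlim4⟩ := capLimit
  set lo := Real.log dMin / 4 with hlo
  set hi := Real.log (1183 / 2000) with hhi
  set c := max lo (min hi a) with hc
  have hc1 : lo ≤ c := le_max_left _ _
  have hc2 : c ≤ hi := max_le hlim1.le (min_le_left _ _)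
  have hd : dMin ≤ Real.exp (4 * c) ∧ Real.exp (4 * c) ≤ dMax := by
    constructor
    · calc dMin = Real.exp (4 * lo) := by
            rw [hlo, show 4 * (Real.log dMin / 4) = Real.log dMin by ring,
              Real.exp_log (by norm_num [dMin])]
        _ ≤ _ := Real.exp_le_exp.2 (by linarith)
    · calc Real.exp (4 * c) ≤ Real.exp (4 * hi) := Real.exp_le_exp.2 (by linarith)
        _ ≤ Real.exp (Real.log dMax) := Real.exp_le_exp.2 hlim2
        _ = dMax := Real.exp_log (by norm_num [dMax])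
  refine ⟨diagW c c, ⟨0, Real.exp (4 * c), hd, 0, ⟨by norm_num, by norm_num⟩, ?_⟩, ?_⟩
  · have e : Real.exp (-2 * c) = Real.sqrt (1 / Real.exp (4 * c)) := by
      rw [one_div, ← Real.exp_neg, ← Real.exp_half]; ring_nf
    funext i
    have h1 : (-1 : Fin 3) = 2 := rfl
    fin_cases i <;> simp [diagW, wNorm, rotW, rawExc, wdet]
    all_goals rw [← neg_mul, e, one_div, Real.sqrt_inv]
  · have hac : |a - c| ≤ η := by
      rcases le_or_gt hi a with h | h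
      · rw [hc, min_eq_left h, max_eq_right hlim1.le]
        exact abs_le.2 ⟨by linarith, by linarith⟩
      · rw [hc, min_eq_right h.le]
        rcases le_or_gt lo a with h' | h'
        · rw [max_eq_right h']; simp [hη0]
        · rw [max_eq_left h'.le]
          exact abs_le.2 ⟨by linarith, by linarith⟩
    have hbc : |b - c| ≤ 3 * η := by
      have := abs_le.1 hac
      have := abs_le.1 hab
      exact abs_le.2 ⟨by linarith, by linarith⟩
    have hab' := abs_le.1 hab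
    refine norm_fin3_le (by linarith : (0 : ℝ) ≤ δ) ?_ ?_ ?_
    · exact (exp_lip (by linarith) (by linarith)).trans (by linarith)
    · exact (exp_lip (by linarith) (by linarith)).trans (by linarith)
    · simp [diagW, (by linarith : (0 : ℝ) ≤ δ)]

/-- Velocity and acceleration of a slowly moving diagonal weight are small. -/
theorem diag_deriv_small {η δ a b a₁ b₁ a₂ b₂ : ℝ} (hη1 : η ≤ 1 / 1000)
    (hηδ : 600 * η ≤ δ) (ha : -1 ≤ a) (hb : -1 ≤ b) (ha₁ : |a₁| ≤ 4 * η) (hb₁ : |b₁| ≤ 4 * η)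
    (ha₂ : |a₂| ≤ 9 * η) (hb₂ : |b₂| ≤ 9 * η) :
    ‖(![-2 * a₁ * Real.exp (-2 * a), -2 * b₁ * Real.exp (-2 * b), 0] : Fin 3 → ℝ)‖ ≤ δ ∧
    ‖(![(4 * a₁ ^ 2 - 2 * a₂) * Real.exp (-2 * a),
        (4 * b₁ ^ 2 - 2 * b₂) * Real.exp (-2 * b), 0] : Fin 3 → ℝ)‖ ≤ δ := by
  have hη0 : 0 ≤ η := by linarith [abs_nonneg a₁]
  have h10 : ∀ r : ℝ, -1 ≤ r → Real.exp (-2 * r) ≤ 10 := fun r hr => by
    have h2 : Real.exp (2 : ℝ) ≤ 10 := by
      rw [show (2 : ℝ) = 1 + 1 by norm_num, Real.exp_add]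
      nlinarith [Real.exp_one_lt_d9, Real.exp_pos 1]
    exact le_trans (Real.exp_le_exp.2 (by linarith)) h2
  have first : ∀ r x, -1 ≤ r → |x| ≤ 4 * η → |-2 * x * Real.exp (-2 * r)| ≤ δ := by
    intro r x hr hx
    rw [abs_mul, abs_mul, abs_neg, abs_two, Real.abs_exp]
    have := mul_le_mul hx (h10 r hr) (Real.exp_pos _).le (by linarith)
    linarith
  have second : ∀ r x y, -1 ≤ r → |x| ≤ 4 * η → |y| ≤ 9 * η →
      |(4 * x ^ 2 - 2 * y) * Real.exp (-2 * r)| ≤ δ := by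
    intro r x y hr hx hy
    have hx2 : x ^ 2 ≤ η := by
      rw [← sq_abs]; nlinarith [abs_nonneg x]
    have h : |4 * x ^ 2 - 2 * y| ≤ 22 * η := by
      have := abs_le.1 hy
      exact abs_le.2 ⟨by nlinarith [sq_nonneg x], by linarith⟩
    rw [abs_mul, Real.abs_exp]
    have := mul_le_mul h (h10 r hr) (Real.exp_pos _).le (by positivity)
    linarith
  constructor
  · exact norm_fin3_le (by linarith) (first a a₁ ha ha₁) (first b b₁ hb hb₁)
      (by simp; linarith)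
  · exact norm_fin3_le (by linarith) (second a a₁ a₂ ha ha₁ ha₂) (second b b₁ b₂ hb hb₁ hb₂)
      (by simp; linarith)

theorem interp_sq {χ χ1 g f G : ℝ} (h0 : 0 ≤ χ) (h1 : χ ≤ 1) :
    (f + (χ1 * G + χ * (g - f))) ^ 2
      ≤ 3 * ((1 - χ) * f ^ 2 + χ * g ^ 2 + χ1 ^ 2 * G ^ 2) := by
  have h : ∀ x y z : ℝ, (x + y + z) ^ 2 ≤ 3 * (x ^ 2 + y ^ 2 + z ^ 2) := fun x y z => by
    linarith [sq_nonneg (x - y), sq_nonneg (y - z), sq_nonneg (x - z)]
  have e1 : ((1 - χ) * f) ^ 2 ≤ (1 - χ) * f ^ 2 := by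
    rw [mul_pow, sq]
    exact mul_le_mul_of_nonneg_right (mul_le_of_le_one_right (by linarith) (by linarith)) (sq_nonneg f)
  have e2 : (χ * g) ^ 2 ≤ χ * g ^ 2 := by
    rw [mul_pow, sq]
    exact mul_le_mul_of_nonneg_right (mul_le_of_le_one_right h0 h1) (sq_nonneg g)
  have e3 := h ((1 - χ) * f) (χ * g) (χ1 * G)
  rw [show f + (χ1 * G + χ * (g - f)) = (1 - χ) * f + χ * g + χ1 * G by ring]
  linarith [mul_pow χ1 G 2]

/-- The radial inequality of the interpolation. -/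
theorem cap_phi {κ C c₀ T t X g1 g2 η χ χ1 χ2 p q dp dq GA GB : ℝ} (hκ : 0 < κ) (hC0 : 0 < C)
    (hc₀ : 0 < c₀) (hT : 0 < T)
    (hTg : 3 * C / (c₀ * (κ / 32)) * 2 ^ (9 / 8 : ℝ) ≤ T ^ (7 / 8 : ℝ)) (ht : 0 < t) (ht9 : 9 ≤ t)
    (hX : X = t ^ (-(9 / 8) : ℝ)) (hg1d : g1 = -(κ / 32) * X)
    (hg2d : g2 = 9 * κ / 256 * t ^ (-(17 / 8) : ℝ))
    (hη0 : 0 < η) (hη1 : η ≤ 1 / 100) (eg1 : |g1| ≤ η)
    (hχ0 : 0 ≤ χ) (hχle : χ ≤ 1) (hχ10 : 0 ≤ χ1) (hχ1b : χ1 ≤ η) (hχ2b : |χ2| ≤ C / T ^ 2)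
    (hneg : χ2 < 0 → c₀ ≤ χ ∧ t ≤ 2 * T) (ep : |p| ≤ η) (eq' : |q| ≤ η)
    (htail : dp + dq + (p + q) + 3 * (p ^ 2 + q ^ 2) ≤ 0)
    (hGAn : GA ≤ -(20 * η)) (hGBn : GB ≤ -(20 * η)) (hGA1 : |GA| ≤ 1) (hGB1 : |GB| ≤ 1) :
    dp + (χ2 * GA + χ1 * (g1 - p) + (χ1 * (g1 - p) + χ * (g2 - dp)))
      + (dq + (χ2 * GB + χ1 * (g1 - q) + (χ1 * (g1 - q) + χ * (g2 - dq))))
      + (p + (χ1 * GA + χ * (g1 - p)) + (q + (χ1 * GB + χ * (g1 - q))))
      + ((p + (χ1 * GA + χ * (g1 - p))) ^ 2 + (q + (χ1 * GB + χ * (g1 - q))) ^ 2) ≤ 0 := by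
  have bp := abs_le.1 ep
  have bq := abs_le.1 eq'
  have bg1 := abs_le.1 eg1
  have hX0 : 0 ≤ X := hX ▸ Real.rpow_nonneg ht.le _
  have hg2X : g2 ≤ κ / 256 * X := by
    have : t ^ (-(17 / 8) : ℝ) = X * t⁻¹ := by
      rw [hX, ← Real.rpow_neg_one t, ← Real.rpow_add ht]; norm_num
    rw [hg2d, this]
    have : t⁻¹ ≤ 1 / 9 := by rw [inv_le_comm₀ ht (by norm_num)]; linarith
    linarith [mul_le_mul_of_nonneg_left this (mul_nonneg hκ.le hX0), mul_nonneg hκ.le hX0]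
  have hg1X : g1 ^ 2 ≤ η * (κ / 32 * X) := by
    have : |g1| = κ / 32 * X := by
      rw [hg1d, abs_mul, abs_neg, abs_of_pos (by positivity), abs_of_nonneg hX0]
    rw [← sq_abs, ← this, sq]
    exact mul_le_mul_of_nonneg_right eg1 (abs_nonneg _)
  have hΦ2 : 2 * g2 + 2 * g1 + 6 * g1 ^ 2 ≤ -(κ / 32 * X) := by
    linarith [mul_le_mul_of_nonneg_right hη1 (mul_nonneg hκ.le hX0), mul_nonneg hκ.le hX0]
  have hsqA := interp_sq (χ1 := χ1) (g := g1) (f := p) (G := GA) hχ0 hχle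
  have hsqB := interp_sq (χ1 := χ1) (g := g1) (f := q) (G := GB) hχ0 hχle
  have hmid : χ1 * (GA + GB + 2 * (2 * g1 - p - q) + 3 * χ1 * (GA ^ 2 + GB ^ 2)) ≤ 0 := by
    refine mul_nonpos_of_nonneg_of_nonpos hχ10 ?_
    have hA2 : GA ^ 2 ≤ 1 := (sq_le_one_iff_abs_le_one GA).2 hGA1
    have hB2 : GB ^ 2 ≤ 1 := (sq_le_one_iff_abs_le_one GB).2 hGB1
    linarith [mul_le_mul hχ1b (add_le_add hA2 hB2) (by positivity) hη0.le]
  have hfirst : (1 - χ) * (dp + dq + (p + q) + 3 * (p ^ 2 + q ^ 2)) ≤ 0 :=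
    mul_nonpos_of_nonneg_of_nonpos (sub_nonneg.2 hχle) htail
  have hlast : χ * (2 * g2 + 2 * g1 + 6 * g1 ^ 2) + χ2 * (GA + GB) ≤ 0 := by
    rcases le_or_gt 0 χ2 with h | h
    · have h1 := mul_nonpos_of_nonneg_of_nonpos h (by linarith : GA + GB ≤ 0)
      have h2 := mul_nonpos_of_nonneg_of_nonpos hχ0
        (hΦ2.trans (neg_nonpos.2 (mul_nonneg (by positivity : (0 : ℝ) ≤ κ / 32) hX0)))
      linarith
    · obtain ⟨hχc, ht2⟩ := hneg h
      have hXT : (2 * T) ^ (-(9 / 8) : ℝ) ≤ X :=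
        hX.symm ▸ Real.rpow_le_rpow_of_nonpos (z := (-(9 / 8) : ℝ)) ht ht2 (by norm_num)
      have hkey : 3 * C / T ^ 2 ≤ c₀ * (κ / 32) * X := by
        refine le_trans ?_ (mul_le_mul_of_nonneg_left hXT (by positivity))
        rw [Real.rpow_neg (by positivity), Real.mul_rpow (by norm_num) hT.le]
        have hT2 : T ^ (2 : ℕ) = T ^ (7 / 8 : ℝ) * T ^ (9 / 8 : ℝ) := by
          rw [← Real.rpow_add hT]; norm_num
        rw [← div_eq_mul_inv, div_le_div_iff₀ (pow_pos hT 2) (by positivity), hT2,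
          show 3 * C * ((2 : ℝ) ^ (9 / 8 : ℝ) * T ^ (9 / 8 : ℝ))
            = (3 * C / (c₀ * (κ / 32)) * (2 : ℝ) ^ (9 / 8 : ℝ)) * (c₀ * (κ / 32))
                * T ^ (9 / 8 : ℝ) by field_simp,
          show c₀ * (κ / 32) * (T ^ (7 / 8 : ℝ) * T ^ (9 / 8 : ℝ))
            = T ^ (7 / 8 : ℝ) * (c₀ * (κ / 32)) * T ^ (9 / 8 : ℝ) by ring]
        exact mul_le_mul_of_nonneg_right (mul_le_mul_of_nonneg_right hTg (by positivity))
          (by positivity)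
      have h1 : χ * (2 * g2 + 2 * g1 + 6 * g1 ^ 2) ≤ -(c₀ * (κ / 32) * X) := by
        linarith [mul_le_mul_of_nonneg_left hΦ2 hχ0,
          mul_le_mul_of_nonneg_right hχc (mul_nonneg (div_nonneg hκ.le (by norm_num : (0:ℝ) ≤ 32)) hX0)]
      have h2 : χ2 * (GA + GB) ≤ 3 * (C / T ^ 2) := by
        refine (le_abs_self _).trans ?_
        rw [abs_mul]
        refine (mul_le_mul hχ2b ((abs_add_le _ _).trans (add_le_add hGA1 hGB1)) (abs_nonneg _)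
          (by positivity)).trans ?_
        linarith [div_nonneg hC0.le (pow_nonneg hT.le 2)]
      rw [← mul_div_assoc] at h2
      linarith
  linarith

/-- The derivatives of the cap weights. -/
theorem capWt_derivs (κ : ℝ) {T t : ℝ} (hT : 0 < T) (ht : 0 < t) :
    let g1 := -(κ / 32) * t ^ (-(9 / 8) : ℝ)
    let g2 := 9 * κ / 256 * t ^ (-(17 / 8) : ℝ)
    let χ1 := deriv capStep ((t - T) / T) / T
    let χ2 := deriv (deriv capStep) ((t - T) / T) / T ^ 2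
    let GA := Real.log (dFun κ t) / 4 - capA0 t
    let GB := Real.log (dFun κ t) / 4 - capB0 t
    let p := capp (capU t)
    let q := capq (capU t)
    let dp := capdp (capU t)
    let dq := capdq (capU t)
    let a₁ := p + (χ1 * GA + capChi T t * (g1 - p))
    let b₁ := q + (χ1 * GB + capChi T t * (g1 - q))
    let a₂ := dp + (χ2 * GA + χ1 * (g1 - p) + (χ1 * (g1 - p) + capChi T t * (g2 - dp)))
    let b₂ := dq + (χ2 * GB + χ1 * (g1 - q) + (χ1 * (g1 - q) + capChi T t * (g2 - dq)))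
    deriv (capWt κ T) t
        = ![-2 * a₁ * Real.exp (-2 * capA κ T t), -2 * b₁ * Real.exp (-2 * capB κ T t), 0] ∧
    deriv (deriv (capWt κ T)) t
        = ![(4 * a₁ ^ 2 - 2 * a₂) * Real.exp (-2 * capA κ T t),
            (4 * b₁ ^ 2 - 2 * b₂) * Real.exp (-2 * capB κ T t), 0] ∧
    radOf (capWt κ T) t = -3 * ((a₂ + b₂) + (a₁ + b₁) + (a₁ ^ 2 + b₁ ^ 2)) := by
  obtain ⟨-, hg2'⟩ := hasDerivAt_quarterLog κ ht
  have hg : ∀ᶠ s in 𝓝 t, HasDerivAt (fun r => Real.log (dFun κ r) / 4)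
      (-(κ / 32) * s ^ (-(9 / 8) : ℝ)) s :=
    (eventually_gt_nhds ht).mono fun s hs => (hasDerivAt_quarterLog κ hs).1
  obtain ⟨hA1, hA2⟩ := hasDerivAt_move (T := T) (Eventually.of_forall hasDerivAt_capA0) hg
    (hasDerivAt_capp t) hg2'
  obtain ⟨hB1, hB2⟩ := hasDerivAt_move (T := T) (Eventually.of_forall hasDerivAt_capB0) hg
    (hasDerivAt_capq t) hg2'
  have hA : ContDiff ℝ 1 (capA κ T) := contDiff_move contDiff_capA0 hT
  have hB : ContDiff ℝ 1 (capB κ T) := contDiff_move contDiff_capB0 hT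
  exact diagW_calc (a := capA κ T) (b := capB κ T) hA1 hB1 hA2 hB2
    (Eventually.of_forall fun s =>
      ⟨hA.differentiable one_ne_zero s, hB.differentiable one_ne_zero s⟩)

/-- The four properties at a point, from bounds on the data. -/
theorem cap_point {κ δ C c₀ T t X g1 g2 η χ χ1 χ2 p q dp dq A0 B0 G : ℝ} {W : ℝ → Fin 3 → ℝ}
    (hκ : 0 < κ) (hC0 : 0 < C) (hc₀ : 0 < c₀) (hT : 0 < T)
    (hTg : 3 * C / (c₀ * (κ / 32)) * 2 ^ (9 / 8 : ℝ) ≤ T ^ (7 / 8 : ℝ)) (ht : 0 < t) (ht9 : 9 ≤ t)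
    (hX : X = t ^ (-(9 / 8) : ℝ)) (hg1d : g1 = -(κ / 32) * X)
    (hg2d : g2 = 9 * κ / 256 * t ^ (-(17 / 8) : ℝ)) (hη0 : 0 < η) (hη1 : η ≤ 1 / 1000)
    (hηδ : 600 * η ≤ δ) (hηγ : 40 * η ≤ Real.log (1183 / 2000) - Real.log dMin / 4)
    (hχ0 : 0 ≤ χ) (hχle : χ ≤ 1) (hχ10 : 0 ≤ χ1) (hχ1b : χ1 ≤ η) (hχ2b : |χ2| ≤ C / T ^ 2)
    (hCT2 : C / T ^ 2 ≤ η) (hneg : χ2 < 0 → c₀ ≤ χ ∧ t ≤ 2 * T)
    (eA : |A0 - Real.log (1183 / 2000)| ≤ η) (eB : |B0 - Real.log (1183 / 2000)| ≤ η)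
    (eG : |G - Real.log dMin / 4| ≤ η) (ep : |p| ≤ η) (eq' : |q| ≤ η) (edp : |dp| ≤ η)
    (edq : |dq| ≤ η) (eg1 : |g1| ≤ η) (eg2 : |g2| ≤ η)
    (htail : dp + dq + (p + q) + 3 * (p ^ 2 + q ^ 2) ≤ 0)
    {a₁ b₁ a₂ b₂ a b : ℝ} (ha₁ : a₁ = p + (χ1 * (G - A0) + χ * (g1 - p)))
    (hb₁ : b₁ = q + (χ1 * (G - B0) + χ * (g1 - q)))
    (ha₂ : a₂ = dp + (χ2 * (G - A0) + χ1 * (g1 - p) + (χ1 * (g1 - p) + χ * (g2 - dp))))
    (hb₂ : b₂ = dq + (χ2 * (G - B0) + χ1 * (g1 - q) + (χ1 * (g1 - q) + χ * (g2 - dq))))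
    (ha : a = A0 + χ * (G - A0)) (hb : b = B0 + χ * (G - B0)) (hW : W t = diagW a b)
    (d1 : deriv W t = ![-2 * a₁ * Real.exp (-2 * a), -2 * b₁ * Real.exp (-2 * b), 0])
    (d2 : deriv (deriv W) t
      = ![(4 * a₁ ^ 2 - 2 * a₂) * Real.exp (-2 * a), (4 * b₁ ^ 2 - 2 * b₂) * Real.exp (-2 * b), 0])
    (d3 : radOf W t = -3 * ((a₂ + b₂) + (a₁ + b₁) + (a₁ ^ 2 + b₁ ^ 2))) :
    (∃ k ∈ pathSet, ‖W t - k‖ ≤ δ) ∧ ‖deriv W t‖ ≤ δ ∧ ‖deriv (deriv W) t‖ ≤ δ ∧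
      0 ≤ radOf W t := by
  obtain ⟨hlim1, hlim2, hlim3, hlim4⟩ := capLimit
  have bA := abs_le.1 eA
  have bB := abs_le.1 eB
  have bG := abs_le.1 eG
  have hGAn : G - A0 ≤ -(20 * η) := by linarith
  have hGBn : G - B0 ≤ -(20 * η) := by linarith
  have hGA1 : |G - A0| ≤ 1 := abs_le.2 ⟨by linarith, by linarith⟩
  have hGB1 : |G - B0| ≤ 1 := abs_le.2 ⟨by linarith, by linarith⟩
  obtain ⟨sa1, sa2⟩ := move_small hη0.le (by linarith) hχ0 hχle hχ10 hχ1b (hχ2b.trans hCT2)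
    eg1 eg2 ep edp hGA1
  obtain ⟨sb1, sb2⟩ := move_small hη0.le (by linarith) hχ0 hχle hχ10 hχ1b (hχ2b.trans hCT2)
    eg1 eg2 eq' edq hGB1
  rw [← ha₁] at sa1
  rw [← ha₂] at sa2
  rw [← hb₁] at sb1
  rw [← hb₂] at sb2
  have u1 : χ * (G - A0) ≤ 0 := mul_nonpos_of_nonneg_of_nonpos hχ0 (by linarith)
  have u2 : χ * (G - B0) ≤ 0 := mul_nonpos_of_nonneg_of_nonpos hχ0 (by linarith)
  have u3 : G - A0 ≤ χ * (G - A0) := le_mul_of_le_one_left (by linarith) hχle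
  have u4 : G - B0 ≤ χ * (G - B0) := le_mul_of_le_one_left (by linarith) hχle
  have hab : |a - b| ≤ 2 * η := by
    rw [show a - b = (1 - χ) * (A0 - B0) by rw [ha, hb]; ring, abs_mul,
      abs_of_nonneg (sub_nonneg.2 hχle)]
    exact (mul_le_of_le_one_left (abs_nonneg _) (by linarith)).trans
      (abs_le.2 ⟨by linarith, by linarith⟩)
  obtain ⟨n1, n2⟩ := diag_deriv_small (δ := δ) (a := a) (b := b) hη1 hηδ (by linarith)
    (by linarith) sa1 sb1 sa2 sb2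
  refine ⟨?_, d1 ▸ n1, d2 ▸ n2, ?_⟩
  · rw [hW]
    exact diagW_near hη0.le hη1 (by linarith) hab (by linarith) (by linarith)
  · rw [d3, neg_mul, neg_nonneg]
    refine mul_nonpos_of_nonneg_of_nonpos (by norm_num) ?_
    rw [ha₁, hb₁, ha₂, hb₂]
    exact cap_phi (η := η) hκ hC0 hc₀ hT hTg ht ht9 hX hg1d hg2d hη0 (by linarith) eg1 hχ0 hχle hχ10
      hχ1b hχ2b hneg ep eq' htail hGAn hGBn hGA1 hGB1

/-- For large `T` the cap is slow and admissible on `[T, ∞)`. -/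
theorem capWt_slow {κ : ℝ} (hκ : 0 < κ) {δ : ℝ} (hδ : 0 < δ) : ∀ᶠ T in atTop, ∀ t, T ≤ t →
    (∃ k ∈ pathSet, ‖capWt κ T t - k‖ ≤ δ) ∧ ‖deriv (capWt κ T) t‖ ≤ δ ∧
    ‖deriv (deriv (capWt κ T)) t‖ ≤ δ ∧ 0 ≤ radOf (capWt κ T) t := by
  obtain ⟨C, hC0, hC⟩ := capStep_bound
  obtain ⟨c₀, hc₀, hconc⟩ := capStep_concave
  obtain ⟨hlim1, hlim2, hlim3, hlim4⟩ := capLimit
  set lo := Real.log dMin / 4 with hlo
  set hi := Real.log (1183 / 2000) with hhi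
  set γ := hi - lo with hγ
  have hγ0 : 0 < γ := by linarith
  set η := min (δ / 600) (min (γ / 40) (1 / 1000)) with hη
  have hη0 : 0 < η := lt_min (by positivity) (lt_min (by positivity) (by norm_num))
  have hηδ : η ≤ δ / 600 := min_le_left _ _
  have hηγ : η ≤ γ / 40 := (min_le_right _ _).trans (min_le_left _ _)
  have hη1 : η ≤ 1 / 1000 := (min_le_right _ _).trans (min_le_right _ _)
  obtain ⟨hpL, hqL, hdpL, hdqL⟩ := tendsto_cap_slopes
  have hev : ∀ {f : ℝ → ℝ} {l : ℝ}, Tendsto f atTop (𝓝 l) → ∀ᶠ t in atTop, |f t - l| ≤ η :=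
    fun h => (h.eventually (Metric.closedBall_mem_nhds _ hη0)).mono fun t ht => ht
  have hg1 : Tendsto (fun t => -(κ / 32) * t ^ (-(9 / 8) : ℝ)) atTop (𝓝 0) := by
    simpa using (tendsto_rpow_neg_atTop (by norm_num : (0 : ℝ) < 9 / 8)).const_mul (-(κ / 32))
  have hg2 : Tendsto (fun t => 9 * κ / 256 * t ^ (-(17 / 8) : ℝ)) atTop (𝓝 0) := by
    simpa using (tendsto_rpow_neg_atTop (by norm_num : (0 : ℝ) < 17 / 8)).const_mul (9 * κ / 256)
  obtain ⟨t₀, ht₀⟩ := eventually_atTop.1 ((hev tendsto_capA0).and ((hev tendsto_capB0).and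
    ((hev (tendsto_quarterLog κ)).and ((hev hpL).and ((hev hqL).and ((hev hdpL).and ((hev hdqL).and
      ((hev hg1).and ((hev hg2).and (cap_tail.and (eventually_ge_atTop (9 : ℝ))))))))))))
  have hgrow : ∀ᶠ T : ℝ in atTop, 3 * C / (c₀ * (κ / 32)) * 2 ^ (9 / 8 : ℝ) ≤ T ^ (7 / 8 : ℝ) :=
    (tendsto_rpow_atTop (by norm_num)).eventually (eventually_ge_atTop _)
  filter_upwards [eventually_ge_atTop t₀, eventually_ge_atTop (C / η), eventually_ge_atTop (1 : ℝ),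
    hgrow] with T hT0 hTC hT1 hTg t htT
  have hT : 0 < T := lt_of_lt_of_le one_pos hT1
  have ht : 0 < t := lt_of_lt_of_le hT htT
  obtain ⟨eA, eB, eG, ep, eq', edp, edq, eg1, eg2, htail, ht9⟩ := ht₀ t (hT0.trans htT)
  simp only [sub_zero] at ep eq' edp edq eg1 eg2
  have hCT : C / T ≤ η := by
    rw [div_le_iff₀ hη0] at hTC
    rw [div_le_iff₀ hT]; linarith
  have hCT2 : C / T ^ 2 ≤ η := le_trans
    (div_le_div_of_nonneg_left hC0.le hT (by nlinarith only [hT1])) hCT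
  have hχ2b : |deriv (deriv capStep) ((t - T) / T) / T ^ 2| ≤ C / T ^ 2 := by
    rw [abs_div, abs_of_pos (pow_pos hT 2)]
    exact div_le_div_of_nonneg_right (hC _).2 (by positivity)
  have hneg : deriv (deriv capStep) ((t - T) / T) / T ^ 2 < 0 →
      c₀ ≤ capChi T t ∧ t ≤ 2 * T := fun h => by
    rw [div_lt_iff₀ (pow_pos hT 2), zero_mul] at h
    refine ⟨hconc _ h, ?_⟩
    by_contra h2
    rw [capStep_tail ((lt_div_iff₀ hT).2 (by linarith))] at h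
    exact lt_irrefl _ h
  obtain ⟨d1, d2, d3⟩ := capWt_derivs κ hT ht
  exact cap_point hκ hC0 hc₀ hT hTg ht ht9 rfl rfl rfl hη0 hη1 (by linarith) (by linarith)
    (capStep_nonneg _) (capStep_le_one _) (div_nonneg (deriv_capStep_nonneg _) hT.le)
    ((div_le_div_of_nonneg_right ((le_abs_self _).trans (hC _).1) hT.le).trans hCT)
    hχ2b hCT2 hneg eA eB eG ep eq' edp edq eg1 eg2 htail rfl rfl rfl rfl rfl rfl rfl d1 d2 d3

end

end Vale.Agent.P225
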