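import Vale.Agent.P225.Defs

/-!
P225: lengths of paths in one chart. A `C^1` function `ρ` with `|dρ| ≤ |·|_g` bounds the distance
from below, and makes the metric complete when its sublevel sets are compact.
-/

namespace Vale.Agent.P225

open scoped BigOperators Topology
open Set Filter MeasureTheory intervalIntegral

noncomputable section

variable {n : ℕ} {g : MetricField n} {U : Set (Pt n)} {x y z : Pt n}

/-- The squared `g`-length of the vector `v` at `x`. -/
def qForm (g : MetricField n) (x v : Pt n) : ℝ := ∑ i, ∑ j, g x i j * v i * v j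

/-- What the length lemmas need of a metric. -/
structure ContMetric (U : Set (Pt n)) (g : MetricField n) : Prop where
  isOpen : IsOpen U
  cont : ∀ i j, ContinuousOn (fun x => g x i j) U
  posDef : ∀ x ∈ U, (g x).PosDef

/-- A path from `x` to `y` that stands still outside `[0,1]`. -/
structure StillPath (U : Set (Pt n)) (x y : Pt n) (γ : ℝ → Pt n) : Prop where
  smooth : ContDiff ℝ 1 γ
  mem : ∀ t, γ t ∈ U
  before : ∀ t ≤ 0, γ t = x
  after : ∀ t, 1 ≤ t → γ t = y

theorem pathLength_eq (γ : ℝ → Pt n) :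
    pathLength g γ = ∫ t in (0 : ℝ)..1, Real.sqrt (qForm g (γ t) (deriv γ t)) := rfl

theorem qForm_smul (c : ℝ) (v : Pt n) : qForm g x (c • v) = c ^ 2 * qForm g x v := by
  simp only [qForm, Pi.smul_apply, smul_eq_mul, Finset.mul_sum]
  exact Finset.sum_congr rfl fun i _ => Finset.sum_congr rfl fun j _ => by ring

theorem sqrt_qForm_smul {c : ℝ} (hc : 0 ≤ c) (v : Pt n) :
    Real.sqrt (qForm g x (c • v)) = c * Real.sqrt (qForm g x v) := by
  rw [qForm_smul, Real.sqrt_mul (sq_nonneg c), Real.sqrt_sq hc]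

theorem ContMetric.continuous_speed (hg : ContMetric U g) {γ : ℝ → Pt n} (hγ : ContDiff ℝ 1 γ)
    {s : Set ℝ} (hU : ∀ t ∈ s, γ t ∈ U) :
    ContinuousOn (fun t => Real.sqrt (qForm g (γ t) (deriv γ t))) s := by
  have hd : Continuous (deriv γ) := hγ.continuous_deriv le_rfl
  have hd' : ∀ i, ContinuousOn (fun t => deriv γ t i) s := fun i =>
    ((continuous_apply i).comp hd).continuousOn
  have hg' : ∀ i j, ContinuousOn (fun t => g (γ t) i j) s := fun i j =>
    (hg.cont i j).comp hγ.continuous.continuousOn hU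
  exact Real.continuous_sqrt.comp_continuousOn (continuousOn_finsetSum _ fun i _ =>
    continuousOn_finsetSum _ fun j _ => ((hg' i j).mul (hd' i)).mul (hd' j))

theorem pathLength_nonneg (γ : ℝ → Pt n) : 0 ≤ pathLength g γ :=
  integral_nonneg zero_le_one fun _ _ => Real.sqrt_nonneg _

theorem dist_nonneg' : 0 ≤ dist U g x y :=
  Real.sInf_nonneg (by rintro _ ⟨γ, -, -, -, -, rfl⟩; exact pathLength_nonneg γ)

theorem dist_le_pathLength {γ : ℝ → Pt n} (hγ : ContDiff ℝ 1 γ)
    (hU : ∀ t ∈ Icc (0 : ℝ) 1, γ t ∈ U) (h0 : γ 0 = x) (h1 : γ 1 = y) :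
    dist U g x y ≤ pathLength g γ :=
  csInf_le ⟨0, by rintro _ ⟨δ, -, -, -, -, rfl⟩; exact pathLength_nonneg δ⟩
    ⟨γ, hγ, hU, h0, h1, rfl⟩

theorem deriv_eq_zero_of_const_left {γ : ℝ → Pt n} (hγ : ContDiff ℝ 1 γ) {a : ℝ} {c : Pt n}
    (h : ∀ t ≤ a, γ t = c) {t : ℝ} (ht : t ≤ a) : deriv γ t = 0 := by
  have hd := (hγ.differentiable one_ne_zero t).hasDerivAt.hasDerivWithinAt (s := Iic t)
  have hc : HasDerivWithinAt γ 0 (Iic t) t :=
    (hasDerivWithinAt_const (x := t) (s := Iic t) (c := c)).congr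
      (fun u hu => h u (le_trans hu ht)) (h t ht)
  exact (uniqueDiffWithinAt_Iic t).eq_deriv _ hd hc

theorem deriv_eq_zero_of_const_right {γ : ℝ → Pt n} (hγ : ContDiff ℝ 1 γ) {a : ℝ} {c : Pt n}
    (h : ∀ t, a ≤ t → γ t = c) {t : ℝ} (ht : a ≤ t) : deriv γ t = 0 := by
  have hd := (hγ.differentiable one_ne_zero t).hasDerivAt.hasDerivWithinAt (s := Ici t)
  have hc : HasDerivWithinAt γ 0 (Ici t) t :=
    (hasDerivWithinAt_const (x := t) (s := Ici t) (c := c)).congr
      (fun u hu => h u (le_trans ht hu)) (h t ht)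
  exact (uniqueDiffWithinAt_Ici t).eq_deriv _ hd hc

theorem transition_mem (t : ℝ) : Real.smoothTransition t ∈ Icc (0 : ℝ) 1 :=
  ⟨Real.smoothTransition.nonneg t, Real.smoothTransition.le_one t⟩

/-- Every path can be made to stand still outside `[0,1]` without changing its length. -/
theorem ContMetric.exists_stillPath (hg : ContMetric U g) {γ : ℝ → Pt n} (hγ : ContDiff ℝ 1 γ)
    (hU : ∀ t ∈ Icc (0 : ℝ) 1, γ t ∈ U) :
    ∃ δ, StillPath U (γ 0) (γ 1) δ ∧ pathLength g δ = pathLength g γ := by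
  have hst : ContDiff ℝ 1 Real.smoothTransition :=
    (Real.smoothTransition.contDiff (n := 1))
  refine ⟨fun t => γ (Real.smoothTransition t), ⟨hγ.comp hst, fun t => hU _ (transition_mem t),
    fun t ht => by rw [Real.smoothTransition.zero_of_nonpos ht],
    fun t ht => by rw [Real.smoothTransition.one_of_one_le ht]⟩, ?_⟩
  have hder : ∀ t, HasDerivAt Real.smoothTransition (deriv Real.smoothTransition t) t := fun t =>
    (hst.differentiable one_ne_zero t).hasDerivAt
  have hpt : ∀ t, Real.sqrt (qForm g (γ (Real.smoothTransition t))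
      (deriv (fun t => γ (Real.smoothTransition t)) t))
      = Real.sqrt (qForm g (γ (Real.smoothTransition t)) (deriv γ (Real.smoothTransition t)))
        * deriv Real.smoothTransition t := by
    intro t
    have h := ((hγ.differentiable one_ne_zero _).hasDerivAt).scomp t (hder t)
    rw [show deriv (fun t => γ (Real.smoothTransition t)) t = _ from h.deriv,
      sqrt_qForm_smul (Real.smoothTransition.monotone.deriv_nonneg (x := t)), mul_comm]
  rw [pathLength_eq, pathLength_eq, integral_congr fun t _ => hpt t]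
  have := integral_comp_mul_deriv' (a := 0) (b := 1) (fun t _ => hder t)
    (hst.continuous_deriv le_rfl).continuousOn
    (g := fun u => Real.sqrt (qForm g (γ u) (deriv γ u))) ?_
  · simpa using this
  · refine hg.continuous_speed hγ fun u hu => hU u ?_
    obtain ⟨t, -, rfl⟩ := hu
    exact transition_mem t

/-- Two standing paths concatenate. -/
theorem ContMetric.exists_append (hg : ContMetric U g) {α β : ℝ → Pt n}
    (ha : StillPath U x y α) (hb : StillPath U y z β) :
    ∃ γ, StillPath U x z γ ∧ pathLength g γ = pathLength g α + pathLength g β := by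
  set γ : ℝ → Pt n := fun t => α (2 * t) + β (2 * t - 1) - y with hγd
  have hle : ∀ t ≤ (1 / 2 : ℝ), γ t = α (2 * t) := fun t ht => by
    simp only [hγd, hb.before (2 * t - 1) (by linarith)]; abel
  have hge : ∀ t, (1 / 2 : ℝ) ≤ t → γ t = β (2 * t - 1) := fun t ht => by
    simp only [hγd, ha.after (2 * t) (by linarith)]; abel
  have hsm : ContDiff ℝ 1 γ :=
    ((ha.smooth.comp (contDiff_const.mul contDiff_id)).add
      (hb.smooth.comp ((contDiff_const.mul contDiff_id).sub contDiff_const))).sub contDiff_const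
  have hmem : ∀ t, γ t ∈ U := fun t => by
    rcases le_total t (1 / 2 : ℝ) with h | h
    · rw [hle t h]; exact ha.mem _
    · rw [hge t h]; exact hb.mem _
  refine ⟨γ, ⟨hsm, hmem, fun t ht => by rw [hle t (by linarith)]; exact ha.before _ (by linarith),
    fun t ht => by rw [hge t (by linarith)]; exact hb.after _ (by linarith)⟩, ?_⟩
  have hd : ∀ t, deriv γ t = (2 : ℝ) • deriv α (2 * t) + (2 : ℝ) • deriv β (2 * t - 1) := by
    intro t
    have h1 := ((ha.smooth.differentiable one_ne_zero _).hasDerivAt).scomp t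
      ((hasDerivAt_id t).const_mul (2 : ℝ))
    have h2 := ((hb.smooth.differentiable one_ne_zero _).hasDerivAt).scomp t
      (((hasDerivAt_id t).const_mul (2 : ℝ)).sub_const 1)
    have h3 := ((h1.add h2).sub_const y).deriv
    simpa [hγd, Function.comp_def] using h3
  have hsp := hg.continuous_speed hsm (s := univ) (fun t _ => hmem t)
  rw [continuousOn_univ] at hsp
  rw [pathLength_eq, ← integral_add_adjacent_intervals (b := (1 / 2 : ℝ))
    (hsp.intervalIntegrable _ _) (hsp.intervalIntegrable _ _)]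
  have i1 : ∀ t ∈ uIcc (0 : ℝ) (1 / 2), Real.sqrt (qForm g (γ t) (deriv γ t))
      = 2 * Real.sqrt (qForm g (α (2 * t)) (deriv α (2 * t))) := by
    intro t ht
    rw [uIcc_of_le (by norm_num)] at ht
    rw [hle t ht.2, hd, deriv_eq_zero_of_const_left hb.smooth hb.before (by linarith [ht.2]),
      smul_zero, add_zero, sqrt_qForm_smul zero_le_two]
  have i2 : ∀ t ∈ uIcc (1 / 2 : ℝ) 1, Real.sqrt (qForm g (γ t) (deriv γ t))
      = 2 * Real.sqrt (qForm g (β (2 * t - 1)) (deriv β (2 * t - 1))) := by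
    intro t ht
    rw [uIcc_of_le (by norm_num)] at ht
    rw [hge t ht.1, hd, deriv_eq_zero_of_const_right ha.smooth ha.after (by linarith [ht.1]),
      smul_zero, zero_add, sqrt_qForm_smul zero_le_two]
  rw [integral_congr i1, integral_congr i2, pathLength_eq, pathLength_eq,
    intervalIntegral.integral_const_mul, intervalIntegral.integral_const_mul,
    intervalIntegral.mul_integral_comp_mul_left (f := fun u => Real.sqrt (qForm g (α u) (deriv α u))),
    intervalIntegral.mul_integral_comp_mul_sub (f := fun u => Real.sqrt (qForm g (β u) (deriv β u)))]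
  norm_num

theorem ContMetric.exists_segment (hg : ContMetric U g) (hx : x ∈ U) :
    ∃ r > 0, ∃ M ≥ 0, Metric.closedBall x r ⊆ U ∧ ∀ y ∈ Metric.closedBall x r,
      ∃ γ, StillPath U x y γ ∧ pathLength g γ ≤ M * ‖y - x‖ := by
  obtain ⟨r, hr, hsub⟩ := Metric.nhds_basis_closedBall.mem_iff.1 (hg.isOpen.mem_nhds hx)
  have hbd : ∀ i j, ∃ B, ∀ u ∈ Metric.closedBall x r, ‖g u i j‖ ≤ B := fun i j =>
    (isCompact_closedBall x r).exists_bound_of_continuousOn ((hg.cont i j).mono hsub)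
  choose B hB using hbd
  refine ⟨r, hr, Real.sqrt (∑ i, ∑ j, |B i j|), Real.sqrt_nonneg _, hsub, fun y hy => ?_⟩
  set ℓ : ℝ → Pt n := fun t => x + t • (y - x)
  have hball : ∀ t ∈ Icc (0 : ℝ) 1, ℓ t ∈ Metric.closedBall x r := by
    intro t ht
    rw [Metric.mem_closedBall, dist_eq_norm] at hy ⊢
    simp only [ℓ, add_sub_cancel_left, norm_smul, Real.norm_eq_abs, abs_of_nonneg ht.1]
    exact (mul_le_of_le_one_left (norm_nonneg _) ht.2).trans hy
  have hl : ContDiff ℝ 1 ℓ := contDiff_const.add (contDiff_id.smul contDiff_const)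
  obtain ⟨δ, hδ, hlen⟩ := hg.exists_stillPath hl fun t ht => hsub (hball t ht)
  refine ⟨δ, by simpa [ℓ] using hδ, hlen.trans_le ?_⟩
  have hd : ∀ t, deriv ℓ t = y - x := fun t => by
    have h1 : HasDerivAt ℓ ((1 : ℝ) • (y - x)) t :=
      ((hasDerivAt_id t).smul_const (y - x)).const_add x
    simpa using h1.deriv
  rw [pathLength_eq]
  calc ∫ t in (0 : ℝ)..1, Real.sqrt (qForm g (ℓ t) (deriv ℓ t))
      ≤ ∫ _t in (0 : ℝ)..1, Real.sqrt (∑ i, ∑ j, |B i j|) * ‖y - x‖ := by
        refine integral_mono_on zero_le_one ?_ intervalIntegrable_const fun t ht => ?_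
        · refine (hg.continuous_speed hl fun t ht => hsub (hball t ?_)).intervalIntegrable
          rwa [uIcc_of_le zero_le_one] at ht
        rw [← Real.sqrt_sq (norm_nonneg (y - x)), ← Real.sqrt_mul' _ (sq_nonneg _), hd]
        refine Real.sqrt_le_sqrt ?_
        simp only [qForm, Finset.sum_mul]
        refine Finset.sum_le_sum fun i _ => Finset.sum_le_sum fun j _ => ?_
        refine (le_abs_self _).trans ?_
        have h1 := (hB i j _ (hball t ht)).trans (le_abs_self _)
        rw [Real.norm_eq_abs] at h1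
        rw [abs_mul, abs_mul, mul_assoc, sq]
        exact mul_le_mul h1 (mul_le_mul (norm_le_pi_norm (y - x) i) (norm_le_pi_norm (y - x) j)
          (abs_nonneg _) (norm_nonneg _)) (by positivity) (abs_nonneg _)
    _ = _ := by simp

theorem ContMetric.symm_still (hg : ContMetric U g) {α : ℝ → Pt n} (ha : StillPath U x y α) :
    ∃ γ, StillPath U y x γ ∧ pathLength g γ = pathLength g α := by
  refine ⟨fun t => α (1 - t), ⟨ha.smooth.comp (contDiff_const.sub contDiff_id),
    fun t => ha.mem _, fun t ht => ha.after _ (by linarith),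
    fun t ht => ha.before _ (by linarith)⟩, ?_⟩
  have hd : ∀ t, deriv (fun t => α (1 - t)) t = -deriv α (1 - t) := fun t => by
    rw [deriv_comp_const_sub]
  have hq : ∀ u v : Pt n, qForm g u (-v) = qForm g u v := fun u v => by simp [qForm]
  simp only [pathLength_eq, hd, hq]
  simpa using intervalIntegral.integral_comp_sub_left
    (fun u => Real.sqrt (qForm g (α u) (deriv α u))) (a := 0) (b := 1) (1 : ℝ)

/-- Any two points of a connected chart are joined by a path. -/
theorem ContMetric.exists_path (hg : ContMetric U g) (hc : IsConnected U) (hx : x ∈ U)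
    (hy : y ∈ U) : ∃ γ, StillPath U x y γ := by
  let A := {u | ∃ γ, StillPath U x u γ}
  let B := {u ∈ U | ¬ ∃ γ, StillPath U x u γ}
  have hA : IsOpen A := by
    refine Metric.isOpen_iff.2 fun u ⟨γ, hγ⟩ => ?_
    have hu : u ∈ U := hγ.after 1 le_rfl ▸ hγ.mem 1
    obtain ⟨r, hr, M, -, -, hseg⟩ := hg.exists_segment hu
    refine ⟨r, hr, fun v hv => ?_⟩
    obtain ⟨δ, hδ, -⟩ := hseg v (Metric.ball_subset_closedBall hv)
    obtain ⟨ε, hε, -⟩ := hg.exists_append hγ hδ
    exact ⟨ε, hε⟩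
  have hB : IsOpen B := by
    refine Metric.isOpen_iff.2 fun u ⟨hu, hno⟩ => ?_
    obtain ⟨r, hr, M, -, hsub, hseg⟩ := hg.exists_segment hu
    refine ⟨r, hr, fun v hv => ⟨hsub (Metric.ball_subset_closedBall hv), fun ⟨γ, hγ⟩ => hno ?_⟩⟩
    obtain ⟨δ, hδ, -⟩ := hseg v (Metric.ball_subset_closedBall hv)
    obtain ⟨δ', hδ', -⟩ := hg.symm_still hδ
    obtain ⟨ε, hε, -⟩ := hg.exists_append hγ hδ'
    exact ⟨ε, hε⟩
  have hxA : x ∈ A := ⟨fun _ => x, contDiff_const, fun _ => hx, fun _ _ => rfl, fun _ _ => rfl⟩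
  by_contra hno
  obtain ⟨u, -, hu1, hu2⟩ := hc.isPreconnected A B hA hB
    (fun u hu => (em (∃ γ, StillPath U x u γ)).imp id fun h => ⟨hu, h⟩) ⟨x, hx, hxA⟩
    ⟨y, hy, hy, hno⟩
  exact hu2.2 hu1

theorem ContMetric.dist_comm' (hg : ContMetric U g) (hc : IsConnected U) (hx : x ∈ U)
    (hy : y ∈ U) : dist U g x y = dist U g y x := by
  have key : ∀ {a b}, a ∈ U → b ∈ U → dist U g a b ≤ dist U g b a := by
    intro a b ha hb
    obtain ⟨δ₀, hδ₀⟩ := hg.exists_path hc hb ha
    refine le_csInf ⟨_, δ₀, hδ₀.smooth, fun t _ => hδ₀.mem t, hδ₀.before 0 le_rfl,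
      hδ₀.after 1 le_rfl, rfl⟩ ?_
    rintro _ ⟨γ, hγ, hU, h0, h1, rfl⟩
    obtain ⟨δ, hδ, hlen⟩ := hg.exists_stillPath hγ hU
    obtain ⟨ε, hε, hlen'⟩ := hg.symm_still hδ
    rw [← hlen, ← hlen']
    exact dist_le_pathLength hε.smooth (fun t _ => hε.mem t) ((hε.before 0 le_rfl).trans h1)
      ((hε.after 1 le_rfl).trans h0)
  exact le_antisymm (key hx hy) (key hy hx)

theorem ContMetric.dist_triangle' (hg : ContMetric U g) (hc : IsConnected U) (hx : x ∈ U)
    (hy : y ∈ U) (hz : z ∈ U) : dist U g x z ≤ dist U g x y + dist U g y z := by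
  obtain ⟨α₀, hα₀⟩ := hg.exists_path hc hx hy
  obtain ⟨β₀, hβ₀⟩ := hg.exists_path hc hy hz
  have h1 : dist U g x z - dist U g y z ≤ dist U g x y := by
    refine le_csInf ⟨_, α₀, hα₀.smooth, fun t _ => hα₀.mem t, hα₀.before 0 le_rfl,
      hα₀.after 1 le_rfl, rfl⟩ ?_
    rintro _ ⟨α, hα, hαU, ha0, ha1, rfl⟩
    have h2 : dist U g x z - pathLength g α ≤ dist U g y z := by
      refine le_csInf ⟨_, β₀, hβ₀.smooth, fun t _ => hβ₀.mem t, hβ₀.before 0 le_rfl,
        hβ₀.after 1 le_rfl, rfl⟩ ?_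
      rintro _ ⟨β, hβ, hβU, hb0, hb1, rfl⟩
      obtain ⟨α', hα', la⟩ := hg.exists_stillPath hα hαU
      obtain ⟨β', hβ', lb⟩ := hg.exists_stillPath hβ hβU
      rw [ha0, ha1] at hα'
      rw [hb0, hb1] at hβ'
      obtain ⟨γ, hγ, lg⟩ := hg.exists_append hα' hβ'
      have := dist_le_pathLength (g := g) hγ.smooth (fun t _ => hγ.mem t) (hγ.before 0 le_rfl)
        (hγ.after 1 le_rfl)
      linarith
    linarith
  linarith

/-- A short-gradient function does not grow faster than the length. -/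
theorem ContMetric.abs_sub_le_pathLength (hg : ContMetric U g) {ρ : Pt n → ℝ}
    (hρ : ContDiffOn ℝ 1 ρ U) (hgrad : ∀ x ∈ U, ∀ v, (fderiv ℝ ρ x v) ^ 2 ≤ qForm g x v)
    {γ : ℝ → Pt n} (hγ : ContDiff ℝ 1 γ) (hU : ∀ t ∈ Icc (0 : ℝ) 1, γ t ∈ U) :
    |ρ (γ 1) - ρ (γ 0)| ≤ pathLength g γ := by
  have hu : uIcc (0 : ℝ) 1 = Icc 0 1 := uIcc_of_le zero_le_one
  have hder : ∀ t ∈ uIcc (0 : ℝ) 1,
      HasDerivAt (fun t => ρ (γ t)) (fderiv ℝ ρ (γ t) (deriv γ t)) t := by
    intro t ht
    rw [hu] at ht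
    have h1 := ((hρ.contDiffAt (hg.isOpen.mem_nhds (hU t ht))).differentiableAt
      one_ne_zero).hasFDerivAt
    exact h1.comp_hasDerivAt t (hγ.differentiable one_ne_zero t).hasDerivAt
  have hcont : ContinuousOn (fun t => fderiv ℝ ρ (γ t) (deriv γ t)) (uIcc (0 : ℝ) 1) := by
    rw [hu]
    exact ((hρ.continuousOn_fderiv_of_isOpen hg.isOpen le_rfl).comp hγ.continuous.continuousOn
      hU).clm_apply (hγ.continuous_deriv le_rfl).continuousOn
  rw [← integral_eq_sub_of_hasDerivAt hder hcont.intervalIntegrable, pathLength_eq]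
  refine (abs_integral_le_integral_abs zero_le_one).trans ?_
  refine integral_mono_on zero_le_one hcont.intervalIntegrable.abs
    ((hg.continuous_speed hγ (fun t ht => hU t (hu ▸ ht))).intervalIntegrable) fun t ht => ?_
  exact Real.abs_le_sqrt (hgrad _ (hU t ht) _)

/-- The distance is at least the difference of a short-gradient function. -/
theorem ContMetric.le_dist (hg : ContMetric U g) (hc : IsConnected U) {ρ : Pt n → ℝ}
    (hρ : ContDiffOn ℝ 1 ρ U) (hgrad : ∀ x ∈ U, ∀ v, (fderiv ℝ ρ x v) ^ 2 ≤ qForm g x v)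
    (hx : x ∈ U) (hy : y ∈ U) : |ρ y - ρ x| ≤ dist U g x y := by
  obtain ⟨δ, hδ⟩ := hg.exists_path hc hx hy
  refine le_csInf ⟨_, δ, hδ.smooth, fun t _ => hδ.mem t, hδ.before 0 le_rfl,
    hδ.after 1 le_rfl, rfl⟩ ?_
  rintro _ ⟨γ, hγ, hU, rfl, rfl, rfl⟩
  exact hg.abs_sub_le_pathLength hρ hgrad hγ hU

/-- A short-gradient function with compact sublevel sets makes the chart complete. -/
theorem ContMetric.complete_of_proper (hg : ContMetric U g) (hc : IsConnected U) {ρ : Pt n → ℝ}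
    (hρ : ContDiffOn ℝ 1 ρ U) (hgrad : ∀ x ∈ U, ∀ v, (fderiv ℝ ρ x v) ^ 2 ≤ qForm g x v)
    (hproper : ∀ R, IsCompact {x | x ∈ U ∧ ρ x ≤ R}) (s : ℕ → Pt n) (hs : ∀ m, s m ∈ U)
    (hcau : ∀ ε > 0, ∃ N, ∀ a ≥ N, ∀ b ≥ N, dist U g (s a) (s b) < ε) :
    ∃ x ∈ U, Tendsto (fun m => dist U g (s m) x) atTop (nhds 0) := by
  obtain ⟨N, hN⟩ := hcau 1 one_pos
  have hmem : ∀ m, s (N + m) ∈ {x | x ∈ U ∧ ρ x ≤ ρ (s N) + 1} := fun m => by
    refine ⟨hs _, ?_⟩
    have := (abs_le.1 ((hg.le_dist hc hρ hgrad (hs N) (hs (N + m))).trans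
      (hN N le_rfl (N + m) (by omega)).le)).2
    linarith
  obtain ⟨x, ⟨hx, -⟩, φ, hφ, hlim⟩ := (hproper _).tendsto_subseq hmem
  refine ⟨x, hx, Metric.tendsto_atTop.2 fun ε hε => ?_⟩
  obtain ⟨r, hr, M, hM, -, hseg⟩ := hg.exists_segment hx
  obtain ⟨N', hN'⟩ := hcau (ε / 2) (by linarith)
  have hε' : 0 < min r (ε / (2 * (M + 1))) := lt_min hr (by positivity)
  obtain ⟨K, hK⟩ := Metric.tendsto_atTop.1 hlim _ hε'
  refine ⟨N', fun m hm => ?_⟩
  set k := max K N'
  have hk : Dist.dist (s (N + φ k)) x < min r (ε / (2 * (M + 1))) := hK k (le_max_left _ _)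
  have hkN : N' ≤ N + φ k := le_add_left ((le_max_right K N').trans hφ.le_apply)
  obtain ⟨γ, hγ, hlen⟩ := hseg (s (N + φ k))
    (Metric.mem_closedBall.2 (hk.le.trans (min_le_left _ _)))
  obtain ⟨γ', hγ', hlen'⟩ := hg.symm_still hγ
  have h1 := dist_le_pathLength (g := g) hγ'.smooth (fun t _ => hγ'.mem t) (hγ'.before 0 le_rfl)
    (hγ'.after 1 le_rfl)
  have h2 : M * ‖s (N + φ k) - x‖ < ε / 2 := by
    rw [← dist_eq_norm]
    have h3 := hk.trans_le (min_le_right _ _)
    rw [lt_div_iff₀ (by positivity)] at h3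
    nlinarith [_root_.dist_nonneg (x := s (N + φ k)) (y := x)]
  have h4 := hg.dist_triangle' hc (hs m) (hs (N + φ k)) hx
  have h5 := hN' m hm _ hkN
  rw [Real.dist_eq, sub_zero, abs_of_nonneg dist_nonneg']
  linarith

end

end Vale.Agent.P225
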