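import Vale.Agent.P225.Geom.CapCore
import Vale.Agent.P225.Geom.Length

/-!
P225: the global metric is complete, `√rsq` grows at most like the distance, and the hypotheses
under which it has nonnegative Ricci curvature.
-/

namespace Vale.Agent.P225

open scoped BigOperators ContDiff
open Set Filter Matrix

noncomputable section

/-- A smooth substitute for the radius. -/
def rad1 (x : Pt 7) : ℝ := Real.sqrt (1 + rsq x)

theorem contDiffOn_rad1 : ContDiffOn ℝ 1 rad1 chart :=
  (contDiffOn_const.add (contDiffOn_rsq.of_le (by norm_num))).sqrt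
    fun x _ => by linarith [rsq_nonneg x]

theorem rad1_le (x : Pt 7) : Real.sqrt (rsq x) ≤ rad1 x :=
  Real.sqrt_le_sqrt (by linarith)

theorem fderiv_rad1 {x : Pt 7} (hx : x ∈ chart) (v : Pt 7) :
    fderiv ℝ rad1 x v = (xc x ⬝ᵥ dxc x v) / rad1 x := by
  have h : fderiv ℝ rad1 x = _ :=
    ((differentiableAt_rsq hx).hasFDerivAt.const_add 1).sqrt
      (by linarith [rsq_nonneg x]) |>.fderiv
  have h2 := dirDeriv_rsq hx v
  simp only [dirDeriv] at h2
  rw [h]
  simp only [_root_.smul_apply, smul_eq_mul, h2, rad1]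
  ring

/-- A radial cone metric dominates `dr²`. -/
theorem qForm_coneMetric {N : Pt 7 → M6} {x : Pt 7} (hx : x ∈ chartOff) (v : Pt 7) :
    (xc x ⬝ᵥ dxc x v) ^ 2 / rsq x ≤ qForm (coneMetric fun y => lift7 (N y)) x v := by
  have e : qForm (coneMetric fun y => lift7 (N y)) x v
      = rsq x * ∑ a, (∑ i, v i * ∑ p, lift7 (N x) a p * baseCo p i x) ^ 2 := by
    simp only [qForm, coneMetric, of_apply, sq (∑ i, v i * _), Finset.sum_mul_sum]
    simp only [Finset.mul_sum, Finset.sum_mul]
    rw [Finset.sum_comm (s := (Finset.univ : Finset (Fin 7))) (t := (Finset.univ : Finset (Fin 7)))]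
    conv_rhs => rw [Finset.sum_comm]; enter [2, i]; rw [Finset.sum_comm]
    rw [Finset.sum_comm]
    refine Finset.sum_congr rfl fun i _ => Finset.sum_congr rfl fun j _ =>
      Finset.sum_congr rfl fun a _ => ?_
    rw [Finset.sum_comm]
    exact Finset.sum_congr rfl fun p _ => Finset.sum_congr rfl fun q _ => by ring
  have h0 : ∑ i, v i * ∑ p, lift7 (N x) 0 p * baseCo p i x = (xc x ⬝ᵥ dxc x v) / rsq x := by
    simp only [sum_fin7 (A := ℝ) (fun p => lift7 (N x) 0 p * _), lift7_zero_zero, lift7_zero_idx,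
      zero_mul, Finset.sum_const_zero, add_zero, one_mul, baseCo_zero]
    simp only [dotProduct, Finset.sum_div, Finset.mul_sum, ← dxc_sum x v]
    rw [Finset.sum_comm]
    refine Finset.sum_congr rfl fun i _ => ?_
    exact Finset.sum_congr rfl fun k _ => by ring
  rw [e]
  refine le_trans (le_of_eq ?_) (mul_le_mul_of_nonneg_left
    (Finset.single_le_sum (fun a _ => sq_nonneg _) (Finset.mem_univ (0 : Fin 7))) hx.2.le)
  have := ne_of_gt hx.2
  rw [h0]
  field_simp

theorem isCompact_rad1_le (R : ℝ) : IsCompact {x | x ∈ chart ∧ rad1 x ≤ R} := by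
  set K := {x : Pt 7 | ys x ∈ Icc (Real.exp (-(2 * R))) (Real.exp (2 * R)) ∧
    ‖x‖ ≤ Real.exp R + |R|} with hK
  have hKc : IsCompact K := by
    refine (isCompact_closedBall (0 : Pt 7) (Real.exp R + |R|)).of_isClosed_subset
      ((isClosed_Icc.preimage contDiff_ys.continuous).inter
        (isClosed_le continuous_norm continuous_const)) fun x hx => by
      simpa [Metric.mem_closedBall] using hx.2
  have hKs : K ⊆ chart := fun x hx => lt_of_lt_of_le (Real.exp_pos _) hx.1.1
  have heq : {x | x ∈ chart ∧ rad1 x ≤ R} = K ∩ rad1 ⁻¹' Iic R := by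
    ext x
    refine ⟨fun ⟨hx, hR⟩ => ⟨?_, hR⟩, fun ⟨hx, hR⟩ => ⟨hKs hx, hR⟩⟩
    have hcomp : ∀ i, |xc x i| ≤ R := fun i => by
      refine le_trans (Real.abs_le_sqrt ?_) hR
      rw [sq]
      exact le_trans (Finset.single_le_sum (f := fun k => xc x k * xc x k)
        (fun k _ => mul_self_nonneg _) (Finset.mem_univ i)) (le_add_of_nonneg_left zero_le_one)
    have hR0 : 0 ≤ R := le_trans (abs_nonneg _) (hcomp 0)
    have hy : 0 < ys x := hx
    have hl : |Real.log (ys x)| ≤ 2 * R := by
      have := hcomp 0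
      simp only [xc, cons_val_zero, abs_div, abs_two] at this
      linarith [(div_le_iff₀ (two_pos (α := ℝ))).1 this]
    have hys : ys x ∈ Icc (Real.exp (-(2 * R))) (Real.exp (2 * R)) := by
      rw [mem_Icc, ← Real.exp_log hy, Real.exp_le_exp, Real.exp_le_exp]
      exact abs_le.1 hl
    refine ⟨hys, (pi_norm_le_iff_of_nonneg (by positivity)).2 fun k => ?_⟩
    have hsq : ∀ j : Fin 4, |yc x j| ≤ Real.exp R := fun j => by
      refine abs_le_of_sq_le_sq ?_ (Real.exp_pos _).le
      rw [← Real.exp_nat_mul, Nat.cast_ofNat, sq]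
      exact (Finset.single_le_sum (f := fun k => yc x k * yc x k) (fun k _ => mul_self_nonneg _)
        (Finset.mem_univ j)).trans (((ys_eq x).le).trans hys.2)
    rw [Real.norm_eq_abs, abs_of_nonneg hR0]
    have he := Real.exp_pos R
    fin_cases k
    · exact (hsq 0).trans (le_add_of_nonneg_right hR0)
    · exact (hsq 1).trans (le_add_of_nonneg_right hR0)
    · exact (hsq 2).trans (le_add_of_nonneg_right hR0)
    · exact (hsq 3).trans (le_add_of_nonneg_right hR0)
    · exact (hcomp 1).trans (le_add_of_nonneg_left he.le)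
    · exact (hcomp 2).trans (le_add_of_nonneg_left he.le)
    · exact (hcomp 3).trans (le_add_of_nonneg_left he.le)
  rw [heq]
  exact hKc.of_isClosed_subset
    ((contDiffOn_rad1.continuousOn.mono hKs).preimage_isClosed_of_isClosed hKc.isClosed
      isClosed_Iic) inter_subset_left

variable {κ : ℝ} {C : CapData κ} {S : Sched} {F : ModelFields Sph} {τ : Params}

namespace EndHyps

variable (H : EndHyps C S F τ)
include H

theorem contMetric : ContMetric chart (globalMetric C S F τ) :=
  ⟨isOpen_chart, fun i j => (H.smooth i j).continuousOn, fun _ hx => H.posDef hx⟩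

theorem grad_rad1 {x : Pt 7} (hx : x ∈ chart) (v : Pt 7) :
    (fderiv ℝ rad1 x v) ^ 2 ≤ qForm (globalMetric C S F τ) x v := by
  rw [fderiv_rad1 hx, div_pow, rad1, Real.sq_sqrt (by linarith [rsq_nonneg x])]
  rcases chart_cases hx with h | h
  · have hxc : xc x = 0 := dotProduct_self_eq_zero.1 h
    rw [hxc, zero_dotProduct, zero_pow two_ne_zero, zero_div]
    have := (H.posDef hx).posSemidef.dotProduct_mulVec_nonneg v
    simp only [star_trivial, dotProduct, mulVec, Finset.mul_sum] at this
    refine this.trans (le_of_eq ?_)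
    exact Finset.sum_congr rfl fun i _ => Finset.sum_congr rfl fun j _ => by ring
  · obtain ⟨I, M, N, ht, hR, -⟩ := H.exists_root (tlog x)
    have e : globalMetric C S F τ x = coneMetric (fun z => lift7 (N (tlog z, sph z))) x := by
      rw [eq_warp h, hR.warpLocal.cone_eq ⟨h, ht⟩]
    have hq := qForm_coneMetric (N := fun z => N (tlog z, sph z)) h v
    have e' : qForm (coneMetric fun z => lift7 (N (tlog z, sph z))) x v
        = qForm (globalMetric C S F τ) x v := by simp only [qForm, e]
    refine le_trans ?_ (hq.trans_eq e')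
    exact div_le_div_of_nonneg_left (sq_nonneg _) h.2 (by linarith)

theorem complete (s : ℕ → Pt 7) (hs : ∀ m, s m ∈ chart)
    (hcau : ∀ ε > 0, ∃ N, ∀ a ≥ N, ∀ b ≥ N,
      dist chart (globalMetric C S F τ) (s a) (s b) < ε) :
    ∃ x ∈ chart, Tendsto (fun m => dist chart (globalMetric C S F τ) (s m) x) atTop (nhds 0) :=
  H.contMetric.complete_of_proper isConnected_chart contDiffOn_rad1
    (fun _ hx v => H.grad_rad1 hx v) isCompact_rad1_le s hs hcau

/-- The radius is at most the distance plus a constant. -/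
theorem sqrt_rsq_le_dist {o x : Pt 7} (ho : o ∈ chart) (hx : x ∈ chart) :
    Real.sqrt (rsq x) ≤ dist chart (globalMetric C S F τ) o x + rad1 o := by
  have h := H.contMetric.le_dist isConnected_chart contDiffOn_rad1
    (fun _ hx v => H.grad_rad1 hx v) ho hx
  linarith [rad1_le x, le_abs_self (rad1 x - rad1 o)]

/-- A complete manifold with `Ric ≥ 0`, from the cap and the end. -/
theorem isCompleteNonnegRicci
    (hcap : ∀ x ∈ chart, ∀ v : Pt 7, 0 ≤ ∑ j, ∑ l, ricci C.core j l x * v j * v l)
    (hend : ∀ x ∈ chartOff, 2 * C.T + 1 ≤ tlog x → ∀ v : Pt 7,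
      0 ≤ ∑ j, ∑ l, ricci (globalMetric C S F τ) j l x * v j * v l) :
    IsCompleteNonnegRicci chart (globalMetric C S F τ) where
  isOpen := isOpen_chart
  isConnected := isConnected_chart
  smooth := H.smooth
  posDef _ hx := H.posDef hx
  complete := H.complete
  ricci_nonneg x hx v := by
    rcases chart_cases hx with h | h
    · exact H.ricci_nonneg_cap hx (h ▸ Real.exp_pos _) (hcap x hx v)
    rcases lt_or_ge (tlog x) (2 * C.T + 1) with h' | h'
    · exact H.ricci_nonneg_cap hx ((tlog_lt_iff h _).1 h') (hcap x hx v)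
    · exact hend x h h' v

end EndHyps

end

end Vale.Agent.P225
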