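import Mathlib

/-!
P225: positivity certificates for the cap profile `ψ = r P(u)`, `φ = ψ Q(u) √(1 + r⁻²)`,
`u = (1 + r²)^(-1/4)`.
-/

namespace Vale.Agent.P225

noncomputable section

/-- The profile `P`. -/
def capP (u : ℝ) : ℝ := 1183 / 2000 + 1 / 25 * u + 737 / 2000 * u ^ 2

/-- Its derivative. -/
def capP1 (u : ℝ) : ℝ := 1 / 25 + 737 / 1000 * u

/-- The profile `Q`. -/
def capQ (u : ℝ) : ℝ := 1 - 1 / 3 * u ^ 2

/-- The slope `p = d log P / dt`. -/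
def capp (u : ℝ) : ℝ := -(u * (1 - u ^ 4)) * capP1 u / (2 * capP u)

/-- The slope of `log Q`. -/
def capqQ (u : ℝ) : ℝ := u * (1 - u ^ 4) * (2 / 3 * u) / (2 * capQ u)

/-- The slope of `log (φ / r)`. -/
def capq (u : ℝ) : ℝ := capp u + capqQ u - u ^ 4

/-- The derivative of `capp` in time. -/
def capdp (u : ℝ) : ℝ :=
  u * (1 - u ^ 4) * ((1 - 5 * u ^ 4) * capP1 u * capP u
    + u * (1 - u ^ 4) * (737 / 1000 * capP u - capP1 u ^ 2)) / (4 * capP u ^ 2)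

/-- The derivative of `capq` in time. -/
def capdq (u : ℝ) : ℝ :=
  capdp u + u * (1 - u ^ 4) * ((1 - 5 * u ^ 4) * (-(2 / 3) * u) * capQ u
    + u * (1 - u ^ 4) * (-(2 / 3) * capQ u - (2 / 3 * u) ^ 2)) / (4 * capQ u ^ 2)
    + 2 * u ^ 4 * (1 - u ^ 4)

/-- Radial curvature of the cap, times `r²`. -/
def capR (u : ℝ) : ℝ :=
  -3 * (capdp u + capp u ^ 2 + capp u + capdq u + capq u ^ 2 + capq u)

/-- Curvature of the cap along the sphere of `ℝ⁴`, times `r²`. -/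
def capW (u : ℝ) : ℝ :=
  2 / capP u ^ 2 - capdp u - 3 * (capp u + capq u) * capp u - 5 * capp u
    - 3 * (capp u + capq u) - 5

/-- Curvature of the cap along the second sphere, times `r²`. -/
def capZ (u : ℝ) : ℝ :=
  2 * (1 - u ^ 4) / (capP u * capQ u) ^ 2 - capdq u - 3 * (capp u + capq u) * capq u
    - 5 * capq u - 3 * (capp u + capq u) - 5

theorem capP_pos {u : ℝ} (h0 : 0 ≤ u) : 0 < capP u := by
  unfold capP; positivity

theorem capQ_pos {u : ℝ} (h0 : 0 ≤ u) (h1 : u ≤ 1) : 0 < capQ u := by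
  unfold capQ; nlinarith [mul_le_mul h1 h1 h0 zero_le_one]

/-- Numerator of `capR`. -/
def capRPoly (u : ℝ) : ℝ :=
    3549 / 25000 + 6 / 625 * u + 2211 / 25000 * u ^ 2 - 98189 / 40000 * u ^ 3
    - 1493 / 37500 * u ^ 4 + 7144339 / 1000000 * u ^ 5 + 571 / 1500 * u ^ 6
    - 7403279 / 3000000 * u ^ 7 - 47149 / 75000 * u ^ 8 - 9418337 / 3000000 * u ^ 9
    + 12529 / 75000 * u ^ 10 + 543169 / 500000 * u ^ 11

theorem capRPoly_nonneg {u : ℝ} (h0 : 0 ≤ u) (h1 : u ≤ 1) : 0 ≤ capRPoly u := by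
  have h2 : 0 ≤ 1 - u := sub_nonneg.2 h1
  rw [show capRPoly u =
      3549 / 25000 * (u ^ 0 * (1 - u) ^ 16) +
      7128 / 3125 * (u ^ 1 * (1 - u) ^ 15) +
      431691 / 25000 * (u ^ 2 * (1 - u) ^ 14) +
      15857807 / 200000 * (u ^ 3 * (1 - u) ^ 13) +
      143299201 / 600000 * (u ^ 4 * (1 - u) ^ 12) +
      480575469 / 1000000 * (u ^ 5 * (1 - u) ^ 11) +
      1885386857 / 3000000 * (u ^ 6 * (1 - u) ^ 10) +
      1438552571 / 3000000 * (u ^ 7 * (1 - u) ^ 9) +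
      445665869 / 3000000 * (u ^ 8 * (1 - u) ^ 8) +
      155364209 / 3000000 * (u ^ 9 * (1 - u) ^ 7) +
      1005824479 / 3000000 * (u ^ 10 * (1 - u) ^ 6) +
      466375753 / 750000 * (u ^ 11 * (1 - u) ^ 5) +
      848773463 / 1500000 * (u ^ 12 * (1 - u) ^ 4) +
      109339073 / 375000 * (u ^ 13 * (1 - u) ^ 3) +
      31148563 / 375000 * (u ^ 14 * (1 - u) ^ 2) +
      1019771 / 93750 * (u ^ 15 * (1 - u) ^ 1) +
      36 / 125 * (u ^ 16 * (1 - u) ^ 0) by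
    unfold capRPoly; ring]
  positivity

theorem capR_eq {u : ℝ} (h0 : 0 ≤ u) (h1 : u ≤ 1) :
    capR u = u * (1 - u ^ 4) * capRPoly u / (4 * capP u ^ 2 * capQ u ^ 2) := by
  have hp := (capP_pos h0).ne'
  have hq := (capQ_pos h0 h1).ne'
  simp only [capR, capdq, capdp, capq, capqQ, capp, capRPoly]
  field_simp
  simp only [capP, capP1, capQ]
  ring

theorem capR_nonneg {u : ℝ} (h0 : 0 ≤ u) (h1 : u ≤ 1) : 0 ≤ capR u := by
  rw [capR_eq h0 h1]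
  have h2 : 0 ≤ 1 - u := sub_nonneg.2 h1
  have h4 : 0 ≤ 1 - u ^ 4 := sub_nonneg.2 (pow_le_one₀ h0 h1)
  have := capRPoly_nonneg h0 h1
  positivity

/-- Numerator of `capW`. -/
def capWPoly (u : ℝ) : ℝ :=
    200511 / 200000 + 110603 / 200000 * u - 380311 / 250000 * u ^ 2 - 505789 / 375000 * u ^ 3
    + 153407 / 60000 * u ^ 4 + 2305951 / 900000 * u ^ 5 - 1016913 / 500000 * u ^ 6
    - 8684047 / 4500000 * u ^ 7 + 18222373 / 9000000 * u ^ 8 + 17491193 / 9000000 * u ^ 9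
    - 119909 / 1500000 * u ^ 10 - 1374857 / 4500000 * u ^ 11 - 8009633 / 4500000 * u ^ 12
    - 6830623 / 4500000 * u ^ 13 + 407561 / 750000 * u ^ 14 + 543169 / 1125000 * u ^ 15

theorem capWPoly_nonneg {u : ℝ} (h0 : 0 ≤ u) (h1 : u ≤ 1) : 0 ≤ capWPoly u := by
  have h2 : 0 ≤ 1 - u := sub_nonneg.2 h1
  rw [show capWPoly u =
      200511 / 200000 * (u ^ 0 * (1 - u) ^ 15) +
      779567 / 50000 * (u ^ 1 * (1 - u) ^ 14) +
      111489241 / 1000000 * (u ^ 2 * (1 - u) ^ 13) +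
      728042921 / 1500000 * (u ^ 3 * (1 - u) ^ 12) +
      862499723 / 600000 * (u ^ 4 * (1 - u) ^ 11) +
      6909373837 / 2250000 * (u ^ 5 * (1 - u) ^ 10) +
      44142441601 / 9000000 * (u ^ 6 * (1 - u) ^ 9) +
      27016179929 / 4500000 * (u ^ 7 * (1 - u) ^ 8) +
      8602912699 / 1500000 * (u ^ 8 * (1 - u) ^ 7) +
      1218460253 / 281250 * (u ^ 9 * (1 - u) ^ 6) +
      234756989 / 90000 * (u ^ 10 * (1 - u) ^ 5) +
      1413543019 / 1125000 * (u ^ 11 * (1 - u) ^ 4) +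
      60250901 / 125000 * (u ^ 12 * (1 - u) ^ 3) +
      156112 / 1125 * (u ^ 13 * (1 - u) ^ 2) +
      6525691 / 281250 * (u ^ 14 * (1 - u) ^ 1) +
      144 / 125 * (u ^ 15 * (1 - u) ^ 0) by
    unfold capWPoly; ring]
  positivity

theorem capW_eq {u : ℝ} (h0 : 0 ≤ u) (h1 : u ≤ 1) :
    capW u = (1 - u) * capWPoly u / (4 * capP u ^ 2 * capQ u ^ 2) := by
  have hp := (capP_pos h0).ne'
  have hq := (capQ_pos h0 h1).ne'
  simp only [capW, capdq, capdp, capq, capqQ, capp, capWPoly]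
  field_simp
  simp only [capP, capP1, capQ]
  ring

theorem capW_nonneg {u : ℝ} (h0 : 0 ≤ u) (h1 : u ≤ 1) : 0 ≤ capW u := by
  rw [capW_eq h0 h1]
  have h2 : 0 ≤ 1 - u := sub_nonneg.2 h1
  have h4 : 0 ≤ 1 - u ^ 4 := sub_nonneg.2 (pow_le_one₀ h0 h1)
  have := capWPoly_nonneg h0 h1
  positivity

/-- Numerator of `capZ`. -/
def capZPoly (u : ℝ) : ℝ :=
    200511 / 200000 + 110603 / 200000 * u + 243263 / 125000 * u ^ 2 + 490211 / 250000 * u ^ 3
    + 903593 / 1000000 * u ^ 4 + 3669199 / 3000000 * u ^ 5 - 513521 / 187500 * u ^ 6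
    - 6257887 / 2250000 * u ^ 7 - 2724859 / 1800000 * u ^ 8 - 2573207 / 1800000 * u ^ 9
    + 17263 / 50000 * u ^ 10 + 19513 / 45000 * u ^ 11 - 2667037 / 9000000 * u ^ 12
    - 2254697 / 9000000 * u ^ 13 + 407561 / 750000 * u ^ 14 + 543169 / 1125000 * u ^ 15

theorem capZPoly_nonneg {u : ℝ} (h0 : 0 ≤ u) (h1 : u ≤ 1) : 0 ≤ capZPoly u := by
  have h2 : 0 ≤ 1 - u := sub_nonneg.2 h1
  rw [show capZPoly u =
      200511 / 200000 * (u ^ 0 * (1 - u) ^ 15) +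
      779567 / 50000 * (u ^ 1 * (1 - u) ^ 14) +
      114956589 / 1000000 * (u ^ 2 * (1 - u) ^ 13) +
      266873543 / 500000 * (u ^ 3 * (1 - u) ^ 12) +
      436503717 / 250000 * (u ^ 4 * (1 - u) ^ 11) +
      1598026769 / 375000 * (u ^ 5 * (1 - u) ^ 10) +
      12010445017 / 1500000 * (u ^ 6 * (1 - u) ^ 9) +
      26469224183 / 2250000 * (u ^ 7 * (1 - u) ^ 8) +
      30520092059 / 2250000 * (u ^ 8 * (1 - u) ^ 7) +
      1713398972 / 140625 * (u ^ 9 * (1 - u) ^ 6) +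
      9405276287 / 1125000 * (u ^ 10 * (1 - u) ^ 5) +
      792585859 / 187500 * (u ^ 11 * (1 - u) ^ 4) +
      831824519 / 562500 * (u ^ 12 * (1 - u) ^ 3) +
      14847632 / 46875 * (u ^ 13 * (1 - u) ^ 2) +
      1421299 / 46875 * (u ^ 14 * (1 - u) ^ 1) +
      48 / 125 * (u ^ 15 * (1 - u) ^ 0) by
    unfold capZPoly; ring]
  positivity

theorem capZ_eq {u : ℝ} (h0 : 0 ≤ u) (h1 : u ≤ 1) :
    capZ u = (1 - u) * capZPoly u / (4 * capP u ^ 2 * capQ u ^ 2) := by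
  have hp := (capP_pos h0).ne'
  have hq := (capQ_pos h0 h1).ne'
  simp only [capZ, capdq, capdp, capq, capqQ, capp, capZPoly]
  field_simp
  simp only [capP, capP1, capQ]
  ring

theorem capZ_nonneg {u : ℝ} (h0 : 0 ≤ u) (h1 : u ≤ 1) : 0 ≤ capZ u := by
  rw [capZ_eq h0 h1]
  have h2 : 0 ≤ 1 - u := sub_nonneg.2 h1
  have h4 : 0 ≤ 1 - u ^ 4 := sub_nonneg.2 (pow_le_one₀ h0 h1)
  have := capZPoly_nonneg h0 h1
  positivity

end

end Vale.Agent.P225
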