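import Vale.Agent.P225.Defs

/-!
P225: the Ricci tensor depends continuously on the point and only on the metric nearby.
-/

namespace Vale.Agent.P225

open scoped BigOperators ContDiff Topology
open Set Filter Matrix

noncomputable section

variable {n : ℕ} {g g' : MetricField n} {U : Set (Pt n)} {x : Pt n}

theorem contDiffOn_det_field {k : WithTop ℕ∞} {m : Type*} [Fintype m] [DecidableEq m]
    {A : Pt n → Matrix m m ℝ} (h : ∀ i j, ContDiffOn ℝ k (fun y => A y i j) U) :
    ContDiffOn ℝ k (fun y => (A y).det) U := by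
  simp only [det_apply']
  exact ContDiffOn.sum fun σ _ => contDiffOn_const.mul (contDiffOn_prod fun i _ => h _ _)

theorem contDiffOn_inv_entry {k : WithTop ℕ∞}
    (h : ∀ i j, ContDiffOn ℝ k (fun y => g y i j) U) (hd : ∀ y ∈ U, (g y).det ≠ 0) (a b : Fin n) :
    ContDiffOn ℝ k (fun y => (g y)⁻¹ a b) U := by
  simp only [inv_def, Ring.inverse_eq_inv', Matrix.smul_apply, smul_eq_mul, adjugate_apply]
  refine ((contDiffOn_det_field h).inv hd).mul (contDiffOn_det_field fun i j => ?_)
  simp only [updateRow_apply]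
  split_ifs
  · exact contDiffOn_const
  · exact h i j

theorem contDiffOn_pd {k : WithTop ℕ∞} {f : Pt n → ℝ} (hU : IsOpen U)
    (h : ContDiffOn ℝ (k + 1) f U) (i : Fin n) : ContDiffOn ℝ k (pd f i) U :=
  (h.fderiv_of_isOpen hU le_rfl).clm_apply contDiffOn_const

/-- The Ricci tensor is continuous. -/
theorem continuousOn_ricci (hU : IsOpen U) (h : ∀ i j, ContDiffOn ℝ 2 (fun y => g y i j) U)
    (hd : ∀ y ∈ U, (g y).det ≠ 0) (j l : Fin n) : ContinuousOn (ricci g j l) U := by
  have hΓ : ∀ a b c, ContDiffOn ℝ 1 (christoffel g a b c) U := by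
    intro a b c
    refine ContDiffOn.sum fun m _ => ?_
    have h1 : ∀ p q r, ContDiffOn ℝ 1 (pd (fun y => g y p q) r) U := fun p q r =>
      contDiffOn_pd hU (by rw [show (1 : WithTop ℕ∞) + 1 = 2 by norm_num]; exact h p q) r
    exact ((contDiffOn_inv_entry (fun p q => (h p q).of_le (by norm_num)) hd a m).mul
      (((h1 c m b).add (h1 b m c)).sub (h1 b c m))).div_const 2
  have h0 : ∀ a b c, ContinuousOn (christoffel g a b c) U := fun a b c => (hΓ a b c).continuousOn
  have h1 : ∀ a b c i, ContinuousOn (pd (christoffel g a b c) i) U := fun a b c i =>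
    (contDiffOn_pd (k := 0) hU (by simpa using hΓ a b c) i).continuousOn
  exact continuousOn_finsetSum _ fun i _ => ((h1 _ _ _ _).sub (h1 _ _ _ _)).add
    (continuousOn_finsetSum _ fun p _ =>
      ((h0 _ _ _).mul (h0 _ _ _)).sub ((h0 _ _ _).mul (h0 _ _ _)))

theorem pd_congr {f f' : Pt n → ℝ} (hU : IsOpen U) (hx : x ∈ U) (h : EqOn f f' U) (i : Fin n) :
    pd f i x = pd f' i x := by
  simp only [pd]
  rw [(h.eventuallyEq_of_mem (hU.mem_nhds hx)).fderiv_eq]

/-- The Ricci tensor only depends on the metric near the point. -/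
theorem ricci_congr (hU : IsOpen U) (hx : x ∈ U) (hg : ∀ y ∈ U, g y = g' y) (j l : Fin n) :
    ricci g j l x = ricci g' j l x := by
  have hΓ : ∀ a b c, EqOn (christoffel g a b c) (christoffel g' a b c) U := by
    intro a b c y hy
    have e : ∀ p q r, pd (fun z => g z p q) r y = pd (fun z => g' z p q) r y := fun p q r =>
      pd_congr hU hy (fun z hz => congrFun (congrFun (hg z hz) p) q) r
    simp only [christoffel, e, hg y hy]
  have h0 : ∀ a b c, christoffel g a b c x = christoffel g' a b c x := fun a b c => hΓ a b c hx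
  have h1 : ∀ a b c i, pd (christoffel g a b c) i x = pd (christoffel g' a b c) i x :=
    fun a b c i => pd_congr hU hx (hΓ a b c) i
  simp only [ricci, h0, h1]

/-- Nonnegativity passes to limits along a segment. -/
theorem ricci_nonneg_of_segment (hU : IsOpen U) (h : ∀ i j, ContDiffOn ℝ 2 (fun y => g y i j) U)
    (hd : ∀ y ∈ U, (g y).det ≠ 0) (hx : x ∈ U) (w v : Pt n)
    (hpos : ∀ᶠ ε : ℝ in 𝓝[>] 0, 0 ≤ ∑ j, ∑ l, ricci g j l (x + ε • w) * v j * v l) :
    0 ≤ ∑ j, ∑ l, ricci g j l x * v j * v l := by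
  have hc : ContinuousAt (fun y => ∑ j, ∑ l, ricci g j l y * v j * v l) x :=
    (continuousOn_finsetSum _ fun j _ => continuousOn_finsetSum _ fun l _ =>
      ((continuousOn_ricci hU h hd j l).mul continuousOn_const).mul
        continuousOn_const).continuousAt (hU.mem_nhds hx)
  have hl : Tendsto (fun ε : ℝ => x + ε • w) (𝓝[>] 0) (𝓝 x) := by
    have : Continuous fun ε : ℝ => x + ε • w := by fun_prop
    simpa using (this.tendsto 0).mono_left nhdsWithin_le_nhds
  exact ge_of_tendsto (hc.tendsto.comp hl) hpos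

end

end Vale.Agent.P225
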