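import Vale.Agent.P225.Geom.CapModel
import Vale.Agent.P225.Geom.Regular
import Vale.Agent.P225.Metric.Global

/-!
P225: the cap as a metric on the whole chart, and its Ricci curvature.
-/

namespace Vale.Agent.P225

open scoped BigOperators ContDiff Topology
open Set Filter Matrix

noncomputable section

/-- The forms of the second sphere. -/
def spinCo (σ : Fin 3) (i : Fin 7) (x : Pt 7) : ℝ :=
  (qmul σ *ᵥ yc x) ⬝ᵥ yc (Pi.single i 1) / ys x

/-- `u` as a function of the point. -/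
def coreU (x : Pt 7) : ℝ := (1 + rsq x) ^ (-(1 / 4) : ℝ)

/-- `(1 - P²)/r²`. -/
def capH (u : ℝ) : ℝ :=
  (1 + capP u) * (1 / 25 + 737 / 2000 * (1 + u)) * u ^ 4 / ((1 + u) * (1 + u ^ 2))

/-- The cap in coordinates, smooth through `r = 0`. -/
def capForm : MetricField 7 := fun x => Matrix.of fun i j =>
  capP (coreU x) ^ 2 * (dxc x (Pi.single i 1) ⬝ᵥ dxc x (Pi.single j 1))
    + capH (coreU x) * ((xc x ⬝ᵥ dxc x (Pi.single i 1)) * (xc x ⬝ᵥ dxc x (Pi.single j 1)))
    + (1 + rsq x) * (capP (coreU x) * capQ (coreU x)) ^ 2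
      * ∑ σ, spinCo σ i x * spinCo σ j x

theorem rsq_nonneg (x : Pt 7) : 0 ≤ rsq x := dotProduct_self_star_nonneg (xc x)

theorem coreU_pos (x : Pt 7) : 0 < coreU x :=
  Real.rpow_pos_of_pos (by linarith [rsq_nonneg x]) _

theorem coreU_le_one (x : Pt 7) : coreU x ≤ 1 :=
  Real.rpow_le_one_of_one_le_of_nonpos (by linarith [rsq_nonneg x]) (by norm_num)

theorem exp_two_tlog {x : Pt 7} (hx : x ∈ chartOff) : Real.exp (2 * tlog x) = rsq x := by
  rw [tlog, mul_div_cancel₀ _ two_ne_zero, Real.exp_log hx.2]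

theorem capU_tlog {x : Pt 7} (hx : x ∈ chartOff) : capU (tlog x) = coreU x := by
  rw [capU, exp_two_tlog hx, coreU]

/-- `q ↦ (x · q, (qmul σ x · q))` is a multiple of an isometry. -/
theorem quat_parseval (x a b : Fin 4 → ℝ) : (x ⬝ᵥ x) * (a ⬝ᵥ b)
    = (x ⬝ᵥ a) * (x ⬝ᵥ b) + ∑ σ, (qmul σ *ᵥ x) ⬝ᵥ a * ((qmul σ *ᵥ x) ⬝ᵥ b) := by
  simp [dotProduct, mulVec, qmul, Fin.sum_univ_four, Fin.sum_univ_three]
  ring

theorem capH_eq {u : ℝ} (h0 : 0 < u) (h1 : u < 1) :
    capH u = (1 - capP u ^ 2) * u ^ 4 / (1 - u ^ 4) := by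
  have h2 : (1 : ℝ) - u ≠ 0 := (sub_pos.2 h1).ne'
  have h3 : (1 : ℝ) + u ≠ 0 := by positivity
  have h4 : (1 : ℝ) + u ^ 2 ≠ 0 := by positivity
  rw [capH, show 1 - u ^ 4 = (1 - u) * ((1 + u) * (1 + u ^ 2)) by ring]
  field_simp
  unfold capP
  ring

theorem capH_nonneg {u : ℝ} (h0 : 0 ≤ u) : 0 ≤ capH u := by
  have := capP_pos h0
  unfold capH
  positivity

theorem gram_diagW_inv (a b : ℝ) : (gram (diagW a b))⁻¹
    = Matrix.diagonal fun p : Fin 2 × Fin 3 => ![Real.exp (2 * a), Real.exp (2 * b)] p.1 := by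
  have hg : gram (diagW a b)
      = Matrix.diagonal fun p : Fin 2 × Fin 3 => ![Real.exp (-2 * a), Real.exp (-2 * b)] p.1 := by
    ext ⟨α, i⟩ ⟨β, j⟩
    rw [gram_eq_blk2, blk2_apply]
    fin_cases α <;> fin_cases β <;> by_cases h : i = j <;> simp [h, diagW]
  refine inv_eq_left_inv ?_
  rw [hg, diagonal_mul_diagonal, ← diagonal_one]
  congr 1
  funext ⟨α, i⟩
  fin_cases α <;> simp [← Real.exp_add]

/-- Warped metrics with diagonal weights. -/
theorem warp_diag (W : ℝ → Fin 3 → ℝ) (x : Pt 7) {a b : ℝ} (h : W (tlog x) = diagW a b)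
    (i j : Fin 7) :
    warpMetric (fun t _ => gram (W t)) x i j
      = rsq x * baseCo 0 i x * baseCo 0 j x
        + rsq x * Real.exp (2 * a) * ∑ σ, baseCo (idx (0, σ)) i x * baseCo (idx (0, σ)) j x
        + rsq x * Real.exp (2 * b) * ∑ σ, baseCo (idx (1, σ)) i x * baseCo (idx (1, σ)) j x := by
  simp only [warpMetric, of_apply, h, gram_diagW_inv, sum_fin7 (A := ℝ), lift7_zero_zero,
    lift7_zero_idx, lift7_idx_zero, lift7_idx_idx, diagonal_apply, mul_ite, mul_zero, ite_mul,
    zero_mul, Finset.sum_const_zero, add_zero, zero_add, Finset.sum_ite_eq, Finset.mem_univ,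
    if_true, mul_one]
  rw [Fintype.sum_prod_type, Fin.sum_univ_two]
  simp only [cons_val_zero, cons_val_one, Finset.mul_sum, mul_assoc]
  ring

theorem baseCo_zero (i : Fin 7) (x : Pt 7) :
    baseCo 0 i x = xc x ⬝ᵥ dxc x (Pi.single i 1) / rsq x := rfl

theorem baseCo_first (σ : Fin 3) (i : Fin 7) (x : Pt 7) :
    baseCo (idx (0, σ)) i x = (qmul σ *ᵥ xc x) ⬝ᵥ dxc x (Pi.single i 1) / rsq x := by
  fin_cases σ <;> rfl

theorem baseCo_second (σ : Fin 3) (i : Fin 7) (x : Pt 7) :
    baseCo (idx (1, σ)) i x = spinCo σ i x := by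
  fin_cases σ <;> rfl

/-- On `chartOff` the coordinate form is the warped metric of the profile. -/
theorem capForm_eq {x : Pt 7} (hx : x ∈ chartOff) :
    capForm x = warpMetric (fun t _ => gram (capW0 t)) x := by
  ext i j
  have hρ : rsq x ≠ 0 := ne_of_gt hx.2
  have hu : capU (tlog x) = coreU x := capU_tlog hx
  have h4 : 1 - coreU x ^ 4 = rsq x / (1 + rsq x) := by
    rw [← hu, one_sub_capU_pow, exp_two_tlog hx]
  have hu4 : coreU x ^ 4 = (1 + rsq x)⁻¹ := by rw [← hu, capU_pow, exp_two_tlog hx]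
  have h1p : (1 : ℝ) + rsq x ≠ 0 := by linarith [rsq_nonneg x]
  have hlt : coreU x < 1 := by
    refine lt_of_le_of_ne (coreU_le_one x) fun h => ?_
    rw [h] at h4
    have : (0 : ℝ) = rsq x / (1 + rsq x) := by simpa using h4
    exact (div_ne_zero hρ h1p) this.symm
  have ea : Real.exp (2 * capA0 (tlog x)) = capP (coreU x) ^ 2 := by rw [exp_two_capA0, hu]
  have eb : rsq x * Real.exp (2 * capB0 (tlog x))
      = (1 + rsq x) * (capP (coreU x) * capQ (coreU x)) ^ 2 := by
    have h := exp_two_capB0 (tlog x)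
    rw [hu, h4] at h
    rw [← h]
    field_simp
  have eH : capH (coreU x) = (1 - capP (coreU x) ^ 2) / rsq x := by
    rw [capH_eq (coreU_pos x) hlt, h4, hu4]
    field_simp
  have hq := quat_parseval (xc x) (dxc x (Pi.single i 1)) (dxc x (Pi.single j 1))
  rw [show xc x ⬝ᵥ xc x = rsq x from rfl] at hq
  rw [warp_diag capW0 x (rfl : capW0 (tlog x) = _), eb, ea, capForm, of_apply, eH]
  simp only [baseCo_zero, baseCo_first, baseCo_second, Fin.sum_univ_three] at hq ⊢
  field_simp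
  linear_combination capP (coreU x) ^ 2 * hq

theorem dxc_sum (x v : Pt 7) (k : Fin 4) :
    ∑ i, v i * dxc x (Pi.single i 1) k = dxc x v k := by
  fin_cases k <;> simp [dxc, Fin.sum_univ_seven]; ring

theorem spinCo_sum (x v : Pt 7) (σ : Fin 3) :
    ∑ i, v i * spinCo σ i x = (qmul σ *ᵥ yc x) ⬝ᵥ yc v / ys x := by
  simp [spinCo, yc, dotProduct, Fin.sum_univ_four, Fin.sum_univ_seven]
  ring

/-- The quadratic form of the cap. -/
theorem capForm_quad (x v : Pt 7) :
    v ⬝ᵥ (capForm x *ᵥ v)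
      = capP (coreU x) ^ 2 * (dxc x v ⬝ᵥ dxc x v)
        + capH (coreU x) * (xc x ⬝ᵥ dxc x v) ^ 2
        + (1 + rsq x) * (capP (coreU x) * capQ (coreU x)) ^ 2
          * ∑ σ, ((qmul σ *ᵥ yc x) ⬝ᵥ yc v / ys x) ^ 2 := by
  have e1 : ∀ A : Fin 4 → ℝ, A ⬝ᵥ dxc x v = ∑ i, v i * (A ⬝ᵥ dxc x (Pi.single i 1)) := fun A => by
    simp only [dotProduct, Finset.mul_sum, ← dxc_sum x v]
    rw [Finset.sum_comm]
    exact Finset.sum_congr rfl fun i _ => Finset.sum_congr rfl fun k _ => by ring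
  have e2 : dxc x v ⬝ᵥ dxc x v
      = ∑ i, ∑ j, v i * v j * (dxc x (Pi.single i 1) ⬝ᵥ dxc x (Pi.single j 1)) := by
    rw [e1]
    refine Finset.sum_congr rfl fun i _ => ?_
    rw [dotProduct_comm, e1, Finset.mul_sum]
    exact Finset.sum_congr rfl fun j _ => by rw [dotProduct_comm]; ring
  have key : ∀ f : Fin 7 → ℝ, (∑ i, v i * f i) ^ 2 = ∑ i, ∑ j, v i * v j * (f i * f j) :=
    fun f => by
      rw [sq, Finset.sum_mul_sum]
      exact Finset.sum_congr rfl fun i _ => Finset.sum_congr rfl fun j _ => by ring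
  have hl : v ⬝ᵥ (capForm x *ᵥ v) = ∑ i, ∑ j, v i * v j * capForm x i j := by
    simp only [dotProduct, mulVec, Finset.mul_sum]
    exact Finset.sum_congr rfl fun i _ => Finset.sum_congr rfl fun j _ => by ring
  rw [hl, e2, e1 (xc x)]
  simp only [← spinCo_sum, key, Fin.sum_univ_three, mul_add, Finset.mul_sum,
    ← Finset.sum_add_distrib]
  refine Finset.sum_congr rfl fun i _ => Finset.sum_congr rfl fun j _ => ?_
  simp only [capForm, of_apply, Fin.sum_univ_three]
  ring

theorem capForm_posDef {x : Pt 7} (hx : x ∈ chart) : (capForm x).PosDef := by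
  refine .of_dotProduct_mulVec_pos ?_ fun v hv => ?_
  · ext i j
    simp [capForm, conjTranspose_apply, dotProduct_comm (dxc x (Pi.single i 1)), mul_comm]
  rw [star_trivial, capForm_quad]
  have hP := capP_pos (coreU_pos x).le
  have hQ := capQ_pos (coreU_pos x).le (coreU_le_one x)
  have hH := capH_nonneg (coreU_pos x).le
  have hD : 0 ≤ dxc x v ⬝ᵥ dxc x v := dotProduct_self_star_nonneg (dxc x v)
  have hc : 0 < (1 + rsq x) * (capP (coreU x) * capQ (coreU x)) ^ 2 :=
    mul_pos (by linarith [rsq_nonneg x]) (pow_pos (mul_pos hP hQ) 2)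
  have hS : 0 ≤ ∑ σ, ((qmul σ *ᵥ yc x) ⬝ᵥ yc v / ys x) ^ 2 :=
    Finset.sum_nonneg fun σ _ => sq_nonneg _
  rcases eq_or_lt_of_le hD with h | h
  swap
  · positivity
  rcases eq_or_lt_of_le hS with h' | h'
  swap
  · positivity
  exfalso
  have hd : dxc x v = 0 := dotProduct_self_eq_zero.1 h.symm
  have hy : ys x ≠ 0 := ne_of_gt hx
  have h0 : yc x ⬝ᵥ yc v = 0 := by
    have := congrFun hd 0
    simp [dxc] at this
    rcases this with this | this
    · rw [dotProduct, Fin.sum_univ_four]; exact this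
    · exact absurd this hy
  have hq : ∀ σ, (qmul σ *ᵥ yc x) ⬝ᵥ yc v = 0 := fun σ => by
    have := (Finset.sum_eq_zero_iff_of_nonneg fun σ _ => sq_nonneg _).1 h'.symm σ
      (Finset.mem_univ σ)
    simpa [hy] using this
  have hp := quat_parseval (yc x) (yc v) (yc v)
  simp only [h0, hq, mul_zero, Finset.sum_const_zero, add_zero, ys_eq] at hp
  have hv' : yc v = 0 := dotProduct_self_eq_zero.1 ((ys_eq v).trans ((mul_eq_zero.1 hp).resolve_left hy))
  refine hv (funext fun k => ?_)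
  have e1 := congrFun hv'
  have e2 := congrFun hd
  fin_cases k
  · exact e1 0
  · exact e1 1
  · exact e1 2
  · exact e1 3
  · exact e2 1
  · exact e2 2
  · exact e2 3

theorem contDiffOn_dxc_single {k : WithTop ℕ∞} (i : Fin 7) (j : Fin 4) :
    ContDiffOn ℝ k (fun x => dxc x (Pi.single i 1) j) chart := by
  fin_cases j
  · exact ((((contDiff_apply ℝ ℝ 0).contDiffOn.mul contDiffOn_const).add
      ((contDiff_apply ℝ ℝ 1).contDiffOn.mul contDiffOn_const)).add
      ((contDiff_apply ℝ ℝ 2).contDiffOn.mul contDiffOn_const)).add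
      ((contDiff_apply ℝ ℝ 3).contDiffOn.mul contDiffOn_const) |>.div contDiff_ys'.contDiffOn
        fun x hx => ne_of_gt hx
  all_goals exact contDiffOn_const

theorem contDiffOn_capForm {k : WithTop ℕ∞} (i j : Fin 7) :
    ContDiffOn ℝ k (fun x => capForm x i j) chart := by
  have hr : ContDiffOn ℝ k (fun x => 1 + rsq x) chart := contDiffOn_const.add contDiffOn_rsq'
  have hu : ContDiffOn ℝ k coreU chart :=
    hr.rpow_const_of_ne fun x _ => by linarith [rsq_nonneg x]
  have hP : ContDiffOn ℝ k (fun x => capP (coreU x)) chart := by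
    unfold capP
    exact (contDiffOn_const.add (contDiffOn_const.mul hu)).add (contDiffOn_const.mul (hu.pow 2))
  have hQ : ContDiffOn ℝ k (fun x => capQ (coreU x)) chart := by
    unfold capQ
    exact contDiffOn_const.sub (contDiffOn_const.mul (hu.pow 2))
  have hH : ContDiffOn ℝ k (fun x => capH (coreU x)) chart := by
    refine ContDiffOn.div ((((contDiffOn_const.add hP)).mul (contDiffOn_const.add
      (contDiffOn_const.mul (contDiffOn_const.add hu)))).mul (hu.pow 4))
      ((contDiffOn_const.add hu).mul (contDiffOn_const.add (hu.pow 2))) fun x _ => ?_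
    have := coreU_pos x
    positivity
  have hD : ∀ a b, ContDiffOn ℝ k
      (fun x => dxc x (Pi.single a 1) ⬝ᵥ dxc x (Pi.single b 1)) chart := fun a b => by
    simp only [dotProduct]
    exact ContDiffOn.sum fun m _ => (contDiffOn_dxc_single a m).mul (contDiffOn_dxc_single b m)
  have hX : ∀ a, ContDiffOn ℝ k (fun x => xc x ⬝ᵥ dxc x (Pi.single a 1)) chart := fun a => by
    simp only [dotProduct]
    exact ContDiffOn.sum fun m _ => (contDiffOn_xc' m).mul (contDiffOn_dxc_single a m)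
  have hS : ∀ σ a, ContDiffOn ℝ k (spinCo σ a) chart := fun σ a => by
    have hy : ∀ m, ContDiffOn ℝ k (fun x => yc x m) chart := fun m => by
      fin_cases m <;> exact (contDiff_apply ℝ ℝ _).contDiffOn
    refine ContDiffOn.div ?_ contDiff_ys'.contDiffOn fun x hx => ne_of_gt hx
    simp only [dotProduct, mulVec]
    exact ContDiffOn.sum fun m _ => (ContDiffOn.sum fun q _ =>
      contDiffOn_const.mul (hy q)).mul contDiffOn_const
  exact (((hP.pow 2).mul (hD i j)).add (hH.mul ((hX i).mul (hX j)))).add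
    ((hr.mul ((hP.mul hQ).pow 2)).mul (ContDiffOn.sum fun σ _ => (hS σ i).mul (hS σ j)))

/-- The cap metric: the profile up to `T`, then its interpolation. -/
def capCore (κ T : ℝ) : MetricField 7 := fun x =>
  if rsq x < Real.exp (2 * T) then capForm x else warpMetric (fun t _ => gram (capWt κ T t)) x

theorem capWt_of_le {κ T t : ℝ} (hT : 0 < T) (h : t ≤ T) : capWt κ T t = capW0 t := by
  simp [capWt, capW0, capA, capB, capChi_of_le hT h]

theorem tlog_lt_iff {x : Pt 7} (hx : x ∈ chartOff) (T : ℝ) :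
    tlog x < T ↔ rsq x < Real.exp (2 * T) := by
  rw [← exp_two_tlog hx, Real.exp_lt_exp]
  constructor <;> intro h <;> linarith

/-- Off the axis the cap is a warped metric. -/
theorem capCore_eq {κ T : ℝ} (hT : 0 < T) {x : Pt 7} (hx : x ∈ chartOff) :
    capCore κ T x = warpMetric (fun t _ => gram (capWt κ T t)) x := by
  unfold capCore
  split_ifs with h
  · rw [capForm_eq hx]
    simp only [warpMetric, capWt_of_le (κ := κ) hT ((tlog_lt_iff hx T).2 h).le]
  · rfl

theorem capWt_wpos (κ T t : ℝ) : WPos (capWt κ T t) :=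
  ⟨(diagW_mem_wPos _ _).1, (diagW_mem_wPos _ _).2⟩

theorem capRoot {κ T : ℝ} (hT : 0 < T) : Root (fun t _ => gram (capWt κ T t)) univ
    (fun z => cholM (capWt κ T z.1)) (fun z => cholN (capWt κ T z.1)) where
  isOpen := isOpen_univ
  smooth_M p q := (contDiffOn_chol (fun i => ((contDiff_pi.1 (contDiff_capWt hT) i).comp
    contDiff_fst).contDiffOn) (fun _ _ => capWt_wpos _ _ _) p q).1
  smooth_N p q := (contDiffOn_chol (fun i => ((contDiff_pi.1 (contDiff_capWt hT) i).comp
    contDiff_fst).contDiffOn) (fun _ _ => capWt_wpos _ _ _) p q).2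
  inv _ _ := cholN_mul (capWt_wpos _ _ _)
  sqrt _ _ := cholM_sq (capWt_wpos _ _ _)

theorem chart_cases {x : Pt 7} (hx : x ∈ chart) : rsq x = 0 ∨ x ∈ chartOff := by
  rcases eq_or_ne (rsq x) 0 with h | h
  · exact Or.inl h
  · exact Or.inr ⟨hx, lt_of_le_of_ne (rsq_nonneg x) (Ne.symm h)⟩

theorem contDiffOn_capCore {κ T : ℝ} (hT : 0 < T) (i j : Fin 7) :
    ContDiffOn ℝ ∞ (fun x => capCore κ T x i j) chart := by
  intro x hx
  refine ContDiffAt.contDiffWithinAt ?_
  rcases chart_cases hx with h | h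
  · refine ((contDiffOn_capForm i j).contDiffAt (isOpen_chart.mem_nhds hx)).congr_of_eventuallyEq ?_
    have hlt : rsq x < Real.exp (2 * T) := h ▸ Real.exp_pos _
    filter_upwards [((contDiffOn_rsq.continuousOn).continuousAt
      (isOpen_chart.mem_nhds hx)).preimage_mem_nhds (Iio_mem_nhds hlt)] with y hy
    rw [capCore, if_pos (show rsq y < Real.exp (2 * T) from hy)]
  · refine (((capRoot (κ := κ) hT).smooth_warp i j).contDiffAt
      ((capRoot (κ := κ) hT).isOpen_dom.mem_nhds ⟨h, trivial⟩)).congr_of_eventuallyEq ?_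
    filter_upwards [isOpen_chartOff.mem_nhds h] with y hy
    rw [capCore_eq hT hy]

theorem capCore_posDef {κ T : ℝ} (hT : 0 < T) {x : Pt 7} (hx : x ∈ chart) :
    (capCore κ T x).PosDef := by
  rcases chart_cases hx with h | h
  · rw [capCore, if_pos (h ▸ Real.exp_pos _)]
    exact capForm_posDef hx
  · rw [capCore_eq hT h]
    exact (capRoot (κ := κ) hT).warpLocal.isFrame.posDef x ⟨h, trivial⟩

/-- For large `T` the cap has nonnegative Ricci curvature on the whole chart. -/
theorem capCore_ricci {κ : ℝ} (hκ : 0 < κ) : ∀ᶠ T in atTop, ∀ x ∈ chart, ∀ v : Pt 7,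
    0 ≤ ∑ j, ∑ l, ricci (capCore κ T) j l x * v j * v l := by
  obtain ⟨δ, hδ, hcrit⟩ := warp_ricci_slow
  filter_upwards [capWt_slow hκ hδ, eventually_ge_atTop (1 : ℝ)] with T hslow hT1
  have hT : 0 < T := lt_of_lt_of_le one_pos hT1
  have hoff : ∀ x ∈ chartOff, ∀ v : Pt 7,
      0 ≤ ∑ j, ∑ l, ricci (capCore κ T) j l x * v j * v l := by
    intro x hx v
    simp only [ricci_congr isOpen_chartOff hx (fun y hy => capCore_eq (κ := κ) hT hy)]
    have hW : ContDiff ℝ 2 (capWt κ T) := contDiff_capWt (n := 2) hT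
    rcases lt_or_ge (tlog x) T with h | h
    · refine warp_ricci_self hW (fun t => diagW_mem_wPos _ _) hx (fun w => ?_) v
      have hev : capWt κ T =ᶠ[𝓝 (tlog x)] capW0 := by
        filter_upwards [gt_mem_nhds h] with t ht using capWt_of_le hT ht.le
      rw [hev.eq_of_nhds, hev.deriv_eq, hev.deriv.deriv_eq]
      exact capW0_psd _ w
    · obtain ⟨⟨k, hk, h0⟩, h1, h2, h3⟩ := hslow _ h
      exact hcrit _ hW (fun t => diagW_mem_wPos _ _) x hx k hk h0 h1 h2 h3 v
  intro x hx v
  rcases chart_cases hx with h | h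
  swap
  · exact hoff x h v
  refine ricci_nonneg_of_segment isOpen_chart
    (fun i j => (contDiffOn_capCore hT i j).of_le (by exact WithTop.coe_le_coe.2 le_top))
    (fun y hy => (capCore_posDef hT hy).det_pos.ne') hx (Pi.single 4 1) v ?_
  have hxc : xc x = 0 := dotProduct_self_eq_zero.1 h
  filter_upwards [self_mem_nhdsWithin] with ε (hε : 0 < ε)
  refine hoff _ ⟨?_, ?_⟩ v
  · show 0 < ys (x + ε • Pi.single 4 1)
    have : ys (x + ε • Pi.single 4 1) = ys x := by
      simp [ys, Fin.ext_iff]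
    rw [this]; exact hx
  · have h4 : x 4 = 0 := congrFun hxc 1
    refine lt_of_lt_of_le (pow_pos hε 2)
      (le_trans (le_of_eq ?_) (Finset.single_le_sum (fun i _ => mul_self_nonneg _)
        (Finset.mem_univ (1 : Fin 4))))
    simp [xc, h4, sq]

/-- The cap as data for the global metric. -/
def capData (κ T : ℝ) (hT : 1 ≤ T) : CapData κ where
  W := capWt κ T
  T := T
  T_pos := hT
  smooth_W i := contDiff_pi.1 (contDiff_capWt (lt_of_lt_of_le one_pos hT)) i
  pos := capWt_wpos κ T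
  junction t ht := capWt_of_ge (lt_of_lt_of_le one_pos hT) (by linarith)
  core := capCore κ T
  core_smooth := contDiffOn_capCore (lt_of_lt_of_le one_pos hT)
  core_posDef _ hx := capCore_posDef (lt_of_lt_of_le one_pos hT) hx
  core_eq _ hx _ := capCore_eq (lt_of_lt_of_le one_pos hT) hx

theorem capData_core_eq {κ T : ℝ} (hT : 1 ≤ T) {x : Pt 7} (hx : x ∈ chartOff) :
    (capData κ T hT).core x = warpMetric (fun t _ => gram ((capData κ T hT).W t)) x :=
  capCore_eq (lt_of_lt_of_le one_pos hT) hx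

/-- For large `T` the core of `capData` has nonnegative Ricci curvature. -/
theorem capData_ricci {κ : ℝ} (hκ : 0 < κ) : ∃ T₀ : ℝ, 1 ≤ T₀ ∧ ∀ T, T₀ ≤ T → ∀ hT : 1 ≤ T,
    ∀ x ∈ chart, ∀ v : Pt 7,
      0 ≤ ∑ j, ∑ l, ricci (capData κ T hT).core j l x * v j * v l := by
  obtain ⟨T₀, h⟩ := eventually_atTop.1 (capCore_ricci hκ)
  exact ⟨max T₀ 1, le_max_right _ _, fun T hT _ => h T ((le_max_left _ _).trans hT)⟩

variable {κ : ℝ} {C : CapData κ} {S : Sched} {F : ModelFields Sph} {τ : Params}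

/-- Where the cap is present, the global metric inherits its Ricci curvature. -/
theorem EndHyps.ricci_nonneg_cap (H : EndHyps C S F τ) {x : Pt 7} (hx : x ∈ chart)
    (hr : rsq x < Real.exp (2 * (2 * C.T + 1))) {v : Pt 7}
    (hC : 0 ≤ ∑ j, ∑ l, ricci C.core j l x * v j * v l) :
    0 ≤ ∑ j, ∑ l, ricci (globalMetric C S F τ) j l x * v j * v l := by
  simpa only [ricci_congr (EndHyps.isOpen_coreSet C) ⟨hx, hr⟩
    (fun y hy => H.eq_core (C := C) hy.1 hy.2)] using hC

end

end Vale.Agent.P225
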