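import Vale.Agent.P225.Geom.EndRicci
import Vale.Agent.P225.Geom.CapEnd

/-!
P225: the models along the cap profile, and warped metrics whose weights only depend on `t = log r`.
-/

namespace Vale.Agent.P225

open scoped BigOperators Topology
open Set Filter Matrix

noncomputable section

theorem frameJet_one (e : Fin 7 → Pt 7 → Pt 7) (x : Pt 7) :
    frameJet e (fun _ => lift7 (1 + (0 : M6))) (fun _ => lift7 (1 + (0 : M6))) x = FrameJet.one := by
  simp only [add_zero, lift7_one, frameJet, FrameJet.one, dirDeriv_const', Prod.mk.injEq]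
  refine ⟨?_, ?_, rfl, rfl, rfl⟩ <;> funext i j <;> exact Matrix.one_apply

theorem changeStruct_one (a b f : Fin 7) (y : Pt 7) :
    changeStruct baseField (fun p q r _ => baseStruct p q r) (fun _ => lift7 (1 : M6))
      (fun _ => lift7 (1 : M6)) a b f y = baseStruct a b f := by
  simp [changeStruct, changeBracket, lift7_one, dirDeriv_const', Matrix.one_apply]

/-- The weights of the cap profile. -/
def capW0 (t : ℝ) : Fin 3 → ℝ := diagW (capA0 t) (capB0 t)

theorem contDiff_capW0 {n : ℕ∞} : ContDiff ℝ n capW0 := by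
  refine contDiff_pi.2 fun i => ?_
  fin_cases i
  · exact (contDiff_const.mul contDiff_capA0).exp
  · exact (contDiff_const.mul contDiff_capB0).exp
  · exact contDiff_const

theorem diagW_mem_wPos (a b : ℝ) : diagW a b ∈ wPos := by
  constructor
  · simp [diagW, Real.exp_pos]
  · simp [wdet, diagW, Real.exp_pos]

theorem sqrt_exp_two (a : ℝ) : Real.sqrt (Real.exp (-2 * a)) = Real.exp (-a) := by
  rw [← Real.exp_half]; ring_nf

theorem rootM_diagW (a b : ℝ) :
    rootM (diagW a b) = ![![Real.exp (-a), 0], ![0, Real.exp (-b)]] := by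
  funext i j
  fin_cases i <;> fin_cases j <;>
    simp [rootM, diagW, wdet, neg_mul, (Real.exp_pos _).ne']
  all_goals rw [← neg_mul, sqrt_exp_two]

theorem rootN_diagW (a b : ℝ) :
    rootN (diagW a b) = ![![Real.exp a, 0], ![0, Real.exp b]] := by
  funext i j
  fin_cases i <;> fin_cases j <;>
    simp [rootN, diagW, wdet, neg_mul, (Real.exp_pos _).ne']
  all_goals rw [← neg_mul, sqrt_exp_two, Real.exp_neg, inv_inv]

theorem hasDerivAt_diag2 {f g : ℝ → ℝ} {f' g' t : ℝ} (hf : HasDerivAt f f' t)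
    (hg : HasDerivAt g g' t) :
    HasDerivAt (fun s => (![![f s, 0], ![0, g s]] : Arr 2)) ![![f', 0], ![0, g']] t := by
  refine hasDerivAt_pi.2 fun i => hasDerivAt_pi.2 fun j => ?_
  fin_cases i <;> fin_cases j
  · exact hf
  · exact hasDerivAt_const t (0 : ℝ)
  · exact hasDerivAt_const t (0 : ℝ)
  · exact hg

theorem rootD_capW0 (t : ℝ) : rootD (capW0 t) (deriv capW0 t)
    = ![![-capp (capU t) * Real.exp (-capA0 t), 0],
        ![0, -capq (capU t) * Real.exp (-capB0 t)]] := by
  refine (hasDerivAt_rootM (contDiff_capW0 (n := 2)).contDiffAt (diagW_mem_wPos _ _)).unique ?_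
  refine ((hasDerivAt_diag2 ((hasDerivAt_capA0 t).neg.exp)
    ((hasDerivAt_capB0 t).neg.exp)).congr_of_eventuallyEq
      (Eventually.of_forall fun s => rootM_diagW _ _)).congr_deriv ?_
  funext i j
  fin_cases i <;> fin_cases j <;> simp <;> ring

theorem rootDD_capW0 (t : ℝ) : rootDD (capW0 t) (deriv capW0 t) (deriv (deriv capW0) t)
    = ![![(capp (capU t) ^ 2 - capdp (capU t)) * Real.exp (-capA0 t), 0],
        ![0, (capq (capU t) ^ 2 - capdq (capU t)) * Real.exp (-capB0 t)]] := by
  refine (hasDerivAt_rootD (contDiff_capW0 (n := 2)).contDiffAt (diagW_mem_wPos _ _)).unique ?_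
  refine ((hasDerivAt_diag2 ((hasDerivAt_capp t).neg.mul ((hasDerivAt_capA0 t).neg.exp))
    ((hasDerivAt_capq t).neg.mul ((hasDerivAt_capB0 t).neg.exp))).congr_of_eventuallyEq
      (Eventually.of_forall fun s => rootD_capW0 s)).congr_deriv ?_
  funext i j
  fin_cases i <;> fin_cases j <;> simp <;> ring

theorem exp_two_capA0 (t : ℝ) : Real.exp (2 * capA0 t) = capP (capU t) ^ 2 := by
  rw [show 2 * capA0 t = Real.log (capP (capU t) ^ 2) by simp [capA0, Real.log_pow],
    Real.exp_log (pow_pos (capP_pos (capU_pos t).le) 2)]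

theorem exp_two_capB0 (t : ℝ) :
    Real.exp (2 * capB0 t) * (1 - capU t ^ 4) = (capP (capU t) * capQ (capU t)) ^ 2 := by
  have hp := capP_pos (capU_pos t).le
  have hq := capQ_pos (capU_pos t).le (capU_le_one t)
  have h4 : 0 < 1 - capU t ^ 4 := by rw [one_sub_capU_pow]; positivity
  have e : 2 * capB0 t = 2 * capA0 t + (2 * Real.log (capQ (capU t)) - Real.log (1 - capU t ^ 4)) := by
    rw [capB0_eq]; ring
  rw [e, Real.exp_add, exp_two_capA0, Real.exp_sub, Real.exp_log h4,
    show 2 * Real.log (capQ (capU t)) = Real.log (capQ (capU t) ^ 2) by simp [Real.log_pow],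
    Real.exp_log (pow_pos hq 2)]
  field_simp

theorem coneJ_capW0 (t : ℝ) :
    let z := (capW0 t, deriv capW0 t, deriv (deriv capW0) t)
    coneJ (modelAt z) 0 0 = capR (capU t) ∧
      (∀ α β, tanAt z α β
        = ![![capW (capU t), 0], ![0, capZ (capU t)]] α β) := by
  intro z
  refine ⟨?_, fun α β => ?_⟩
  · rw [rad_modelAt (contDiff_capW0 (n := 2)).contDiffAt (diagW_mem_wPos _ _)]
    have hA : ∀ s, HasDerivAt capA0 (capp (capU s)) s := hasDerivAt_capA0
    have hB : ∀ s, HasDerivAt capB0 (capq (capU s)) s := hasDerivAt_capB0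
    have hA' : deriv capA0 = fun s => capp (capU s) := funext fun s => (hA s).deriv
    have hB' : deriv capB0 = fun s => capq (capU s) := funext fun s => (hB s).deriv
    obtain ⟨-, -, h⟩ := diagW_calc (hA t) (hB t) (hA' ▸ hasDerivAt_capp t)
      (hB' ▸ hasDerivAt_capq t)
      (Eventually.of_forall fun s => ⟨(hA s).differentiableAt, (hB s).differentiableAt⟩)
    exact h.trans (by rw [capR]; ring)
  · have hp := (capP_pos (capU_pos t).le).ne'
    have hq := (capQ_pos (capU_pos t).le (capU_le_one t)).ne'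
    have ea : Real.exp (capA0 t) ^ 2 = capP (capU t) ^ 2 := by
      rw [← exp_two_capA0, ← Real.exp_nat_mul]; norm_num
    have eb : Real.exp (capB0 t) ^ 2 * (1 - capU t ^ 4) = (capP (capU t) * capQ (capU t)) ^ 2 := by
      rw [← exp_two_capB0, ← Real.exp_nat_mul]; norm_num
    have hX := (Real.exp_pos (capA0 t)).ne'
    have hY := (Real.exp_pos (capB0 t)).ne'
    have en : rootN (capW0 t) = _ := rootN_diagW (capA0 t) (capB0 t)
    have em : rootM (capW0 t) = _ := rootM_diagW (capA0 t) (capB0 t)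
    simp only [tanAt, modelAt, z, coneJ_model, spi_ne_zero, if_false, spI_spi, spA_spi, if_true,
      rootD_capW0, rootDD_capW0, en, em]
    fin_cases α <;> fin_cases β <;>
      simp [tanM, ricM, dM, aM, daM, mul2, symS, skewK, trS, Fin.sum_univ_two, capW, capZ,
        Real.exp_neg]
    · field_simp
      linear_combination (-2 : ℝ) * ea
    · field_simp
      linear_combination (-2 : ℝ) * eb

/-- The models along the cap profile have nonnegative Ricci curvature. -/
theorem capW0_psd (t : ℝ) (w : Fin 7 → ℝ) :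
    0 ≤ ∑ b, ∑ d, coneJ (modelAt (capW0 t, deriv capW0 t, deriv (deriv capW0) t)) b d
      * w b * w d := by
  obtain ⟨hr, ht⟩ := coneJ_capW0 t
  rw [modelForm, hr]
  have h0 := capU_pos t
  have h1 := capU_le_one t
  refine add_nonneg (mul_nonneg (capR_nonneg h0.le h1) (sq_nonneg _))
    (Finset.sum_nonneg fun i _ => ?_)
  simp only [Fin.sum_univ_two, ht, cons_val_zero, cons_val_one, zero_mul, add_zero, zero_add]
  nlinarith [mul_nonneg (capW_nonneg h0.le h1) (sq_nonneg (w (spi 0 i))),
    mul_nonneg (capZ_nonneg h0.le h1) (sq_nonneg (w (spi 1 i)))]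

/-- Warped metrics with weights depending only on `t`: Ricci through the model. -/
theorem warp_ricci_self {W : ℝ → Fin 3 → ℝ} (hW : ContDiff ℝ 2 W) (hpos : ∀ t, W t ∈ wPos)
    {x : Pt 7} (hx : x ∈ chartOff)
    (hpsd : ∀ w : Fin 7 → ℝ, 0 ≤ ∑ b, ∑ d,
      coneJ (modelAt (W (tlog x), deriv W (tlog x), deriv (deriv W) (tlog x))) b d * w b * w d)
    (v : Pt 7) : 0 ≤ ∑ j, ∑ l, ricci (warpMetric fun t _ => gram (W t)) j l x * v j * v l := by
  refine warp_ricci_reduce (A := fun _ => 1) (B := fun _ => 1) (E := fun _ => 0)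
    (E' := fun _ => 0) isOpen_chartOff subset_rfl (fun _ _ => contDiffOn_const)
    (fun _ _ => contDiffOn_const) (fun _ _ => contDiffOn_const) (fun _ _ => contDiffOn_const)
    (fun _ _ => one_mul _) (fun _ _ => by simp) (fun y _ a b f => changeStruct_one a b f y)
    (fun y _ => ⟨hW.contDiffAt, hpos _⟩) (fun y _ => by simp) hx (fun w => ?_) v
  rw [frameJet_one, FrameJet.one_mul']
  exact hpsd w

/-- The end criterion for weights depending only on `t`. -/
theorem warp_ricci_slow : ∃ δ : ℝ, 0 < δ ∧ ∀ (W : ℝ → Fin 3 → ℝ), ContDiff ℝ 2 W →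
    (∀ t, W t ∈ wPos) → ∀ x ∈ chartOff, ∀ k ∈ pathSet, ‖W (tlog x) - k‖ ≤ δ →
    ‖deriv W (tlog x)‖ ≤ δ → ‖deriv (deriv W) (tlog x)‖ ≤ δ → 0 ≤ radOf W (tlog x) →
    ∀ v : Pt 7, 0 ≤ ∑ j, ∑ l, ricci (warpMetric fun t _ => gram (W t)) j l x * v j * v l := by
  obtain ⟨L, δ, hδ, -, h⟩ := warp_ricci_nonneg
  refine ⟨δ, hδ, fun W hW hpos x hx k hk h0 h1 h2 hr => ?_⟩
  refine h _ chartOff (fun _ => 1) (fun _ => 1) (fun _ => 0) (fun _ => 0) W isOpen_chartOff
    subset_rfl (fun _ _ => contDiffOn_const) (fun _ _ => contDiffOn_const)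
    (fun _ _ => contDiffOn_const) (fun _ _ => contDiffOn_const) (fun _ _ => one_mul _)
    (fun _ _ => by simp) (fun y _ a b f => changeStruct_one a b f y)
    (fun y _ => ⟨hW.contDiffAt, hpos _⟩) (fun y _ => by simp) x hx k hk h0 h1 h2 0 hδ.le ?_ ?_
  · rw [frameJet_one, sub_self, norm_zero]
  · simpa using hr

end

end Vale.Agent.P225
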