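import Mathlib

/-!
P225: a smooth monotone step from `0` to `1` on `[0,1]`, convex near `0`.
-/

namespace Vale.Agent.P225

open Filter Polynomial
open scoped Topology

noncomputable section

/-- The auxiliary transition, `0` up to `1/4`, `1` from `3/4`. -/
def stepMid (s : ℝ) : ℝ := Real.smoothTransition (2 * s - 1 / 2)

/-- The step. -/
def capStep (s : ℝ) : ℝ := 1 - (1 - expNegInvGlue s) * (1 - stepMid s)

theorem expNegInvGlue_le_one (s : ℝ) : expNegInvGlue s ≤ 1 := by
  by_cases h : s ≤ 0
  · rw [expNegInvGlue.zero_of_nonpos h]; exact zero_le_one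
  · rw [expNegInvGlue, if_neg h]
    exact Real.exp_le_one_iff.2 (neg_nonpos.2 (inv_nonneg.2 (not_le.1 h).le))

theorem contDiff_capStep {n : ℕ∞} : ContDiff ℝ n capStep :=
  contDiff_const.sub ((contDiff_const.sub expNegInvGlue.contDiff).mul
    (contDiff_const.sub (Real.smoothTransition.contDiff.comp
      ((contDiff_const.mul contDiff_id).sub contDiff_const))))

theorem capStep_nonneg (s : ℝ) : 0 ≤ capStep s := by
  have h1 := expNegInvGlue.nonneg s
  have h2 := Real.smoothTransition.nonneg (2 * s - 1 / 2)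
  have h3 := expNegInvGlue_le_one s
  simp only [capStep, stepMid]
  nlinarith [mul_nonneg (sub_nonneg.2 h3) h2]

theorem capStep_le_one (s : ℝ) : capStep s ≤ 1 := by
  simp only [capStep, stepMid]
  nlinarith [mul_nonneg (sub_nonneg.2 (expNegInvGlue_le_one s))
    (sub_nonneg.2 (Real.smoothTransition.le_one (2 * s - 1 / 2)))]

theorem capStep_of_le {s : ℝ} (h : s ≤ 0) : capStep s = 0 := by
  rw [capStep, stepMid, expNegInvGlue.zero_of_nonpos h,
    Real.smoothTransition.zero_of_nonpos (by linarith : 2 * s - 1 / 2 ≤ 0)]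
  ring

theorem capStep_of_ge {s : ℝ} (h : 3 / 4 ≤ s) : capStep s = 1 := by
  rw [capStep, stepMid, Real.smoothTransition.one_of_one_le (by linarith : 1 ≤ 2 * s - 1 / 2)]
  ring

theorem capStep_monotone : Monotone capStep := by
  intro x y h
  have h1 := expNegInvGlue.monotone h
  have h2 : stepMid x ≤ stepMid y := Real.smoothTransition.monotone (by linarith)
  have h3 : stepMid y ≤ 1 := Real.smoothTransition.le_one _
  simp only [capStep]
  nlinarith [mul_le_mul (sub_le_sub_left h1 1) (sub_le_sub_left h2 1) (sub_nonneg.2 h3)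
    (sub_nonneg.2 (expNegInvGlue_le_one x))]

theorem deriv_capStep_nonneg (s : ℝ) : 0 ≤ deriv capStep s := capStep_monotone.deriv_nonneg

theorem hasDerivAt_expNegInvGlue (x : ℝ) :
    HasDerivAt expNegInvGlue ((x⁻¹) ^ 2 * expNegInvGlue x) x := by
  have h := expNegInvGlue.hasDerivAt_polynomial_eval_inv_mul 1 x
  simpa using h

theorem hasDerivAt_deriv_expNegInvGlue (x : ℝ) :
    HasDerivAt (deriv expNegInvGlue) ((x⁻¹) ^ 3 * (x⁻¹ - 2) * expNegInvGlue x) x := by
  rw [show deriv expNegInvGlue = fun y => (y⁻¹) ^ 2 * expNegInvGlue y from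
    funext fun y => (hasDerivAt_expNegInvGlue y).deriv]
  have h := expNegInvGlue.hasDerivAt_polynomial_eval_inv_mul (X ^ 2) x
  simp only [eval_pow, eval_X] at h
  refine h.congr_deriv ?_
  simp only [eval_mul, eval_sub, eval_pow, eval_X, derivative_X_pow, eval_C]
  push_cast
  ring

/-- Where the step is concave it is bounded below. -/
theorem capStep_concave : ∃ c : ℝ, 0 < c ∧ ∀ s, deriv (deriv capStep) s < 0 → c ≤ capStep s := by
  refine ⟨capStep (1 / 4), ?_, fun s hs => ?_⟩
  · rw [capStep, stepMid,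
      Real.smoothTransition.zero_of_nonpos (by norm_num : (2 : ℝ) * (1 / 4) - 1 / 2 ≤ 0)]
    linarith [expNegInvGlue.pos_of_pos (by norm_num : (0 : ℝ) < 1 / 4)]
  · refine capStep_monotone (le_of_not_gt fun hlt => ?_)
    have hev : capStep =ᶠ[𝓝 s] expNegInvGlue := by
      filter_upwards [gt_mem_nhds hlt] with y hy
      rw [capStep, stepMid, Real.smoothTransition.zero_of_nonpos (by linarith : 2 * y - 1 / 2 ≤ 0)]
      ring
    rw [hev.deriv.deriv_eq, (hasDerivAt_deriv_expNegInvGlue s).deriv] at hs
    rcases le_or_gt s 0 with h0 | h0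
    · rw [expNegInvGlue.zero_of_nonpos h0, mul_zero] at hs
      exact lt_irrefl _ hs
    · have h4 : 2 ≤ s⁻¹ := by
        rw [le_inv_comm₀ (by norm_num) h0]; linarith
      exact not_lt.2 (mul_nonneg (mul_nonneg (by positivity) (sub_nonneg.2 h4))
        (expNegInvGlue.nonneg s)) hs

/-- The first two derivatives of the step are bounded. -/
theorem capStep_bound : ∃ C : ℝ, 0 < C ∧ ∀ s, |deriv capStep s| ≤ C ∧ |deriv (deriv capStep) s| ≤ C := by
  have h1 : Continuous (deriv capStep) :=
    (contDiff_capStep (n := 2)).continuous_deriv (by norm_num)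
  have h2 : ContDiff ℝ 1 (deriv capStep) :=
    ((contDiff_succ_iff_deriv (n := 1)).1 (by exact_mod_cast contDiff_capStep (n := 2))).2.2
  have h3 : Continuous (deriv (deriv capStep)) := h2.continuous_deriv le_rfl
  obtain ⟨C1, hC1⟩ := isCompact_Icc.exists_bound_of_continuousOn (h1.continuousOn (s := Set.Icc (-1) 1))
  obtain ⟨C2, hC2⟩ := isCompact_Icc.exists_bound_of_continuousOn (h3.continuousOn (s := Set.Icc (-1) 1))
  refine ⟨max (max C1 C2) 1, by positivity, fun s => ?_⟩
  by_cases hs : s ∈ Set.Icc (-1 : ℝ) 1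
  · exact ⟨(hC1 s hs).trans ((le_max_left _ _).trans (le_max_left _ _)),
      (hC2 s hs).trans ((le_max_right _ _).trans (le_max_left _ _))⟩
  · have hev : ∀ᶠ y in 𝓝 s, deriv capStep y = 0 := by
      rcases not_and_or.1 hs with h | h
      · filter_upwards [gt_mem_nhds (not_le.1 h)] with y hy
        have : capStep =ᶠ[𝓝 y] fun _ => (0 : ℝ) := by
          filter_upwards [gt_mem_nhds hy] with z hz using capStep_of_le (by linarith)
        rw [this.deriv_eq, deriv_const]
      · filter_upwards [lt_mem_nhds (not_le.1 h)] with y hy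
        have : capStep =ᶠ[𝓝 y] fun _ => (1 : ℝ) := by
          filter_upwards [lt_mem_nhds hy] with z hz using capStep_of_ge (by linarith)
        rw [this.deriv_eq, deriv_const]
    have e2 : deriv (deriv capStep) s = 0 := by
      rw [(show deriv capStep =ᶠ[𝓝 s] fun _ => (0 : ℝ) from hev).deriv_eq, deriv_const]
    rw [hev.self_of_nhds, e2, abs_zero]
    constructor <;> positivity

end

end Vale.Agent.P225
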