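import Vale.Agent.P225.Geom.Cert

/-!
P225: the jets of the model cones along a curve of weights, their radial curvature, and the uniform
positivity of the tangential curvature for slow curves.
-/

namespace Vale.Agent.P225

open scoped BigOperators Topology
open Set Filter

noncomputable section

/-- Weights with a positive definite Gram matrix. -/
def wPos : Set (Fin 3 → ℝ) := {w | 0 < w 0 + w 2 ∧ 0 < wdet w}

theorem isOpen_wPos : IsOpen wPos := by
  have h1 : Continuous fun w : Fin 3 → ℝ => w 0 + w 2 :=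
    (continuous_apply 0).add (continuous_apply 2)
  have h2 : Continuous (wdet : (Fin 3 → ℝ) → ℝ) := by unfold wdet; fun_prop
  exact (isOpen_lt continuous_const h1).inter (isOpen_lt continuous_const h2)

theorem pathSet_subset : pathSet ⊆ wPos := fun _ hw => pathSet_pos hw

theorem contDiffOn_rootM : ContDiffOn ℝ 2 rootM wPos := by
  have hp : ∀ i : Fin 3, ContDiffOn ℝ 2 (fun w : Fin 3 → ℝ => w i) wPos := fun i =>
    (contDiff_apply ℝ ℝ i).contDiffOn
  have hd : ContDiffOn ℝ 2 wdet wPos :=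
    (((hp 0).mul (hp 1)).add ((hp 0).mul (hp 2))).add ((hp 1).mul (hp 2))
  have h0 : ∀ w ∈ wPos, w 0 + w 2 ≠ 0 := fun w hw => hw.1.ne'
  have ha := ((hp 0).add (hp 2)).sqrt h0
  refine contDiffOn_pi.2 fun i => contDiffOn_pi.2 fun j => ?_
  fin_cases i <;> fin_cases j
  · exact ha
  · exact contDiffOn_const
  · exact (hp 2).div ha fun w hw => (Real.sqrt_pos.2 hw.1).ne'
  · exact (hd.div ((hp 0).add (hp 2)) h0).sqrt fun w hw => (div_pos hw.2 hw.1).ne'

theorem continuousOn_rootN : ContinuousOn rootN wPos := by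
  have hp : ∀ i : Fin 3, ContinuousOn (fun w : Fin 3 → ℝ => w i) wPos := fun i =>
    (continuous_apply i).continuousOn
  have hd : ContinuousOn wdet wPos :=
    (((hp 0).mul (hp 1)).add ((hp 0).mul (hp 2))).add ((hp 1).mul (hp 2))
  have h0 : ∀ w ∈ wPos, w 0 + w 2 ≠ 0 := fun w hw => hw.1.ne'
  have ha := ((hp 0).add (hp 2)).sqrt
  have hc := (hd.div ((hp 0).add (hp 2)) h0).sqrt
  have hcn : ∀ w ∈ wPos, Real.sqrt (wdet w / (w 0 + w 2)) ≠ 0 := fun w hw =>
    (Real.sqrt_pos.2 (div_pos hw.2 hw.1)).ne'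
  refine continuousOn_pi.2 fun i => continuousOn_pi.2 fun j => ?_
  fin_cases i <;> fin_cases j
  · exact ha.inv₀ fun w hw => (Real.sqrt_pos.2 hw.1).ne'
  · exact continuousOn_const
  · exact (hp 2).neg.div (((hp 0).add (hp 2)).mul hc) fun w hw => mul_ne_zero (h0 w hw) (hcn w hw)
  · exact hc.inv₀ hcn

/-- First time derivative of the triangular root along a curve with velocity `w'`. -/
def rootD (w w' : Fin 3 → ℝ) : Arr 2 := fderiv ℝ rootM w w'

/-- Second time derivative of the triangular root. -/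
def rootDD (w w' w'' : Fin 3 → ℝ) : Arr 2 :=
  fderiv ℝ (fderiv ℝ rootM) w w' w' + fderiv ℝ rootM w w''

/-- The jet of a model cone with weights `w`, velocity `w'`, acceleration `w''`. -/
def modelAt (z : (Fin 3 → ℝ) × (Fin 3 → ℝ) × (Fin 3 → ℝ)) : FrameJet 7 :=
  modelJet (rootM z.1) (rootN z.1) (rootD z.1 z.2.1) (rootDD z.1 z.2.1 z.2.2)

theorem continuousOn_modelAt : ContinuousOn modelAt (wPos ×ˢ univ) := by
  have hf : ContinuousOn (fun z : (Fin 3 → ℝ) × (Fin 3 → ℝ) × (Fin 3 → ℝ) => z.1) (wPos ×ˢ univ) :=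
    continuous_fst.continuousOn
  have hm : MapsTo (fun z : (Fin 3 → ℝ) × (Fin 3 → ℝ) × (Fin 3 → ℝ) => z.1) (wPos ×ˢ univ) wPos :=
    fun z hz => hz.1
  have hM := contDiffOn_rootM.continuousOn.comp hf hm
  have hN := continuousOn_rootN.comp hf hm
  have h1 := ((contDiffOn_rootM.fderiv_of_isOpen isOpen_wPos (m := 1) (by norm_num)))
  have hD1 := h1.continuousOn.comp hf hm
  have hD2 := (h1.continuousOn_fderiv_of_isOpen isOpen_wPos le_rfl).comp hf hm
  have hv1 : ContinuousOn (fun z : (Fin 3 → ℝ) × (Fin 3 → ℝ) × (Fin 3 → ℝ) => z.2.1) (wPos ×ˢ univ) :=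
    (continuous_fst.comp continuous_snd).continuousOn
  have hv2 : ContinuousOn (fun z : (Fin 3 → ℝ) × (Fin 3 → ℝ) × (Fin 3 → ℝ) => z.2.2) (wPos ×ˢ univ) :=
    (continuous_snd.comp continuous_snd).continuousOn
  have hr1 : ContinuousOn (fun z : (Fin 3 → ℝ) × (Fin 3 → ℝ) × (Fin 3 → ℝ) => rootD z.1 z.2.1)
      (wPos ×ˢ univ) := hD1.clm_apply hv1
  have hr2 : ContinuousOn
      (fun z : (Fin 3 → ℝ) × (Fin 3 → ℝ) × (Fin 3 → ℝ) => rootDD z.1 z.2.1 z.2.2) (wPos ×ˢ univ) :=
    ((hD2.clm_apply hv1).clm_apply hv1).add (hD1.clm_apply hv2)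
  have hc : Continuous fun q : Arr 2 × Arr 2 × Arr 2 × Arr 2 =>
      modelJet q.1 q.2.1 q.2.2.1 q.2.2.2 := by
    unfold modelJet
    refine Continuous.prodMk ?_ (Continuous.prodMk ?_ (Continuous.prodMk ?_ (Continuous.prodMk ?_ ?_)))
    · refine continuous_pi fun p => continuous_pi fun q' => ?_
      simp only [blk]; split_ifs <;> fun_prop
    · refine continuous_pi fun p => continuous_pi fun q' => ?_
      simp only [blk]; split_ifs <;> fun_prop
    · refine continuous_pi fun r => continuous_pi fun p => continuous_pi fun q' => ?_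
      by_cases hr : r = 0 <;> simp only [hr, if_true, if_false, blk, Pi.zero_apply] <;>
        (try split_ifs) <;> fun_prop
    · refine continuous_pi fun r => continuous_pi fun p => continuous_pi fun q' => ?_
      by_cases hr : r = 0 <;> simp only [hr, if_true, if_false, blk, mul2, Pi.zero_apply] <;>
        (try split_ifs) <;> fun_prop
    · refine continuous_pi fun r => continuous_pi fun r' => continuous_pi fun p =>
        continuous_pi fun q' => ?_
      by_cases hr : r = 0 ∧ r' = 0 <;> simp only [hr, and_self, if_true, if_false, blk,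
        Pi.zero_apply] <;> (try split_ifs) <;> fun_prop
  exact hc.comp_continuousOn (hM.prodMk (hN.prodMk (hr1.prodMk hr2)))

/-- The tangential curvature of a model, `r²` times Ricci. -/
def tanAt (z : (Fin 3 → ℝ) × (Fin 3 → ℝ) × (Fin 3 → ℝ)) (α β : Fin 2) : ℝ :=
  coneJ (modelAt z) (spi α 0) (spi β 0)

theorem tanAt_eq (z : (Fin 3 → ℝ) × (Fin 3 → ℝ) × (Fin 3 → ℝ)) (α β : Fin 2) (i : Fin 3) :
    coneJ (modelAt z) (spi α i) (spi β i) = tanAt z α β := by
  simp [tanAt, modelAt, coneJ_model]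

/-- At a static point of the path the tangential curvature is at least `0.002`. -/
theorem tanAt_static {w : Fin 3 → ℝ} (hw : w ∈ pathSet) (y : Fin 2 → ℝ) :
    2 / 1000 * (y 0 ^ 2 + y 1 ^ 2) ≤ ∑ α, ∑ β, tanAt (w, 0, 0) α β * y α * y β := by
  have h1 : rootD w 0 = 0 := map_zero _
  have h2 : rootDD w 0 0 = 0 := by simp [rootDD]
  have h := ricM_path hw y
  have e : ∀ α β, tanAt (w, 0, 0) α β
      = ricM (dM (rootM w) (rootN w)) α β - if α = β then 5 else 0 := fun α β => by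
    simp [tanAt, modelAt, coneJ_model, h1, h2, tanM, aM, daM, mul2, symS, skewK, trS]
  simp only [e, Fin.sum_univ_two, Fin.sum_univ_two] at h ⊢
  simp
  linarith

/-- Near static points of the path the tangential curvature stays above `0.001`. -/
theorem tanAt_pos : ∃ δ : ℝ, 0 < δ ∧ ∀ k ∈ pathSet, ∀ w w' w'' : Fin 3 → ℝ,
    ‖w - k‖ ≤ δ → ‖w'‖ ≤ δ → ‖w''‖ ≤ δ → w ∈ wPos ∧
    ∀ y : Fin 2 → ℝ, 1 / 1000 * (y 0 ^ 2 + y 1 ^ 2)
      ≤ ∑ α, ∑ β, tanAt (w, w', w'') α β * y α * y β := by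
  have hK : IsCompact ((fun w : Fin 3 → ℝ => (w, ((0 : Fin 3 → ℝ), (0 : Fin 3 → ℝ)))) '' pathSet) :=
    isCompact_pathSet.image (continuous_id.prodMk continuous_const)
  set K := (fun w : Fin 3 → ℝ => (w, ((0 : Fin 3 → ℝ), (0 : Fin 3 → ℝ)))) '' pathSet with hKdef
  have hsub : K ⊆ wPos ×ˢ univ := by
    rintro _ ⟨w, hw, rfl⟩; exact ⟨pathSet_subset hw, trivial⟩
  have hopen : IsOpen (wPos ×ˢ (univ : Set ((Fin 3 → ℝ) × (Fin 3 → ℝ)))) :=
    isOpen_wPos.prod isOpen_univ
  obtain ⟨δ₀, hδ₀, hth⟩ := hK.exists_cthickening_subset_open hopen hsub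
  have hcont : ∀ a ∈ K, ContinuousAt (fun z => fun α β => tanAt z α β) a := fun a ha => by
    have h := continuousOn_modelAt.continuousAt (hopen.mem_nhds (hsub ha))
    exact continuousAt_pi.2 fun α => continuousAt_pi.2 fun β =>
      (((contDiff_coneJ (spi α 0) (spi β 0)).continuous).continuousAt).comp h
  have hu := hK.uniformContinuousAt_of_continuousAt (fun z => fun α β => tanAt z α β) hcont
    (Metric.dist_mem_uniformity (show (0 : ℝ) < 1 / 4000 by norm_num))
  obtain ⟨ε, hε, hεu⟩ := Metric.mem_uniformity_dist.1 hu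
  refine ⟨min (ε / 2) δ₀, lt_min (half_pos hε) hδ₀, fun k hk w w' w'' h h' h'' => ?_⟩
  have hd : Dist.dist (k, ((0 : Fin 3 → ℝ), (0 : Fin 3 → ℝ))) (w, (w', w'')) ≤ min (ε / 2) δ₀ := by
    simp only [Prod.dist_eq, dist_zero_left]
    exact max_le (by rwa [dist_comm, dist_eq_norm]) (max_le h' h'')
  have hkK : (k, ((0 : Fin 3 → ℝ), (0 : Fin 3 → ℝ))) ∈ K := ⟨k, hk, rfl⟩
  refine ⟨(hth (Metric.mem_cthickening_of_dist_le _ _ _ _ hkK
    (by rw [dist_comm]; exact hd.trans (min_le_right _ _)))).1, fun y => ?_⟩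
  have hclose := hεu (lt_of_le_of_lt (hd.trans (min_le_left _ _)) (half_lt_self hε)) hkK
  have hab : ∀ α β, |tanAt (k, 0, 0) α β - tanAt (w, w', w'') α β| ≤ 1 / 4000 := fun α β => by
    refine le_trans ?_ (le_of_lt hclose)
    rw [← Real.dist_eq]
    exact (dist_le_pi_dist (fun β => tanAt (k, 0, 0) α β) (fun β => tanAt (w, w', w'') α β) β).trans
      (dist_le_pi_dist (fun α β => tanAt (k, 0, 0) α β) (fun α β => tanAt (w, w', w'') α β) α)
  have hs := tanAt_static hk y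
  simp only [Fin.sum_univ_two] at hs ⊢
  have := hab 0 0
  have := hab 0 1
  have := hab 1 0
  have := hab 1 1
  have b := fun α β => abs_le.1 (hab α β)
  nlinarith [b 0 0, b 0 1, b 1 0, b 1 1, sq_nonneg (y 0 + y 1), sq_nonneg (y 0 - y 1),
    sq_nonneg (y 0), sq_nonneg (y 1)]

/-- The radial curvature of a triangular model. -/
theorem radM_tri (a b c a₁ b₁ c₁ a₂ b₂ c₂ : ℝ) (ha : a ≠ 0) (hc : c ≠ 0) :
    radM (aM ![![a⁻¹, 0], ![-b / (a * c), c⁻¹]] ![![a₁, 0], ![b₁, c₁]])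
        (daM ![![a⁻¹, 0], ![-b / (a * c), c⁻¹]] ![![a₁, 0], ![b₁, c₁]] ![![a₂, 0], ![b₂, c₂]])
      = 3 * ((a₂ * a - a₁ ^ 2) / a ^ 2 + (c₂ * c - c₁ ^ 2) / c ^ 2) + 3 * (a₁ / a + c₁ / c)
        - (-3 * (a₁ / a + c₁ / c)) ^ 2 / 3
        + 3 / 2 * ((4 * a * a₁ * (b * b₁ + c * c₁) - (a₁ * b + a * b₁) ^ 2) / (a * c) ^ 2) := by
  simp [radM, aM, daM, mul2, symS, trS, Fin.sum_univ_two]
  field_simp
  ring

/-- The function `v = -(3/2) (log wdet)'`. -/
def vOf (W : ℝ → Fin 3 → ℝ) (t : ℝ) : ℝ := -(3 / 2) * deriv (fun s => Real.log (wdet (W s))) t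

/-- The radial curvature of the model along a curve of weights. -/
def radOf (W : ℝ → Fin 3 → ℝ) (t : ℝ) : ℝ :=
  -deriv (vOf W) t - vOf W t - vOf W t ^ 2 / 3 + 3 / 2 * (wdet (deriv W t) / wdet (W t))

theorem hasDerivAt_rootM {W : ℝ → Fin 3 → ℝ} {s : ℝ} (hW : ContDiffAt ℝ 2 W s) (hs : W s ∈ wPos) :
    HasDerivAt (fun u => rootM (W u)) (rootD (W s) (deriv W s)) s :=
  ((contDiffOn_rootM.contDiffAt (isOpen_wPos.mem_nhds hs)).differentiableAt
    (by norm_num)).hasFDerivAt.comp_hasDerivAt s (hW.differentiableAt (by norm_num)).hasDerivAt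

theorem hasDerivAt_rootD {W : ℝ → Fin 3 → ℝ} {s : ℝ} (hW : ContDiffAt ℝ 2 W s) (hs : W s ∈ wPos) :
    HasDerivAt (fun u => rootD (W u) (deriv W u))
      (rootDD (W s) (deriv W s) (deriv (deriv W) s)) s := by
  have h1 : ContDiffAt ℝ 1 (fderiv ℝ rootM) (W s) :=
    (contDiffOn_rootM.contDiffAt (isOpen_wPos.mem_nhds hs)).fderiv_right (by norm_num)
  have h2 : ContDiffAt ℝ 1 (deriv W) s :=
    ((hW.fderiv_right (m := 1) (by norm_num)).clm_apply contDiffAt_const).congr_of_eventuallyEq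
      (Eventually.of_forall fun u => fderiv_apply_one_eq_deriv.symm)
  exact ((h1.differentiableAt (by norm_num)).hasFDerivAt.comp_hasDerivAt s
    (hW.differentiableAt (by norm_num)).hasDerivAt).clm_apply
      (h2.differentiableAt (by norm_num)).hasDerivAt

/-- Exact radial curvature along a curve of weights. -/
theorem rad_modelAt {W : ℝ → Fin 3 → ℝ} {t : ℝ} (hW : ContDiffAt ℝ 2 W t) (ht : W t ∈ wPos) :
    coneJ (modelAt (W t, deriv W t, deriv (deriv W) t)) 0 0 = radOf W t := by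
  have hnear : ∀ᶠ s in 𝓝 t, ContDiffAt ℝ 2 W s ∧ W s ∈ wPos :=
    (hW.eventually (by norm_num)).and
      (hW.continuousAt.preimage_mem_nhds (isOpen_wPos.mem_nhds ht))
  -- the three entries and their derivatives
  set m1 := fun s => rootD (W s) (deriv W s) with hm1
  set a := fun s => rootM (W s) 0 0 with hadef
  set b := fun s => rootM (W s) 1 0 with hbdef
  set c := fun s => rootM (W s) 1 1 with hcdef
  have entry : ∀ s, ContDiffAt ℝ 2 W s → W s ∈ wPos → ∀ i j,
      HasDerivAt (fun u => rootM (W u) i j) (m1 s i j) s := fun s h1 h2 i j =>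
    hasDerivAt_pi.1 (hasDerivAt_pi.1 (hasDerivAt_rootM h1 h2) i) j
  have entry2 : ∀ i j, HasDerivAt (fun u => m1 u i j)
      (rootDD (W t) (deriv W t) (deriv (deriv W) t) i j) t := fun i j =>
    hasDerivAt_pi.1 (hasDerivAt_pi.1 (hasDerivAt_rootD hW ht) i) j
  have hrel : ∀ s, W s ∈ wPos → a s ≠ 0 ∧ c s ≠ 0 ∧ a s * a s = W s 0 + W s 2 ∧
      a s * b s = W s 2 ∧ b s * b s + c s * c s = W s 1 + W s 2 ∧
      wdet (W s) = (a s * c s) ^ 2 := by
    intro s hs
    have ha0 : a s ≠ 0 := (Real.sqrt_pos.2 hs.1).ne'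
    have hc0 : c s ≠ 0 := (Real.sqrt_pos.2 (div_pos hs.2 hs.1)).ne'
    have e1 : a s * a s = W s 0 + W s 2 := Real.mul_self_sqrt hs.1.le
    have e2 : c s * c s = wdet (W s) / (W s 0 + W s 2) :=
      Real.mul_self_sqrt (div_pos hs.2 hs.1).le
    have e3 : a s * b s = W s 2 := by
      simp only [hadef, hbdef, rootM, Matrix.cons_val_zero, Matrix.cons_val_one]
      exact mul_div_cancel₀ _ ha0
    refine ⟨ha0, hc0, e1, e3, ?_, ?_⟩
    · have hb : b s * b s = W s 2 ^ 2 / (W s 0 + W s 2) := by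
        rw [eq_div_iff hs.1.ne', ← e1, ← e3]; ring
      rw [hb, e2, ← add_div, div_eq_iff hs.1.ne', wdet]; ring
    · rw [mul_pow, sq, sq, e1, e2, mul_div_cancel₀ _ hs.1.ne']
  -- identification of the frame data
  have hz : ∀ s, ContDiffAt ℝ 2 W s → W s ∈ wPos → m1 s 0 1 = 0 := fun s h1 h2 =>
    (entry s h1 h2 0 1).unique (by simpa [rootM] using hasDerivAt_const s (0 : ℝ))
  have hz2 : rootDD (W t) (deriv W t) (deriv (deriv W) t) 0 1 = 0 :=
    (entry2 0 1).unique ((hasDerivAt_const t (0 : ℝ)).congr_of_eventuallyEq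
      (hnear.mono fun s hs => hz s hs.1 hs.2))
  obtain ⟨hat, hct, hA, hB, hC, hdet⟩ := hrel t ht
  have eN : rootN (W t) = ![![(a t)⁻¹, 0], ![-(b t) / (a t * c t), (c t)⁻¹]] := by
    rw [show -(b t) / (a t * c t) = -(W t 2) / ((W t 0 + W t 2) * c t) by
      rw [← hA, ← hB]; field_simp]
    rfl
  have e1 : rootD (W t) (deriv W t) = ![![m1 t 0 0, 0], ![m1 t 1 0, m1 t 1 1]] := by
    funext i j; fin_cases i <;> fin_cases j <;> simp [← hz t hW ht, hm1]
  have e2 : ∀ X : Arr 2, X 0 1 = 0 → X = ![![X 0 0, 0], ![X 1 0, X 1 1]] := fun X hX => by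
    funext i j; fin_cases i <;> fin_cases j <;> simp [hX]
  set m2 := rootDD (W t) (deriv W t) (deriv (deriv W) t) with hm2
  -- `v` near `t`
  have hv : ∀ᶠ s in 𝓝 t, vOf W s = -3 * (m1 s 0 0 / a s + m1 s 1 1 / c s) := by
    filter_upwards [hnear, hnear.eventually_nhds] with s hs hs'
    obtain ⟨ha0, hc0, -, -, -, -⟩ := hrel s hs.2
    have h : HasDerivAt (fun u => Real.log (wdet (W u)))
        (2 * (m1 s 0 0 / a s + m1 s 1 1 / c s)) s := by
      have := (((entry s hs.1 hs.2 0 0).log ha0).add ((entry s hs.1 hs.2 1 1).log hc0)).const_mul 2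
      refine this.congr_of_eventuallyEq ?_
      filter_upwards [hs'] with u hu
      obtain ⟨hua, huc, -, -, -, hud⟩ := hrel u hu.2
      rw [hud, Real.log_pow, Real.log_mul hua huc]
      simp [hadef, hcdef]
    rw [vOf, h.deriv]
    ring
  have hv' : deriv (vOf W) t = -3 * ((m2 0 0 * a t - m1 t 0 0 ^ 2) / a t ^ 2
      + (m2 1 1 * c t - m1 t 1 1 ^ 2) / c t ^ 2) := by
    refine HasDerivAt.deriv (HasDerivAt.congr_of_eventuallyEq ?_ hv)
    have := ((entry2 0 0).div (entry t hW ht 0 0) hat).add ((entry2 1 1).div (entry t hW ht 1 1) hct)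
    refine (this.const_mul (-3 : ℝ)).congr_deriv ?_
    ring
  -- the velocity of the weights
  have hWd : ∀ i, HasDerivAt (fun s => W s i) (deriv W t i) t := fun i =>
    hasDerivAt_pi.1 (hW.differentiableAt (by norm_num)).hasDerivAt i
  have q0 : deriv W t 0 + deriv W t 2 = 2 * a t * m1 t 0 0 := by
    refine ((hWd 0).add (hWd 2)).unique ?_
    refine (((entry t hW ht 0 0).mul (entry t hW ht 0 0)).congr_of_eventuallyEq ?_).congr_deriv
      (by simp [hadef]; ring)
    filter_upwards [hnear] with s hs using (hrel s hs.2).2.2.1.symm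
  have q1 : deriv W t 2 = m1 t 0 0 * b t + a t * m1 t 1 0 := by
    refine (hWd 2).unique ?_
    refine ((entry t hW ht 0 0).mul (entry t hW ht 1 0)).congr_of_eventuallyEq ?_
    filter_upwards [hnear] with s hs using (hrel s hs.2).2.2.2.1.symm
  have q2 : deriv W t 1 + deriv W t 2 = 2 * (b t * m1 t 1 0 + c t * m1 t 1 1) := by
    refine ((hWd 1).add (hWd 2)).unique ?_
    refine ((((entry t hW ht 1 0).mul (entry t hW ht 1 0)).add
      ((entry t hW ht 1 1).mul (entry t hW ht 1 1))).congr_of_eventuallyEq ?_).congr_deriv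
      (by simp [hbdef, hcdef]; ring)
    filter_upwards [hnear] with s hs using (hrel s hs.2).2.2.2.2.1.symm
  have hwd : wdet (deriv W t) = 4 * a t * m1 t 0 0 * (b t * m1 t 1 0 + c t * m1 t 1 1)
      - (m1 t 0 0 * b t + a t * m1 t 1 0) ^ 2 := by
    rw [← q1, show 4 * a t * m1 t 0 0 * (b t * m1 t 1 0 + c t * m1 t 1 1)
      = (2 * a t * m1 t 0 0) * (2 * (b t * m1 t 1 0 + c t * m1 t 1 1)) by ring, ← q0, ← q2, wdet]
    ring
  rw [modelAt, coneJ_model, if_pos rfl, if_pos rfl, eN, e1, ← hm2, e2 m2 hz2,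
    radM_tri _ _ _ _ _ _ _ _ _ hat hct]
  rw [radOf, hv', (hv.self_of_nhds), hwd, hdet]
  ring

end

end Vale.Agent.P225
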