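import Vale.Agent.P225.Geom.CapCert
import Vale.Agent.P225.Geom.CapStep
import Vale.Agent.P225.Geom.EndJet
import Vale.Agent.P225.Metric.Sched

/-!
P225: the weights of the cap as functions of `t = log r`, and their properties for large `t`.
-/

namespace Vale.Agent.P225

open Filter Set
open scoped Topology

noncomputable section

/-- The variable `u = (1 + r²)^(-1/4)` as a function of `t = log r`. -/
def capU (t : ℝ) : ℝ := (1 + Real.exp (2 * t)) ^ (-(1 / 4) : ℝ)

theorem capU_pos (t : ℝ) : 0 < capU t := Real.rpow_pos_of_pos (by positivity) _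

theorem capU_le_one (t : ℝ) : capU t ≤ 1 :=
  Real.rpow_le_one_of_one_le_of_nonpos (by linarith [Real.exp_pos (2 * t)]) (by norm_num)

theorem capU_pow (t : ℝ) : capU t ^ 4 = (1 + Real.exp (2 * t))⁻¹ := by
  rw [capU, ← Real.rpow_natCast, ← Real.rpow_mul (by positivity),
    show (-(1 / 4) : ℝ) * (4 : ℕ) = -1 by norm_num, Real.rpow_neg_one]

theorem one_sub_capU_pow (t : ℝ) :
    1 - capU t ^ 4 = Real.exp (2 * t) / (1 + Real.exp (2 * t)) := by
  rw [capU_pow]
  have : (0 : ℝ) < 1 + Real.exp (2 * t) := by positivity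
  field_simp
  ring

theorem hasDerivAt_capU (t : ℝ) :
    HasDerivAt capU (-(capU t / 2) * (1 - capU t ^ 4)) t := by
  have hb : (0 : ℝ) < 1 + Real.exp (2 * t) := by positivity
  have h := ((((hasDerivAt_id t).const_mul (2 : ℝ)).exp).const_add 1).rpow_const
    (p := (-(1 / 4) : ℝ)) (Or.inl hb.ne')
  refine h.congr_deriv ?_
  simp only [id_eq]
  rw [Real.rpow_sub hb, Real.rpow_one, one_sub_capU_pow, capU]
  field_simp
  ring

theorem tendsto_capU : Tendsto capU atTop (𝓝 0) :=
  (tendsto_rpow_neg_atTop (by norm_num : (0 : ℝ) < 1 / 4)).comp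
    (tendsto_atTop_add_const_left _ 1
      (Real.tendsto_exp_atTop.comp (tendsto_id.const_mul_atTop (by norm_num : (0 : ℝ) < 2))))

/-- `log (ψ/r)`. -/
def capA0 (t : ℝ) : ℝ := Real.log (capP (capU t))

/-- `log (φ/r)`. -/
def capB0 (t : ℝ) : ℝ :=
  Real.log (capP (capU t)) + Real.log (capQ (capU t)) + Real.log (1 + Real.exp (2 * t)) / 2 - t

theorem capB0_eq (t : ℝ) :
    capB0 t = capA0 t + Real.log (capQ (capU t)) - Real.log (1 - capU t ^ 4) / 2 := by
  rw [one_sub_capU_pow, Real.log_div (Real.exp_ne_zero _) (by positivity), Real.log_exp, capB0,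
    capA0]
  ring

theorem hasDerivAt_capP (u : ℝ) : HasDerivAt capP (capP1 u) u := by
  have h := (((hasDerivAt_id u).const_mul (1 / 25 : ℝ)).const_add (1183 / 2000 : ℝ)).add
    (((hasDerivAt_id u).pow 2).const_mul (737 / 2000 : ℝ))
  refine (h.congr_of_eventuallyEq (Eventually.of_forall fun v => ?_)).congr_deriv ?_
  · simp [capP]
  · simp [capP1]; ring

theorem hasDerivAt_capQ (u : ℝ) : HasDerivAt capQ (-(2 / 3) * u) u := by
  have h := (((hasDerivAt_id u).pow 2).const_mul (1 / 3 : ℝ)).const_sub (1 : ℝ)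
  refine (h.congr_of_eventuallyEq (Eventually.of_forall fun v => ?_)).congr_deriv ?_
  · simp [capQ]
  · simp; ring

theorem hasDerivAt_capA0 (t : ℝ) : HasDerivAt capA0 (capp (capU t)) t := by
  have hp := (capP_pos (capU_pos t).le).ne'
  refine (((hasDerivAt_capP _).comp t (hasDerivAt_capU t)).log hp).congr_deriv ?_
  simp only [capp, Function.comp_apply]
  field_simp

theorem hasDerivAt_capB0 (t : ℝ) : HasDerivAt capB0 (capq (capU t)) t := by
  have hq := (capQ_pos (capU_pos t).le (capU_le_one t)).ne'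
  have hb : (0 : ℝ) < 1 + Real.exp (2 * t) := by positivity
  have h1 := (((hasDerivAt_id t).const_mul (2 : ℝ)).exp.const_add 1).log (by simpa using hb.ne')
  have h := (((hasDerivAt_capA0 t).add
    (((hasDerivAt_capQ _).comp t (hasDerivAt_capU t)).log hq)).add (h1.div_const 2)).sub
      (hasDerivAt_id t)
  refine h.congr_deriv ?_
  simp only [capq, capqQ, Function.comp_apply, id_eq]
  rw [show capU t ^ 4 = 1 - (1 - capU t ^ 4) by ring, one_sub_capU_pow]
  field_simp
  ring

theorem hasDerivAt_capp (t : ℝ) : HasDerivAt (fun s => capp (capU s)) (capdp (capU t)) t := by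
  have hp := (capP_pos (capU_pos t).le).ne'
  have hu := hasDerivAt_capU t
  have hP1 : HasDerivAt capP1 (737 / 1000) (capU t) :=
    ((((hasDerivAt_id (capU t)).const_mul (737 / 1000 : ℝ)).const_add (1 / 25 : ℝ)).congr_of_eventuallyEq
      (Eventually.of_forall fun v => by simp [capP1])).congr_deriv (mul_one _)
  have h := (((hu.mul ((hu.pow 4).const_sub 1)).neg.mul (hP1.comp t hu)).div
    (((hasDerivAt_capP _).comp t hu).const_mul 2) (mul_ne_zero two_ne_zero hp))
  refine (h.congr_of_eventuallyEq (Eventually.of_forall fun v => ?_)).congr_deriv ?_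
  · simp [capp]
  · simp only [capdp, Function.comp_apply, Pi.mul_apply, Pi.neg_apply, Pi.pow_apply]
    field_simp
    push_cast
    ring

theorem hasDerivAt_capq (t : ℝ) : HasDerivAt (fun s => capq (capU s)) (capdq (capU t)) t := by
  have hq := (capQ_pos (capU_pos t).le (capU_le_one t)).ne'
  have hu := hasDerivAt_capU t
  have h := ((hasDerivAt_capp t).add (((hu.mul ((hu.pow 4).const_sub 1)).mul
    (hu.const_mul (2 / 3 : ℝ))).div (((hasDerivAt_capQ _).comp t hu).const_mul 2)
      (mul_ne_zero two_ne_zero hq))).sub (hu.pow 4)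
  refine (h.congr_of_eventuallyEq (Eventually.of_forall fun v => ?_)).congr_deriv ?_
  · simp [capq, capqQ]
  · simp only [capdq, Function.comp_apply, Pi.mul_apply, Pi.pow_apply]
    field_simp
    push_cast
    ring

/-- Weights with prescribed logarithms `-2a`, `-2b`, and `w₂ = 0`. -/
def diagW (a b : ℝ) : Fin 3 → ℝ := ![Real.exp (-2 * a), Real.exp (-2 * b), 0]

/-- The interpolation parameter. -/
def capChi (T t : ℝ) : ℝ := capStep ((t - T) / T)

/-- `log (ψ/r)`, moved to `log dFun / 4` on `[T, 2T]`. -/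
def capA (κ T t : ℝ) : ℝ :=
  capA0 t + capChi T t * (Real.log (dFun κ t) / 4 - capA0 t)

/-- `log (φ/r)`, moved to `log dFun / 4` on `[T, 2T]`. -/
def capB (κ T t : ℝ) : ℝ :=
  capB0 t + capChi T t * (Real.log (dFun κ t) / 4 - capB0 t)

/-- The weights of the cap. -/
def capWt (κ T t : ℝ) : Fin 3 → ℝ := diagW (capA κ T t) (capB κ T t)

theorem capWt_two (κ T t : ℝ) : capWt κ T t 2 = 0 := rfl

theorem capChi_of_le {T t : ℝ} (hT : 0 < T) (h : t ≤ T) : capChi T t = 0 :=
  capStep_of_le (div_nonpos_of_nonpos_of_nonneg (by linarith) hT.le)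

theorem capChi_of_ge {T t : ℝ} (hT : 0 < T) (h : 7 / 4 * T ≤ t) : capChi T t = 1 :=
  capStep_of_ge (by rw [le_div_iff₀ hT]; linarith)

theorem capWt_of_ge {κ T t : ℝ} (hT : 0 < T) (h : 7 / 4 * T ≤ t) :
    capWt κ T t = wNorm (dFun κ t) (rawExc 0) := by
  have hd : 0 < dFun κ t := mul_pos (by norm_num [dMin]) (Real.exp_pos _)
  have e : Real.exp (-2 * (Real.log (dFun κ t) / 4)) = Real.sqrt (1 / dFun κ t) := by
    rw [Real.sqrt_eq_rpow, Real.rpow_def_of_pos (by positivity), one_div, Real.log_inv]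
    congr 1; ring
  funext i
  fin_cases i <;>
    simp [capWt, capA, capB, capChi_of_ge hT h, diagW, wNorm, rawExc, wdet]
  all_goals rw [← neg_mul, e, one_div, Real.sqrt_inv]

theorem contDiff_capA0 {n : ℕ∞} : ContDiff ℝ n capA0 := by
  have hu : ContDiff ℝ n capU := ContDiff.rpow_const_of_ne
    (contDiff_const.add (Real.contDiff_exp.comp (contDiff_const.mul contDiff_id)))
    fun t => by positivity
  unfold capA0 capP
  exact ((contDiff_const.add (contDiff_const.mul hu)).add (contDiff_const.mul (hu.pow 2))).log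
    fun t => (capP_pos (capU_pos t).le).ne'

theorem contDiff_capB0 {n : ℕ∞} : ContDiff ℝ n capB0 := by
  have he : ContDiff ℝ n fun t : ℝ => 1 + Real.exp (2 * t) :=
    contDiff_const.add (Real.contDiff_exp.comp (contDiff_const.mul contDiff_id))
  have hu : ContDiff ℝ n capU := ContDiff.rpow_const_of_ne he fun t => by positivity
  unfold capB0
  refine ((ContDiff.add ?_ ?_).add ((he.log fun t => by positivity).div_const 2)).sub contDiff_id
  · exact contDiff_capA0
  · unfold capQ
    exact (contDiff_const.sub (contDiff_const.mul (hu.pow 2))).log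
      fun t => (capQ_pos (capU_pos t).le (capU_le_one t)).ne'

theorem contDiff_move {n : ℕ∞} {f : ℝ → ℝ} (hf : ContDiff ℝ n f) {κ T : ℝ} (hT : 0 < T) :
    ContDiff ℝ n fun t => f t + capChi T t * (Real.log (dFun κ t) / 4 - f t) := by
  refine contDiff_iff_contDiffAt.2 fun t => ?_
  rcases lt_or_ge t T with h | h
  · refine hf.contDiffAt.congr_of_eventuallyEq ?_
    filter_upwards [gt_mem_nhds h] with s hs
    simp [capChi_of_le hT hs.le]
  · have ht : t ≠ 0 := (hT.trans_le h).ne'
    have hl : ContDiffAt ℝ n (fun t => Real.log (dFun κ t)) t := by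
      unfold dFun
      exact (contDiffAt_const.mul ((contDiffAt_const.mul
        (Real.contDiffAt_rpow_const_of_ne ht)).exp)).log
          (mul_pos (by norm_num [dMin]) (Real.exp_pos _)).ne'
    exact hf.contDiffAt.add ((contDiff_capStep.contDiffAt.comp t
      ((contDiffAt_id.sub contDiffAt_const).div_const T)).mul ((hl.div_const 4).sub hf.contDiffAt))

theorem contDiff_capWt {n : ℕ∞} {κ T : ℝ} (hT : 0 < T) : ContDiff ℝ n (capWt κ T) := by
  have ha : ContDiff ℝ n (capA κ T) := contDiff_move contDiff_capA0 hT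
  have hb : ContDiff ℝ n (capB κ T) := contDiff_move contDiff_capB0 hT
  refine contDiff_pi.2 fun i => ?_
  fin_cases i
  · exact (contDiff_const.mul ha).exp
  · exact (contDiff_const.mul hb).exp
  · exact contDiff_const

/-- Derivatives of the logarithm of the scale. -/
theorem hasDerivAt_quarterLog (κ : ℝ) {t : ℝ} (ht : 0 < t) :
    HasDerivAt (fun s => Real.log (dFun κ s) / 4) (-(κ / 32) * t ^ (-(9 / 8) : ℝ)) t ∧
    HasDerivAt (fun s => -(κ / 32) * s ^ (-(9 / 8) : ℝ)) (9 * κ / 256 * t ^ (-(17 / 8) : ℝ)) t := by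
  constructor
  · have h := (hasDerivAt_log_dFun κ ht).const_mul (1 / 6 : ℝ)
    refine (h.congr_of_eventuallyEq (Eventually.of_forall fun s => by simp; ring)).congr_deriv ?_
    rw [vFun]; ring
  · have h := (Real.hasDerivAt_rpow_const (p := (-(9 / 8) : ℝ)) (Or.inl ht.ne')).const_mul (-(κ / 32))
    refine h.congr_deriv ?_
    rw [show (-(9 / 8) - 1 : ℝ) = -(17 / 8) by norm_num]; ring

/-- Moving `f` to `g` by the step: first and second derivative. -/
theorem hasDerivAt_move {f g f₁ g₁ : ℝ → ℝ} {f₂ g₂ T t : ℝ}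
    (hf : ∀ᶠ s in 𝓝 t, HasDerivAt f (f₁ s) s) (hg : ∀ᶠ s in 𝓝 t, HasDerivAt g (g₁ s) s)
    (hf' : HasDerivAt f₁ f₂ t) (hg' : HasDerivAt g₁ g₂ t) :
    HasDerivAt (fun s => f s + capChi T s * (g s - f s))
      (f₁ t + (deriv capStep ((t - T) / T) / T * (g t - f t) + capChi T t * (g₁ t - f₁ t))) t ∧
    HasDerivAt (deriv fun s => f s + capChi T s * (g s - f s))
      (f₂ + (deriv (deriv capStep) ((t - T) / T) / T ^ 2 * (g t - f t)
        + deriv capStep ((t - T) / T) / T * (g₁ t - f₁ t)
        + (deriv capStep ((t - T) / T) / T * (g₁ t - f₁ t) + capChi T t * (g₂ - f₂)))) t := by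
  have hs : ∀ s, HasDerivAt (fun r => (r - T) / T) (1 / T) s := fun s =>
    ((hasDerivAt_id s).sub_const T).div_const T
  have hχ : ∀ s, HasDerivAt (capChi T) (deriv capStep ((s - T) / T) / T) s := fun s =>
    ((((contDiff_capStep (n := 2)).differentiable (by norm_num) _).hasDerivAt).comp s
      (hs s)).congr_deriv (by ring)
  have hχ' : HasDerivAt (fun s => deriv capStep ((s - T) / T) / T)
      (deriv (deriv capStep) ((t - T) / T) / T ^ 2) t := by
    have h2 : ContDiff ℝ 1 (deriv capStep) :=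
      ((contDiff_succ_iff_deriv (n := 1)).1 (by exact_mod_cast contDiff_capStep (n := 2))).2.2
    exact (((h2.differentiable (by norm_num) _).hasDerivAt.comp t (hs t)).div_const T).congr_deriv
      (by ring)
  have h1 : ∀ᶠ s in 𝓝 t, HasDerivAt (fun r => f r + capChi T r * (g r - f r))
      (f₁ s + (deriv capStep ((s - T) / T) / T * (g s - f s) + capChi T s * (g₁ s - f₁ s))) s := by
    filter_upwards [hf, hg] with s h1 h2 using h1.add ((hχ s).mul (h2.sub h1))
  refine ⟨h1.self_of_nhds, HasDerivAt.congr_of_eventuallyEq ?_ (h1.mono fun s h => h.deriv)⟩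
  exact hf'.add ((hχ'.mul (hg.self_of_nhds.sub hf.self_of_nhds)).add
    ((hχ t).mul (hg'.sub hf')))

/-- Derivatives of exponential weights and their radial curvature. -/
theorem diagW_calc {a b : ℝ → ℝ} {t a₁ b₁ a₂ b₂ : ℝ} (ha : HasDerivAt a a₁ t)
    (hb : HasDerivAt b b₁ t) (ha' : HasDerivAt (deriv a) a₂ t) (hb' : HasDerivAt (deriv b) b₂ t)
    (hd : ∀ᶠ s in 𝓝 t, DifferentiableAt ℝ a s ∧ DifferentiableAt ℝ b s) :
    deriv (fun s => diagW (a s) (b s)) t
        = ![-2 * a₁ * Real.exp (-2 * a t), -2 * b₁ * Real.exp (-2 * b t), 0] ∧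
    deriv (deriv fun s => diagW (a s) (b s)) t
        = ![(4 * a₁ ^ 2 - 2 * a₂) * Real.exp (-2 * a t),
            (4 * b₁ ^ 2 - 2 * b₂) * Real.exp (-2 * b t), 0] ∧
    radOf (fun s => diagW (a s) (b s)) t
        = -3 * ((a₂ + b₂) + (a₁ + b₁) + (a₁ ^ 2 + b₁ ^ 2)) := by
  have hW : ∀ᶠ s in 𝓝 t, HasDerivAt (fun r => diagW (a r) (b r))
      ![-2 * deriv a s * Real.exp (-2 * a s), -2 * deriv b s * Real.exp (-2 * b s), 0] s := by
    filter_upwards [hd] with s hs
    refine hasDerivAt_pi.2 fun i => ?_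
    fin_cases i
    · exact ((hs.1.hasDerivAt.const_mul (-2 : ℝ)).exp).congr_deriv (by simp; ring)
    · exact ((hs.2.hasDerivAt.const_mul (-2 : ℝ)).exp).congr_deriv (by simp; ring)
    · exact hasDerivAt_const s (0 : ℝ)
  have e1 : deriv (fun s => diagW (a s) (b s)) t
      = ![-2 * a₁ * Real.exp (-2 * a t), -2 * b₁ * Real.exp (-2 * b t), 0] := by
    rw [hW.self_of_nhds.deriv, ha.deriv, hb.deriv]
  refine ⟨e1, ?_, ?_⟩
  · refine HasDerivAt.deriv (HasDerivAt.congr_of_eventuallyEq ?_ (hW.mono fun s h => h.deriv))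
    refine hasDerivAt_pi.2 fun i => ?_
    fin_cases i
    · refine ((ha'.const_mul (-2 : ℝ)).mul ((ha.const_mul (-2 : ℝ)).exp)).congr_deriv ?_
      simp [ha.deriv]; ring
    · refine ((hb'.const_mul (-2 : ℝ)).mul ((hb.const_mul (-2 : ℝ)).exp)).congr_deriv ?_
      simp [hb.deriv]; ring
    · exact hasDerivAt_const t (0 : ℝ)
  · have hdet : ∀ s, wdet (diagW (a s) (b s)) = Real.exp (-2 * a s + -2 * b s) := fun s => by
      rw [Real.exp_add]; simp [wdet, diagW]
    have hv : vOf (fun s => diagW (a s) (b s)) =ᶠ[𝓝 t] fun s => 3 * (deriv a s + deriv b s) := by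
      filter_upwards [hd] with s hs
      have h := (hs.1.hasDerivAt.const_mul (-2 : ℝ)).add (hs.2.hasDerivAt.const_mul (-2 : ℝ))
      rw [vOf, (h.congr_of_eventuallyEq (Eventually.of_forall fun r => by
        simp [hdet r])).deriv]
      ring
    have hvd : deriv (vOf fun s => diagW (a s) (b s)) t = 3 * (a₂ + b₂) := by
      rw [hv.deriv_eq]
      exact ((ha'.add hb').const_mul 3).deriv
    have hv0 : vOf (fun s => diagW (a s) (b s)) t = 3 * (a₁ + b₁) := by
      rw [hv.self_of_nhds]; simp [ha.deriv, hb.deriv]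
    rw [radOf, hvd, hv0, e1, hdet t, Real.exp_add]
    simp only [wdet, Matrix.cons_val_zero, Matrix.cons_val_one, Matrix.cons_val_two, Matrix.tail_cons,
      Matrix.head_cons]
    field_simp
    ring

/-- For large `t` the unmodified profile has room in the radial inequality. -/
theorem cap_tail : ∀ᶠ t in atTop,
    capdp (capU t) + capdq (capU t) + (capp (capU t) + capq (capU t))
      + 3 * (capp (capU t) ^ 2 + capq (capU t) ^ 2) ≤ 0 := by
  set pu := fun u : ℝ => -(1 - u ^ 4) * capP1 u / (2 * capP u) with hpu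
  set qu := fun u : ℝ => pu u + (1 - u ^ 4) * (2 / 3 * u) / (2 * capQ u) - u ^ 3 with hqu
  set h := fun u : ℝ => -((1 - u ^ 4) * capRPoly u / (4 * capP u ^ 2 * capQ u ^ 2)) / 3
    + 2 * u * (pu u ^ 2 + qu u ^ 2) with hh
  have hc : ContinuousAt h 0 := by
    have hP : capP 0 ≠ 0 := (capP_pos le_rfl).ne'
    have hQ : capQ 0 ≠ 0 := (capQ_pos le_rfl zero_le_one).ne'
    have cP : ContinuousAt capP 0 := (hasDerivAt_capP 0).continuousAt
    have cQ : ContinuousAt capQ 0 := (hasDerivAt_capQ 0).continuousAt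
    have cP1 : ContinuousAt capP1 0 := by unfold capP1; fun_prop
    have cR : ContinuousAt capRPoly 0 := by unfold capRPoly; fun_prop
    have c4 : ContinuousAt (fun u : ℝ => 1 - u ^ 4) 0 := by fun_prop
    have cu : ContinuousAt (fun u : ℝ => u) 0 := continuousAt_id
    have cp : ContinuousAt pu 0 :=
      (c4.neg.mul cP1).div (continuousAt_const.mul cP) (mul_ne_zero two_ne_zero hP)
    have cq : ContinuousAt qu 0 :=
      (cp.add ((c4.mul (continuousAt_const.mul cu)).div (continuousAt_const.mul cQ)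
        (mul_ne_zero two_ne_zero hQ))).sub (cu.pow 3)
    exact ((((c4.mul cR).div ((continuousAt_const.mul (cP.pow 2)).mul (cQ.pow 2))
      (mul_ne_zero (mul_ne_zero (by norm_num) (pow_ne_zero _ hP)) (pow_ne_zero _ hQ))).neg).div_const
        3).add ((continuousAt_const.mul cu).mul ((cp.pow 2).add (cq.pow 2)))
  have h0 : h 0 < 0 := by
    norm_num [hh, capRPoly, capP, capQ]
  filter_upwards [(hc.tendsto.comp tendsto_capU).eventually (gt_mem_nhds h0)] with t ht
  have h1 := capR_eq (capU_pos t).le (capU_le_one t)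
  set u := capU t with hu
  have e1 : capp u = u * pu u := by simp only [capp, hpu]; ring
  have e2 : capq u = u * qu u := by simp only [capq, capqQ, hqu, e1]; ring
  have key : capdp u + capdq u + (capp u + capq u) + 3 * (capp u ^ 2 + capq u ^ 2) = u * h u := by
    rw [capR] at h1
    simp only [hh]
    rw [show capdp u + capdq u + (capp u + capq u) + 3 * (capp u ^ 2 + capq u ^ 2)
      = -(-3 * (capdp u + capp u ^ 2 + capp u + capdq u + capq u ^ 2 + capq u)) / 3
        + 2 * (capp u ^ 2 + capq u ^ 2) by ring, h1, e1, e2]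
    ring
  rw [key]
  exact mul_nonpos_of_nonneg_of_nonpos (capU_pos t).le (le_of_lt ht)

theorem tendsto_capA0 : Tendsto capA0 atTop (𝓝 (Real.log (1183 / 2000))) := by
  have h : capP 0 = 1183 / 2000 := by simp [capP]
  rw [← h]
  exact ((Real.continuousAt_log (capP_pos le_rfl).ne').tendsto.comp
    ((hasDerivAt_capP 0).continuousAt.tendsto.comp tendsto_capU))

theorem tendsto_capB0 : Tendsto capB0 atTop (𝓝 (Real.log (1183 / 2000))) := by
  have hQ : capQ 0 = 1 := by simp [capQ]
  have h1 : Tendsto (fun t => Real.log (capQ (capU t))) atTop (𝓝 (Real.log (capQ 0))) :=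
    (Real.continuousAt_log (by rw [hQ]; exact one_ne_zero)).tendsto.comp
      ((hasDerivAt_capQ 0).continuousAt.tendsto.comp tendsto_capU)
  have h2 : Tendsto (fun t => Real.log (1 - capU t ^ 4)) atTop (𝓝 (Real.log (1 - (0 : ℝ) ^ 4))) :=
    (Real.continuousAt_log (by norm_num)).tendsto.comp ((tendsto_capU.pow 4).const_sub 1)
  have h := (tendsto_capA0.add h1).sub (h2.div_const 2)
  simp only [hQ, Real.log_one, ne_eq, OfNat.ofNat_ne_zero, not_false_eq_true, zero_pow, sub_zero,
    add_zero, zero_div] at h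
  exact h.congr fun t => (capB0_eq t).symm

theorem tendsto_cap_slopes :
    Tendsto (fun t => capp (capU t)) atTop (𝓝 0) ∧ Tendsto (fun t => capq (capU t)) atTop (𝓝 0) ∧
    Tendsto (fun t => capdp (capU t)) atTop (𝓝 0) ∧
    Tendsto (fun t => capdq (capU t)) atTop (𝓝 0) := by
  have hP : capP 0 ≠ 0 := (capP_pos le_rfl).ne'
  have hQ : capQ 0 ≠ 0 := (capQ_pos le_rfl zero_le_one).ne'
  have cP : ContinuousAt capP 0 := (hasDerivAt_capP 0).continuousAt
  have cQ : ContinuousAt capQ 0 := (hasDerivAt_capQ 0).continuousAt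
  have cP1 : ContinuousAt capP1 0 := by unfold capP1; fun_prop
  have c4 : ContinuousAt (fun u : ℝ => 1 - u ^ 4) 0 := by fun_prop
  have c5 : ContinuousAt (fun u : ℝ => 1 - 5 * u ^ 4) 0 := by fun_prop
  have cu : ContinuousAt (fun u : ℝ => u) 0 := continuousAt_id
  have us := cu.mul c4
  have hp : ContinuousAt capp 0 :=
    (us.neg.mul cP1).div (continuousAt_const.mul cP) (mul_ne_zero two_ne_zero hP)
  have hqQ : ContinuousAt capqQ 0 :=
    (us.mul (continuousAt_const.mul cu)).div (continuousAt_const.mul cQ) (mul_ne_zero two_ne_zero hQ)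
  have hq : ContinuousAt capq 0 := (hp.add hqQ).sub (cu.pow 4)
  have hdp : ContinuousAt capdp 0 :=
    (us.mul (((c5.mul cP1).mul cP).add (us.mul ((continuousAt_const.mul cP).sub (cP1.pow 2))))).div
      (continuousAt_const.mul (cP.pow 2)) (mul_ne_zero (by norm_num) (pow_ne_zero _ hP))
  have hdq : ContinuousAt capdq 0 :=
    (hdp.add ((us.mul (((c5.mul (continuousAt_const.mul cu)).mul cQ).add
      (us.mul ((continuousAt_const.mul cQ).sub ((continuousAt_const.mul cu).pow 2))))).div
        (continuousAt_const.mul (cQ.pow 2)) (mul_ne_zero (by norm_num) (pow_ne_zero _ hQ)))).add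
      ((continuousAt_const.mul (cu.pow 4)).mul c4)
  refine ⟨?_, ?_, ?_, ?_⟩
  · simpa [Function.comp_def, capp] using hp.tendsto.comp tendsto_capU
  · simpa [Function.comp_def, capq, capqQ, capp] using hq.tendsto.comp tendsto_capU
  · simpa [Function.comp_def, capdp] using hdp.tendsto.comp tendsto_capU
  · simpa [Function.comp_def, capdq, capdp] using hdq.tendsto.comp tendsto_capU

end

end Vale.Agent.P225
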