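import Vale.Agent.P225.Geom.ModelRicci
import Vale.Agent.P225.Weights

/-!
P225: the certificate `Ric_h > 5` along the path of weights.
-/

namespace Vale.Agent.P225

open scoped BigOperators

noncomputable section

/-- The lower triangular square root of `[[w₀+w₂, w₂], [w₂, w₁+w₂]]`. -/
def rootM (w : Fin 3 → ℝ) : Arr 2 :=
  ![![Real.sqrt (w 0 + w 2), 0],
    ![w 2 / Real.sqrt (w 0 + w 2), Real.sqrt (wdet w / (w 0 + w 2))]]

/-- Its inverse. -/
def rootN (w : Fin 3 → ℝ) : Arr 2 :=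
  ![![(Real.sqrt (w 0 + w 2))⁻¹, 0],
    ![-(w 2) / ((w 0 + w 2) * Real.sqrt (wdet w / (w 0 + w 2))),
      (Real.sqrt (wdet w / (w 0 + w 2)))⁻¹]]

/-- The coordinate Ricci form of the metric with dual Gram matrix `[[p, q], [q, r]]`:
`4 I - 4 (Q ∘ P) + 2 Q (P ∘ P) Q`. -/
def ricB (p q r u v : ℝ) : ℝ :=
  4 * (u ^ 2 + v ^ 2)
    - 4 * (p * r * u ^ 2 - 2 * q ^ 2 * u * v + p * r * v ^ 2) / (p * r - q ^ 2)
    + 2 * (p ^ 2 * (r * u - q * v) ^ 2 + 2 * q ^ 2 * (r * u - q * v) * (p * v - q * u)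
        + r ^ 2 * (p * v - q * u) ^ 2) / (p * r - q ^ 2) ^ 2

/-- The metric with that dual Gram matrix. -/
def metB (p q r u v : ℝ) : ℝ := (r * u ^ 2 - 2 * q * u * v + p * v ^ 2) / (p * r - q ^ 2)

/-- The Ricci form in the triangular frame is the coordinate form. -/
theorem ricM_tri (a b c : ℝ) (ha : a ≠ 0) (hc : c ≠ 0) (y : Fin 2 → ℝ) :
    ∑ α, ∑ β, ricM (dM ![![a, 0], ![b, c]] ![![a⁻¹, 0], ![-b / (a * c), c⁻¹]]) α β * y α * y β
      = ricB (a ^ 2) (a * b) (b ^ 2 + c ^ 2) (a * y 0) (b * y 0 + c * y 1) := by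
  have hD : a ^ 2 * (b ^ 2 + c ^ 2) - (a * b) ^ 2 = (a * c) ^ 2 := by ring
  simp only [ricM, dM, ricB, hD, Fin.sum_univ_two, Matrix.cons_val_zero, Matrix.cons_val_one]
  field_simp
  ring

theorem metB_tri (a b c : ℝ) (ha : a ≠ 0) (hc : c ≠ 0) (y : Fin 2 → ℝ) :
    metB (a ^ 2) (a * b) (b ^ 2 + c ^ 2) (a * y 0) (b * y 0 + c * y 1) = y 0 ^ 2 + y 1 ^ 2 := by
  have hD : a ^ 2 * (b ^ 2 + c ^ 2) - (a * b) ^ 2 = (a * c) ^ 2 := by ring
  simp only [metB, hD]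
  field_simp
  ring

theorem chol_ricM {w : Fin 3 → ℝ} (h0 : 0 < w 0 + w 2) (hd : 0 < wdet w) {k : ℝ}
    (hk : ∀ u v, k * metB (w 0 + w 2) (w 2) (w 1 + w 2) u v
      ≤ ricB (w 0 + w 2) (w 2) (w 1 + w 2) u v) (y : Fin 2 → ℝ) :
    k * (y 0 ^ 2 + y 1 ^ 2)
      ≤ ∑ α, ∑ β, ricM (dM (rootM w) (rootN w)) α β * y α * y β := by
  set a := Real.sqrt (w 0 + w 2) with ha
  set c := Real.sqrt (wdet w / (w 0 + w 2)) with hc
  have ha0 : a ≠ 0 := (Real.sqrt_pos.2 h0).ne'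
  have hc0 : c ≠ 0 := (Real.sqrt_pos.2 (div_pos hd h0)).ne'
  have hn : rootN w = ![![a⁻¹, 0], ![-(w 2 / a) / (a * c), c⁻¹]] := by
    have : a * a = w 0 + w 2 := Real.mul_self_sqrt h0.le
    rw [rootN, ← ha, ← hc, show -(w 2 / a) / (a * c) = -(w 2) / ((w 0 + w 2) * c) by
      rw [← this]; field_simp]
  have e1 : a ^ 2 = w 0 + w 2 := Real.sq_sqrt h0.le
  have e2 : a * (w 2 / a) = w 2 := by field_simp
  have e3 : (w 2 / a) ^ 2 + c ^ 2 = w 1 + w 2 := by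
    rw [div_pow, e1, Real.sq_sqrt (div_pos hd h0).le, wdet]
    field_simp
    ring
  rw [show rootM w = ![![a, 0], ![w 2 / a, c]] from rfl, hn, ricM_tri a _ c ha0 hc0,
    ← metB_tri a (w 2 / a) c ha0 hc0, e1, e2, e3]
  exact hk _ _

theorem ricB_exc (n : Fin 3) (x : ℝ) (hx : -(1 / 2) < x) (s : ℝ) (hs : 0 < s) (u v : ℝ) :
    ∃ p q : ℝ,
      ricB (s * (rotW n (rawExc x) 0 + rotW n (rawExc x) 2)) (s * rotW n (rawExc x) 2)
          (s * (rotW n (rawExc x) 1 + rotW n (rawExc x) 2)) u v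
        = p ^ 2 * (4 * (1 + 2 * x + 2 * x ^ 2) / (1 + 2 * x) ^ 2)
          + q ^ 2 * (4 * (1 + 4 * x) / (1 + 2 * x)) ∧
      metB (s * (rotW n (rawExc x) 0 + rotW n (rawExc x) 2)) (s * rotW n (rawExc x) 2)
          (s * (rotW n (rawExc x) 1 + rotW n (rawExc x) 2)) u v
        = (p ^ 2 * (2 / (1 + 2 * x)) + q ^ 2 * 2) / s := by
  have hD : (1 + 2 * x) ≠ 0 := by linarith
  have hD' : (1 + x * 2) ≠ 0 := by linarith
  have h1 : (-1 : Fin 3) = 2 := rfl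
  have h2 : (-2 : Fin 3) = 1 := rfl
  fin_cases n
  · refine ⟨(u + v) / 2, (u - v) / 2, ?_, ?_⟩
    · simp [rotW, rawExc, ricB]
      rw [show s * (1 + x) * (s * (1 + x)) - (s * x) ^ 2 = s ^ 2 * (1 + 2 * x) by ring]
      field_simp
      ring
    · simp [rotW, rawExc, metB]
      rw [show s * (1 + x) * (s * (1 + x)) - (s * x) ^ 2 = s ^ 2 * (1 + 2 * x) by ring]
      field_simp
      ring
  · refine ⟨-u + v / 2, v / 2, ?_, ?_⟩
    · simp [rotW, rawExc, ricB, h1, h2]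
      rw [show s * (x + 1) * (s * (1 + 1)) - s ^ 2 = s ^ 2 * (1 + 2 * x) by ring]
      field_simp
      ring
    · simp [rotW, rawExc, metB, h1, h2]
      rw [show s * (x + 1) * (s * (1 + 1)) - s ^ 2 = s ^ 2 * (1 + 2 * x) by ring]
      field_simp
      ring
  · refine ⟨-v + u / 2, u / 2, ?_, ?_⟩
    · simp [rotW, rawExc, ricB, h1, h2]
      rw [show s * (1 + 1) * (s * (x + 1)) - s ^ 2 = s ^ 2 * (1 + 2 * x) by ring]
      field_simp
      ring
    · simp [rotW, rawExc, metB, h1, h2]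
      rw [show s * (1 + 1) * (s * (x + 1)) - s ^ 2 = s ^ 2 * (1 + 2 * x) by ring]
      field_simp
      ring

/-- The two polynomial inequalities on `[-1/20, 1]`, with target `5.002`. -/
theorem exc_poly {x : ℝ} (h1 : -(1 / 20) ≤ x) (h2 : x ≤ 1) :
    (5002 / 1000 : ℝ) ^ 2 * dMax * (1 + 2 * x) ^ 3 ≤ 4 * (1 + 2 * x + 2 * x ^ 2) ^ 2 ∧
    (5002 / 1000 : ℝ) ^ 2 * dMax * (1 + 2 * x) ^ 3 ≤ 4 * (1 + 4 * x) ^ 2 := by
  constructor
  · norm_num [dMax]
    nlinarith [sq_nonneg (x - 364 / 1000), sq_nonneg x,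
      mul_nonneg (sq_nonneg (x - 364 / 1000))
        (by nlinarith [sq_nonneg (x + 595 / 1000)] : (0 : ℝ) ≤ x ^ 2 + 1190 / 1000 * x + 428 / 1000)]
  · norm_num [dMax]
    nlinarith [sq_nonneg (x - 1 / 2), mul_nonneg (by linarith : 0 ≤ x + 1 / 20)
      (by linarith : 0 ≤ 1 - x), mul_nonneg (mul_nonneg (by linarith : 0 ≤ x + 1 / 20)
        (by linarith : 0 ≤ 1 - x)) (sq_nonneg (x - 1 / 2))]

/-- The weights of the path: normalised rotated excursions. -/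
def pathSet : Set (Fin 3 → ℝ) :=
  {w | ∃ n : Fin 3, ∃ d ∈ Set.Icc dMin dMax, ∃ x ∈ Set.Icc (-(1 / 20) : ℝ) 1,
    w = wNorm d (rotW n (rawExc x))}

theorem isCompact_pathSet : IsCompact pathSet := by
  have h : pathSet = ⋃ n : Fin 3, (fun p : ℝ × ℝ => wNorm p.1 (rotW n (rawExc p.2))) ''
      (Set.Icc dMin dMax ×ˢ Set.Icc (-(1 / 20) : ℝ) 1) := by
    ext w
    simp only [pathSet, Set.mem_setOf_eq, Set.mem_iUnion, Set.mem_image, Prod.exists, Set.mem_prod]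
    constructor
    · rintro ⟨n, d, hd, x, hx, rfl⟩; exact ⟨n, d, x, ⟨hd, hx⟩, rfl⟩
    · rintro ⟨n, d, x, ⟨hd, hx⟩, rfl⟩; exact ⟨n, d, hd, x, hx, rfl⟩
  rw [h]
  refine isCompact_iUnion fun n => (isCompact_Icc.prod isCompact_Icc).image_of_continuousOn ?_
  intro p hp
  have hne : p.1 * wdet (rotW n (rawExc p.2)) ≠ 0 := by
    have h1 : (122 / 1000 : ℝ) ≤ p.1 := hp.1.1
    have h2 := hp.2.1
    have h3 : wdet (rotW n (rawExc p.2)) = 1 + 2 * p.2 := by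
      rw [wdet_rotW]; simp [wdet, rawExc]; ring
    rw [h3]
    exact (mul_pos (by linarith) (by linarith)).ne'
  have hraw : Continuous fun p : ℝ × ℝ => rotW n (rawExc p.2) :=
    continuous_pi fun i => by
      simp only [rotW]
      generalize i - n = k
      fin_cases k <;> simp [rawExc] <;> fun_prop
  refine ContinuousAt.continuousWithinAt (continuousAt_pi.2 fun i => ?_)
  show ContinuousAt (fun p : ℝ × ℝ =>
    rotW n (rawExc p.2) i * Real.sqrt (1 / (p.1 * wdet (rotW n (rawExc p.2))))) p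
  have hw : Continuous fun p : ℝ × ℝ => wdet (rotW n (rawExc p.2)) := by
    simp only [wdet]; fun_prop
  exact ((continuous_apply i).comp hraw).continuousAt.mul
    ((continuousAt_const.div (continuous_fst.mul hw).continuousAt hne).sqrt)

theorem pathSet_pos {w : Fin 3 → ℝ} (hw : w ∈ pathSet) : 0 < w 0 + w 2 ∧ 0 < wdet w := by
  obtain ⟨n, d, hd, x, hx, rfl⟩ := hw
  have hd0 : (0 : ℝ) < d := lt_of_lt_of_le (by norm_num [dMin]) hd.1
  have hx0 : 0 < 1 + 2 * x := by linarith [hx.1]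
  have hdet : wdet (rotW n (rawExc x)) = 1 + 2 * x := by
    rw [wdet_rotW]; simp [wdet, rawExc]; ring
  have hs : 0 < Real.sqrt (1 / (d * wdet (rotW n (rawExc x)))) := by
    rw [hdet]; exact Real.sqrt_pos.2 (by positivity)
  have hraw : 0 < rotW n (rawExc x) 0 + rotW n (rawExc x) 2 := by
    have h1 : (-1 : Fin 3) = 2 := rfl
    have h2 : (-2 : Fin 3) = 1 := rfl
    have := hx.1
    fin_cases n <;> simp [rotW, rawExc, h1, h2] <;> linarith
  refine ⟨?_, ?_⟩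
  · simp only [wNorm, ← add_mul]
    exact mul_pos hraw hs
  · have : wdet (wNorm d (rotW n (rawExc x)))
        = wdet (rotW n (rawExc x)) * Real.sqrt (1 / (d * wdet (rotW n (rawExc x)))) ^ 2 := by
      simp only [wdet, wNorm]; ring
    rw [this, hdet]
    rw [hdet] at hs
    positivity

/-- On the path, `Ric_h ≥ 5.002`. -/
theorem ricM_path {w : Fin 3 → ℝ} (hw : w ∈ pathSet) (y : Fin 2 → ℝ) :
    5002 / 1000 * (y 0 ^ 2 + y 1 ^ 2)
      ≤ ∑ α, ∑ β, ricM (dM (rootM w) (rootN w)) α β * y α * y β := by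
  obtain ⟨h0, hd⟩ := pathSet_pos hw
  refine chol_ricM h0 hd (fun u v => ?_) y
  obtain ⟨n, d, hdI, x, hx, rfl⟩ := hw
  have hd0 : (0 : ℝ) < d := lt_of_lt_of_le (by norm_num [dMin]) hdI.1
  have hx0 : 0 < 1 + 2 * x := by linarith [hx.1]
  have hdet : wdet (rotW n (rawExc x)) = 1 + 2 * x := by
    rw [wdet_rotW]; simp [wdet, rawExc]; ring
  set s := Real.sqrt (1 / (d * (1 + 2 * x))) with hs
  have hs0 : 0 < s := Real.sqrt_pos.2 (by positivity)
  obtain ⟨p, q, hR, hM⟩ := ricB_exc n x (by linarith [hx.1]) s hs0 u v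
  have e : ∀ i, wNorm d (rotW n (rawExc x)) i = s * rotW n (rawExc x) i := fun i => by
    simp only [wNorm, hdet, ← hs]; ring
  rw [e, e, e, ← mul_add, ← mul_add, hR, hM]
  obtain ⟨hp, hq⟩ := exc_poly hx.1 hx.2
  have key : ∀ A : ℝ, 0 ≤ A → (5002 / 1000 : ℝ) ^ 2 * dMax * (1 + 2 * x) ^ 3 ≤ 4 * A ^ 2 →
      5002 / 1000 * (1 + 2 * x) ≤ 2 * A * s := by
    intro A hA h
    have h2 : (5002 / 1000 * (1 + 2 * x)) ^ 2 * (d * (1 + 2 * x))
        ≤ (5002 / 1000 : ℝ) ^ 2 * dMax * (1 + 2 * x) ^ 3 := by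
      rw [mul_pow]
      nlinarith [hdI.2, pow_pos hx0 3]
    refine nonneg_le_nonneg_of_sq_le_sq (by positivity) ?_
    rw [show 2 * A * s * (2 * A * s) = 4 * A ^ 2 * (s * s) by ring, hs,
      Real.mul_self_sqrt (by positivity), mul_one_div, le_div_iff₀ (by positivity), ← pow_two]
    linarith
  have k1 := key _ (by nlinarith : (0 : ℝ) ≤ 1 + 2 * x + 2 * x ^ 2) hp
  have k2 := key _ (by linarith [hx.1] : (0 : ℝ) ≤ 1 + 4 * x) hq
  calc 5002 / 1000 * ((p ^ 2 * (2 / (1 + 2 * x)) + q ^ 2 * 2) / s)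
      = (5002 / 1000 * (1 + 2 * x)) * (p ^ 2 * (2 / (1 + 2 * x) ^ 2) / s)
        + (5002 / 1000 * (1 + 2 * x)) * (q ^ 2 * (2 / (1 + 2 * x)) / s) := by field_simp
    _ ≤ (2 * (1 + 2 * x + 2 * x ^ 2) * s) * (p ^ 2 * (2 / (1 + 2 * x) ^ 2) / s)
        + (2 * (1 + 4 * x) * s) * (q ^ 2 * (2 / (1 + 2 * x)) / s) :=
      add_le_add (mul_le_mul_of_nonneg_right k1 (by positivity))
        (mul_le_mul_of_nonneg_right k2 (by positivity))
    _ = _ := by field_simp; ring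

end

end Vale.Agent.P225
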