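import Vale.Agent.P225.Geom.Transform

/-!
P225: the chart `U = (ℝ⁴ \ 0) × ℝ³ ≅ ℝ⁴ × S³` and its seven basic fields: the radial field of the
first factor and the left-invariant fields of the two three-spheres.
-/

namespace Vale.Agent.P225

open scoped BigOperators
open Set Matrix

noncomputable section

/-- The point of the punctured space. -/
def yc (x : Pt 7) : Fin 4 → ℝ := ![x 0, x 1, x 2, x 3]

/-- The squared norm of `yc`. -/
def ys (x : Pt 7) : ℝ := x 0 ^ 2 + x 1 ^ 2 + x 2 ^ 2 + x 3 ^ 2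

/-- The first factor `(log |y|, z)`. -/
def xc (x : Pt 7) : Fin 4 → ℝ := ![Real.log (ys x) / 2, x 4, x 5, x 6]

/-- The squared radius on the first factor. -/
def rsq (x : Pt 7) : ℝ := xc x ⬝ᵥ xc x

/-- The chart. -/
def chart : Set (Pt 7) := {x | 0 < ys x}

/-- The chart without the core `r = 0`. -/
def chartOff : Set (Pt 7) := {x | 0 < ys x ∧ 0 < rsq x}

/-- A vector of the first factor at `x`. -/
def liftVec (w : Fin 4 → ℝ) (x : Pt 7) : Pt 7 :=
  ![w 0 * x 0, w 0 * x 1, w 0 * x 2, w 0 * x 3, w 1, w 2, w 3]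

/-- A vector of the punctured space. -/
def spinVec (u : Fin 4 → ℝ) : Pt 7 := ![u 0, u 1, u 2, u 3, 0, 0, 0]

/-- The derivative of `xc` along `v`. -/
def dxc (x v : Pt 7) : Fin 4 → ℝ :=
  ![(x 0 * v 0 + x 1 * v 1 + x 2 * v 2 + x 3 * v 3) / ys x, v 4, v 5, v 6]

/-- Right multiplication of quaternions by `i, j, k`. -/
def qmul (σ : Fin 3) : Matrix (Fin 4) (Fin 4) ℝ :=
  ![!![0, -1, 0, 0; 1, 0, 0, 0; 0, 0, 0, 1; 0, 0, -1, 0],
    !![0, 0, -1, 0; 0, 0, 0, -1; 1, 0, 0, 0; 0, 1, 0, 0],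
    !![0, 0, 0, -1; 0, 0, 1, 0; 0, -1, 0, 0; 1, 0, 0, 0]] σ

/-- The field of the matrix `A` on the first factor. -/
def liftField (A : Matrix (Fin 4) (Fin 4) ℝ) (x : Pt 7) : Pt 7 := liftVec (A *ᵥ xc x) x

/-- The field of the matrix `A` on the punctured space. -/
def spinField (A : Matrix (Fin 4) (Fin 4) ℝ) (x : Pt 7) : Pt 7 := spinVec (A *ᵥ yc x)

/-- The seven fields: `R`, the `W`, the `Z`. -/
def baseField : Fin 7 → Pt 7 → Pt 7 :=
  ![liftField 1, liftField (qmul 0), liftField (qmul 1), liftField (qmul 2),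
    spinField (qmul 0), spinField (qmul 1), spinField (qmul 2)]

/-- The one-forms dual to the seven fields. -/
def baseForm (a : Fin 7) (x v : Pt 7) : ℝ :=
  ![xc x ⬝ᵥ dxc x v / rsq x, (qmul 0 *ᵥ xc x) ⬝ᵥ dxc x v / rsq x,
    (qmul 1 *ᵥ xc x) ⬝ᵥ dxc x v / rsq x, (qmul 2 *ᵥ xc x) ⬝ᵥ dxc x v / rsq x,
    (qmul 0 *ᵥ yc x) ⬝ᵥ yc v / ys x, (qmul 1 *ᵥ yc x) ⬝ᵥ yc v / ys x,
    (qmul 2 *ᵥ yc x) ⬝ᵥ yc v / ys x] a

/-- The brackets of the fields. -/
def baseStruct (a b f : Fin 7) : ℝ :=
  if (1 ≤ a.val ∧ a.val ≤ 3 ∧ 1 ≤ b.val ∧ b.val ≤ 3 ∧ 1 ≤ f.val ∧ f.val ≤ 3) ∨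
      (4 ≤ a.val ∧ 4 ≤ b.val ∧ 4 ≤ f.val) then
    ((a.val : ℝ) - b.val) * (b.val - f.val) * (f.val - a.val)
  else 0

variable {x : Pt 7}

theorem contDiff_ys : ContDiff ℝ 2 ys := by unfold ys; fun_prop

theorem isOpen_chart : IsOpen chart := isOpen_lt continuous_const contDiff_ys.continuous

theorem contDiffOn_xc (i : Fin 4) : ContDiffOn ℝ 2 (fun x => xc x i) chart := by
  fin_cases i
  · exact (contDiff_ys.contDiffOn.log fun x hx => (ne_of_gt hx)).div_const 2
  all_goals exact (contDiff_apply ℝ ℝ _).contDiffOn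

theorem contDiffOn_rsq : ContDiffOn ℝ 2 rsq chart := by
  show ContDiffOn ℝ 2 (fun x => ∑ i, xc x i * xc x i) chart
  exact ContDiffOn.sum fun i _ => (contDiffOn_xc i).mul (contDiffOn_xc i)

theorem isOpen_chartOff : IsOpen chartOff :=
  contDiffOn_rsq.continuousOn.isOpen_inter_preimage isOpen_chart isOpen_Ioi

theorem dirDeriv_apply (i : Fin 7) (v : Pt 7) : dirDeriv (fun y => y i) v x = v i := by
  simp only [dirDeriv]
  rw [(hasFDerivAt_apply (𝕜 := ℝ) i x).fderiv]
  rfl

theorem dirDeriv_xc (hx : x ∈ chart) (i : Fin 4) (v : Pt 7) :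
    dirDeriv (fun y => xc y i) v x = dxc x v i := by
  fin_cases i
  · have h := fun j : Fin 7 => (hasFDerivAt_apply (𝕜 := ℝ) j x).fun_mul (hasFDerivAt_apply (𝕜 := ℝ) j x)
    have hs : HasFDerivAt ys (_ : Pt 7 →L[ℝ] ℝ) x :=
      ((((h 0).add (h 1)).add (h 2)).add (h 3)).congr_of_eventuallyEq
        (Filter.Eventually.of_forall fun y => by simp only [ys, Pi.add_apply]; ring)
    have h2 := (hs.log (ne_of_gt hx)).mul_const (1 / 2 : ℝ)
    show dirDeriv (fun y => Real.log (ys y) / 2) v x = _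
    rw [dirDeriv, show (fun y => Real.log (ys y) / 2) = fun y => Real.log (ys y) * (1 / 2) from
      funext fun y => by ring, h2.fderiv]
    simp [dxc]
    field_simp
    ring
  all_goals exact dirDeriv_apply _ v

theorem dxc_liftVec (hx : x ∈ chart) (w : Fin 4 → ℝ) : dxc x (liftVec w x) = w := by
  have : ys x ≠ 0 := ne_of_gt hx
  funext i
  fin_cases i <;> simp [dxc, liftVec]
  rw [div_eq_iff this, ys]
  ring

theorem dxc_spinVec (u : Fin 4 → ℝ) :
    dxc x (spinVec u) = ![(yc x ⬝ᵥ u) / ys x, 0, 0, 0] := by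
  funext i
  fin_cases i <;> simp [dxc, spinVec, yc, dotProduct, Fin.sum_univ_four]

theorem yc_liftVec (w : Fin 4 → ℝ) : yc (liftVec w x) = w 0 • yc x := by
  funext i
  fin_cases i <;> simp [yc, liftVec]

theorem yc_spinVec (u : Fin 4 → ℝ) : yc (spinVec u) = u := by
  funext i
  fin_cases i <;> simp [yc, spinVec]

theorem qmul_skew (σ : Fin 3) (q : Fin 4 → ℝ) : q ⬝ᵥ (qmul σ *ᵥ q) = 0 := by
  fin_cases σ <;> simp [qmul, mulVec, dotProduct, Fin.sum_univ_four] <;> ring

theorem qmul_orth (σ τ : Fin 3) (q : Fin 4 → ℝ) :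
    (qmul σ *ᵥ q) ⬝ᵥ (qmul τ *ᵥ q) = if σ = τ then q ⬝ᵥ q else 0 := by
  fin_cases σ <;> fin_cases τ <;>
    simp [qmul, mulVec, dotProduct, Fin.sum_univ_four] <;> ring

theorem ys_eq (x : Pt 7) : yc x ⬝ᵥ yc x = ys x := by
  simp [yc, ys, dotProduct, Fin.sum_univ_four]; ring

theorem baseForm_baseField (hx : x ∈ chartOff) (a b : Fin 7) :
    baseForm a x (baseField b x) = if a = b then 1 else 0 := by
  have hy : ys x ≠ 0 := ne_of_gt hx.1
  have hr : rsq x ≠ 0 := ne_of_gt hx.2
  have hxc : xc x ≠ 0 := fun h => hr (by simp [rsq, h])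
  have hs : ∀ σ, (qmul σ *ᵥ yc x) ⬝ᵥ yc x = 0 := fun σ => by rw [dotProduct_comm, qmul_skew]
  have hs' : ∀ σ, (qmul σ *ᵥ xc x) ⬝ᵥ xc x = 0 := fun σ => by rw [dotProduct_comm, qmul_skew]
  have h0 : (![0, 0, 0, 0] : Fin 4 → ℝ) = 0 := by funext i; fin_cases i <;> rfl
  fin_cases a <;> fin_cases b <;>
    simp [baseForm, baseField, liftField, spinField, dxc_liftVec hx.1, dxc_spinVec, yc_liftVec,
      yc_spinVec, qmul_orth, qmul_skew, dotProduct_smul, one_mulVec, h0, hs, hs', hxc,
      dotProduct_zero, rsq, ys_eq, hy]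

theorem dirDeriv_mulVec_xc (hx : x ∈ chart) (A : Matrix (Fin 4) (Fin 4) ℝ) (i : Fin 4) (v : Pt 7) :
    dirDeriv (fun y => (A *ᵥ xc y) i) v x = (A *ᵥ dxc x v) i := by
  have hd : ∀ j, DifferentiableAt ℝ (fun y => xc y j) x := fun j =>
    ((contDiffOn_xc j).contDiffAt (isOpen_chart.mem_nhds hx)).differentiableAt (by norm_num)
  simp only [mulVec, dotProduct]
  rw [dirDeriv_sum fun j => (differentiableAt_const _).fun_mul (hd j)]
  refine Finset.sum_congr rfl fun j _ => ?_
  rw [dirDeriv_mul (differentiableAt_const _) (hd j), dirDeriv_xc hx]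
  simp [dirDeriv]

theorem dirDeriv_mulVec_yc (A : Matrix (Fin 4) (Fin 4) ℝ) (i : Fin 4) (v : Pt 7) :
    dirDeriv (fun y => (A *ᵥ yc y) i) v x = (A *ᵥ yc v) i := by
  have hd : ∀ j, DifferentiableAt ℝ (fun y => yc y j) x := fun j => by
    fin_cases j <;> exact differentiableAt_apply _ x
  simp only [mulVec, dotProduct]
  rw [dirDeriv_sum fun j => (differentiableAt_const _).fun_mul (hd j)]
  refine Finset.sum_congr rfl fun j _ => ?_
  rw [dirDeriv_mul (differentiableAt_const _) (hd j)]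
  have : dirDeriv (fun y => yc y j) v x = yc v j := by
    fin_cases j <;> exact dirDeriv_apply _ v
  simp [this]
  simp [dirDeriv]

/-- The derivative of a lifted field along `v`. -/
theorem dirDeriv_liftField (hx : x ∈ chart) (A : Matrix (Fin 4) (Fin 4) ℝ) (v : Pt 7) (k : Fin 7) :
    dirDeriv (fun y => liftField A y k) v x
      = (liftVec (A *ᵥ dxc x v) x + spinVec ((A *ᵥ xc x) 0 • yc v)) k := by
  have hd : ∀ i, DifferentiableAt ℝ (fun y => (A *ᵥ xc y) i) x := fun i => by
    show DifferentiableAt ℝ (fun y => ∑ j, A i j * xc y j) x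
    exact DifferentiableAt.fun_sum fun j _ => (differentiableAt_const _).fun_mul
      (((contDiffOn_xc j).contDiffAt (isOpen_chart.mem_nhds hx)).differentiableAt (by norm_num))
  fin_cases k
  iterate 4
    · simp [liftField, liftVec, spinVec, yc]
      rw [dirDeriv_mul (hd 0) (differentiableAt_apply _ x), dirDeriv_mulVec_xc hx, dirDeriv_apply]
  all_goals
    simp [liftField, liftVec, spinVec]
    rw [dirDeriv_mulVec_xc hx]

/-- The derivative of a spin field along `v`. -/
theorem dirDeriv_spinField (A : Matrix (Fin 4) (Fin 4) ℝ) (v : Pt 7) (k : Fin 7) :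
    dirDeriv (fun y => spinField A y k) v x = spinVec (A *ᵥ yc v) k := by
  fin_cases k
  iterate 4
    · simp [spinField, spinVec]
      rw [dirDeriv_mulVec_yc]
  all_goals simp [spinField, spinVec, dirDeriv]

theorem liftField_bracket (hx : x ∈ chart) (A B : Matrix (Fin 4) (Fin 4) ℝ) (k : Fin 7) :
    dirDeriv (fun y => liftField B y k) (liftField A x) x
      - dirDeriv (fun y => liftField A y k) (liftField B x) x = liftField (B * A - A * B) x k := by
  have e1 : ∀ A, dxc x (liftField A x) = A *ᵥ xc x := fun A => dxc_liftVec hx _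
  rw [dirDeriv_liftField hx, dirDeriv_liftField hx, e1, e1]
  simp only [liftField, yc_liftVec, sub_mulVec, ← mulVec_mulVec]
  fin_cases k <;> simp [liftVec, spinVec, yc] <;> ring

theorem spinField_bracket (A B : Matrix (Fin 4) (Fin 4) ℝ) (k : Fin 7) :
    dirDeriv (fun y => spinField B y k) (spinField A x) x
      - dirDeriv (fun y => spinField A y k) (spinField B x) x = spinField (B * A - A * B) x k := by
  rw [dirDeriv_spinField, dirDeriv_spinField]
  simp only [spinField, yc_spinVec, sub_mulVec, ← mulVec_mulVec]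
  fin_cases k <;> simp [spinVec]

theorem mixed_bracket (hx : x ∈ chart) (A B : Matrix (Fin 4) (Fin 4) ℝ)
    (hB : ∀ q, q ⬝ᵥ (B *ᵥ q) = 0) (k : Fin 7) :
    dirDeriv (fun y => spinField B y k) (liftField A x) x
      - dirDeriv (fun y => liftField A y k) (spinField B x) x = 0 := by
  have e1 : dxc x (spinField B x) = 0 := by
    rw [spinField, dxc_spinVec, hB, zero_div]
    funext i; fin_cases i <;> rfl
  rw [dirDeriv_spinField, dirDeriv_liftField hx, e1]
  simp only [liftField, yc_liftVec, spinField, yc_spinVec, mulVec_zero, mulVec_smul]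
  fin_cases k <;> simp [liftVec, spinVec]

theorem qmul_01 : qmul 0 * qmul 1 = -qmul 2 := by
  ext i j
  fin_cases i <;> fin_cases j <;> simp [qmul]

theorem qmul_10 : qmul 1 * qmul 0 = qmul 2 := by
  ext i j
  fin_cases i <;> fin_cases j <;> simp [qmul]

theorem qmul_12 : qmul 1 * qmul 2 = -qmul 0 := by
  ext i j
  fin_cases i <;> fin_cases j <;> simp [qmul]

theorem qmul_21 : qmul 2 * qmul 1 = qmul 0 := by
  ext i j
  fin_cases i <;> fin_cases j <;> simp [qmul]

theorem qmul_20 : qmul 2 * qmul 0 = -qmul 1 := by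
  ext i j
  fin_cases i <;> fin_cases j <;> simp [qmul]

theorem qmul_02 : qmul 0 * qmul 2 = qmul 1 := by
  ext i j
  fin_cases i <;> fin_cases j <;> simp [qmul]

theorem qmul_comm (σ τ : Fin 3) : qmul τ * qmul σ - qmul σ * qmul τ
    = ∑ ρ : Fin 3, (((σ.val : ℝ) - τ.val) * (τ.val - ρ.val) * (ρ.val - σ.val)) • qmul ρ := by
  fin_cases σ <;> fin_cases τ <;>
    simp [qmul_01, qmul_10, qmul_12, qmul_21, qmul_20, qmul_02, Fin.sum_univ_three] <;>
    norm_num <;> module

theorem baseField_bracket (hx : x ∈ chart) (a b k : Fin 7) :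
    dirDeriv (fun y => baseField b y k) (baseField a x) x
      - dirDeriv (fun y => baseField a y k) (baseField b x) x
      = ∑ f, baseStruct a b f * baseField f x k := by
  have mixed' : ∀ A B : Matrix (Fin 4) (Fin 4) ℝ, (∀ q, q ⬝ᵥ (B *ᵥ q) = 0) →
      dirDeriv (fun y => liftField A y k) (spinField B x) x
        - dirDeriv (fun y => spinField B y k) (liftField A x) x = 0 := fun A B hB => by
    have := mixed_bracket hx A B hB k
    linarith
  have hq : ∀ σ q, q ⬝ᵥ (qmul σ *ᵥ q) = 0 := qmul_skew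
  have hz : liftField 0 x k = 0 := by
    simp only [liftField, zero_mulVec]; fin_cases k <;> simp [liftVec]
  have lin : ∀ (r : ℝ) A, liftField (r • A) x k = r * liftField A x k := by
    intro r A
    simp only [liftField, smul_mulVec]
    fin_cases k <;> simp [liftVec] <;> ring
  have lin' : ∀ (r : ℝ) A, spinField (r • A) x k = r * spinField A x k := by
    intro r A
    simp only [spinField, smul_mulVec]
    fin_cases k <;> simp [spinVec]
  have ng : ∀ A, liftField (-A) x k = -liftField A x k := fun A => by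
    rw [← neg_one_smul ℝ A, lin, neg_one_mul]
  have ng' : ∀ A, spinField (-A) x k = -spinField A x k := fun A => by
    rw [← neg_one_smul ℝ A, lin', neg_one_mul]
  rw [Fin.sum_univ_seven]
  fin_cases a <;> fin_cases b <;>
    simp [baseField, baseStruct, liftField_bracket hx, spinField_bracket, mixed_bracket hx,
      mixed', hq, qmul_comm, Fin.sum_univ_three, hz, lin, lin', ng, ng'] <;>
    norm_num

theorem contDiffOn_baseField (a k : Fin 7) : ContDiffOn ℝ 2 (fun y => baseField a y k) chart := by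
  have hl : ∀ A, ContDiffOn ℝ 2 (fun y => liftField A y k) chart := by
    intro A
    have hm : ∀ i, ContDiffOn ℝ 2 (fun y => (A *ᵥ xc y) i) chart := fun i => by
      show ContDiffOn ℝ 2 (fun y => ∑ j, A i j * xc y j) chart
      exact ContDiffOn.sum fun j _ => contDiffOn_const.mul (contDiffOn_xc j)
    fin_cases k
    iterate 4 exact (hm 0).mul (contDiff_apply ℝ ℝ _).contDiffOn
    all_goals exact hm _
  have hs : ∀ A, ContDiffOn ℝ 2 (fun y => spinField A y k) chart := by
    intro A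
    have hm : ∀ i, ContDiffOn ℝ 2 (fun y => (A *ᵥ yc y) i) chart := fun i => by
      show ContDiffOn ℝ 2 (fun y => ∑ j, A i j * yc y j) chart
      exact ContDiffOn.sum fun j _ => contDiffOn_const.mul (by
        fin_cases j <;> exact (contDiff_apply ℝ ℝ _).contDiffOn)
    fin_cases k
    iterate 4 exact hm _
    all_goals exact contDiffOn_const
  fin_cases a <;> simp [baseField] <;> first | exact hl _ | exact hs _

end

end Vale.Agent.P225
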