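import Vale.Agent.P225.Geom.Jet
import Vale.Agent.P225.Geom.Fields

/-!
P225: metrics `dr² + r² h` on the chart. They are given by the matrix field `N` of the coframe of
`h` in the seven basic forms, divided by `r⁻¹`.
-/

namespace Vale.Agent.P225

open scoped BigOperators
open Set Matrix

noncomputable section

/-- The radius. -/
def rad (x : Pt 7) : ℝ := Real.sqrt (rsq x)

/-- The coefficient of the basic forms. -/
def baseCo (a i : Fin 7) (x : Pt 7) : ℝ := baseForm a x (Pi.single i 1)

/-- The metric with orthonormal coframe `r N θ`, `θ` the basic forms. -/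
def coneMetric (N : Pt 7 → Matrix (Fin 7) (Fin 7) ℝ) : MetricField 7 := fun x =>
  Matrix.of fun i j =>
    rsq x * ∑ a, (∑ p, N x a p * baseCo p i x) * ∑ p, N x a p * baseCo p j x

/-- The Ricci tensor of such a metric, times `r²`, as a function of the jet. -/
def coneJ (J : FrameJet 7) (b d : Fin 7) : ℝ :=
  FrameJet.ricciJ baseStruct J b d
    + 5 * (FrameJet.connJ baseStruct J b d 0 + (if b = 0 then 1 else 0) * if d = 0 then 1 else 0)
    - if b = d then (∑ a, FrameJet.connJ baseStruct J a 0 a) + 5 else 0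

theorem contDiff_coneJ (b d : Fin 7) : ContDiff ℝ 1 fun J : FrameJet 7 => coneJ J b d := by
  have h := FrameJet.contDiff_ricciJ baseStruct b d
  unfold coneJ FrameJet.connJ FrameJet.structJ FrameJet.bracketJ FrameJet.mat FrameJet.inv
    FrameJet.dmat
  split_ifs <;> fun_prop

theorem contDiffOn_baseCo (a i : Fin 7) : ContDiffOn ℝ 2 (baseCo a i) chartOff := by
  have hxc : ∀ j, ContDiffOn ℝ 2 (fun x => xc x j) chartOff := fun j =>
    (contDiffOn_xc j).mono fun x hx => hx.1
  have hr : ContDiffOn ℝ 2 rsq chartOff := contDiffOn_rsq.mono fun x hx => hx.1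
  have hys : ContDiffOn ℝ 2 ys chartOff := contDiff_ys.contDiffOn
  have hrne : ∀ x ∈ chartOff, rsq x ≠ 0 := fun x hx => ne_of_gt hx.2
  have hyne : ∀ x ∈ chartOff, ys x ≠ 0 := fun x hx => ne_of_gt hx.1
  have hd : ∀ j, ContDiffOn ℝ 2 (fun x => dxc x (Pi.single i 1) j) chartOff := fun j => by
    fin_cases j
    · exact (((((contDiff_apply ℝ ℝ 0).contDiffOn.mul contDiffOn_const).add
        ((contDiff_apply ℝ ℝ 1).contDiffOn.mul contDiffOn_const)).add
        ((contDiff_apply ℝ ℝ 2).contDiffOn.mul contDiffOn_const)).add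
        ((contDiff_apply ℝ ℝ 3).contDiffOn.mul contDiffOn_const)).div hys hyne
    all_goals exact contDiffOn_const
  have hq : ∀ A : Matrix (Fin 4) (Fin 4) ℝ, ContDiffOn ℝ 2
      (fun x => (A *ᵥ xc x) ⬝ᵥ dxc x (Pi.single i 1) / rsq x) chartOff := fun A => by
    show ContDiffOn ℝ 2
      (fun x => (∑ j, (∑ m, A j m * xc x m) * dxc x (Pi.single i 1) j) / rsq x) chartOff
    exact (ContDiffOn.sum fun j _ =>
      (ContDiffOn.sum fun m _ => contDiffOn_const.mul (hxc m)).mul (hd j)).div hr hrne
  have hy : ∀ A : Matrix (Fin 4) (Fin 4) ℝ, ContDiffOn ℝ 2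
      (fun x => (A *ᵥ yc x) ⬝ᵥ yc (Pi.single i 1) / ys x) chartOff := fun A => by
    show ContDiffOn ℝ 2
      (fun x => (∑ j, (∑ m, A j m * yc x m) * yc (Pi.single i 1) j) / ys x) chartOff
    have hyc : ∀ m, ContDiffOn ℝ 2 (fun x => yc x m) chartOff := fun m => by
      fin_cases m <;> exact (contDiff_apply ℝ ℝ _).contDiffOn
    exact (ContDiffOn.sum fun j _ => (ContDiffOn.sum fun m _ =>
      contDiffOn_const.mul (hyc m)).mul contDiffOn_const).div hys hyne
  fin_cases a
  · show ContDiffOn ℝ 2 (fun x => xc x ⬝ᵥ dxc x (Pi.single i 1) / rsq x) chartOff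
    exact (ContDiffOn.sum fun j _ => (hxc j).mul (hd j)).div hr hrne
  · exact hq (qmul 0)
  · exact hq (qmul 1)
  · exact hq (qmul 2)
  · exact hy (qmul 0)
  · exact hy (qmul 1)
  · exact hy (qmul 2)

/-- The identity frame. -/
theorem isFrame_id (s : Set (Pt 7)) (hs : IsOpen s) :
    IsFrame (fun _ => (1 : Matrix (Fin 7) (Fin 7) ℝ)) s (fun a _ => Pi.single a 1)
      (fun _ _ _ _ => 0) where
  isOpen := hs
  smooth_g _ _ := contDiffOn_const
  posDef _ _ := Matrix.PosDef.one
  smooth_e _ _ := contDiffOn_const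
  smooth_c _ _ _ := contDiffOn_const
  ortho _ _ a b := by simp [one_apply, Pi.single_apply]
  bracket _ _ a b k := by simp [dirDeriv]

theorem baseForm_eq_sum (a : Fin 7) (x v : Pt 7) : baseForm a x v = ∑ i, baseCo a i x * v i := by
  fin_cases a <;>
    simp [baseCo, baseForm, Fin.sum_univ_seven, dotProduct, Fin.sum_univ_four, dxc, yc] <;> ring

/-- The metric with coframe the basic forms. -/
def baseMetric : MetricField 7 :=
  changeMetric (fun _ => 1) (fun a _ => Pi.single a 1) fun x => Matrix.of fun a i => baseCo a i x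

theorem baseMat_mul {x : Pt 7} (hx : x ∈ chartOff) :
    (Matrix.of fun a i => baseCo a i x) * (Matrix.of fun i b => baseField b x i) = 1 := by
  ext a b
  rw [mul_apply, one_apply, ← baseForm_baseField hx a b, baseForm_eq_sum]
  rfl

/-- The basic fields are orthonormal for the basic metric. -/
theorem isFrame_base : IsFrame baseMetric chartOff baseField (fun a b f _ => baseStruct a b f) := by
  have h := (isFrame_id chartOff isOpen_chartOff).changeFrame
    (M := fun x => Matrix.of fun i b => baseField b x i)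
    (N := fun x => Matrix.of fun a i => baseCo a i x)
    (fun i j => (contDiffOn_baseField j i).mono fun x hx => hx.1)
    (fun i j => contDiffOn_baseCo i j) (fun x hx => baseMat_mul hx)
  have he : P225.changeFrame (fun a _ => Pi.single a 1)
      (fun x => Matrix.of fun i b => baseField b x i) = baseField := by
    funext a x k; simp [P225.changeFrame, Pi.single_apply]
  rw [he] at h
  refine h.congr_struct fun y hy a b f => ?_
  have hb : ∀ m, changeBracket (fun a _ => Pi.single a 1) (fun _ _ _ _ => 0)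
      (fun x => Matrix.of fun i b => baseField b x i) a b m y
      = ∑ q, baseStruct a b q * baseField q y m := fun m => by
    rw [← baseField_bracket hy.1 a b m]
    simp [changeBracket, he]
  rw [changeStruct]
  simp only [hb, of_apply]
  rw [← Finset.sum_congr rfl fun m _ => (Finset.mul_sum _ _ _).symm, Finset.sum_comm]
  calc ∑ q, ∑ m, baseCo f m y * (baseStruct a b q * baseField q y m)
      = ∑ q, baseStruct a b q * baseForm f y (baseField q y) :=
        Finset.sum_congr rfl fun q _ => by
          rw [baseForm_eq_sum, Finset.mul_sum]; exact Finset.sum_congr rfl fun m _ => by ring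
    _ = baseStruct a b f := by simp [baseForm_baseField hy]

theorem coframe_base {x : Pt 7} (hx : x ∈ chartOff) (p i : Fin 7) :
    coframe baseMetric baseField p i x = baseCo p i x := by
  simp only [coframe, baseMetric, changeMetric, of_apply]
  have h1 : ∀ q j, changeCoframe (fun _ => (1 : Matrix (Fin 7) (Fin 7) ℝ))
      (fun a _ => Pi.single a 1) (fun x => Matrix.of fun a i => baseCo a i x) q j x
      = baseCo q j x := fun q j => by
    simp [changeCoframe, coframe, one_apply, Pi.single_apply]
  simp only [h1, Finset.mul_sum]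
  rw [Finset.sum_comm]
  calc ∑ q, ∑ m, baseField p x m * (baseCo q m x * baseCo q i x)
      = ∑ q, baseForm q x (baseField p x) * baseCo q i x :=
        Finset.sum_congr rfl fun q _ => by
          rw [baseForm_eq_sum, Finset.sum_mul]; exact Finset.sum_congr rfl fun m _ => by ring
    _ = baseCo p i x := by simp [baseForm_baseField hx]

theorem dirDeriv_rsq {x : Pt 7} (hx : x ∈ chart) (v : Pt 7) :
    dirDeriv rsq v x = 2 * (xc x ⬝ᵥ dxc x v) := by
  have hd : ∀ j, DifferentiableAt ℝ (fun y => xc y j) x := fun j =>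
    ((contDiffOn_xc j).contDiffAt (isOpen_chart.mem_nhds hx)).differentiableAt (by norm_num)
  rw [show rsq = fun y => ∑ i, xc y i * xc y i from rfl,
    dirDeriv_sum fun j => (hd j).fun_mul (hd j), dotProduct, Finset.mul_sum]
  refine Finset.sum_congr rfl fun j _ => ?_
  rw [dirDeriv_mul (hd j) (hd j), dirDeriv_xc hx]
  ring

theorem dirDeriv_inv_rad {x : Pt 7} (hx : x ∈ chartOff) (p : Fin 7) :
    dirDeriv (fun y => (rad y)⁻¹) (baseField p x) x = -(rad x)⁻¹ * if p = 0 then 1 else 0 := by
  have hr : DifferentiableAt ℝ rsq x :=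
    (contDiffOn_rsq.contDiffAt (isOpen_chart.mem_nhds hx.1)).differentiableAt (by norm_num)
  have hne : Real.sqrt (rsq x) ≠ 0 := (Real.sqrt_pos.2 hx.2).ne'
  have h := (hasDerivAt_inv hne).comp_hasFDerivAt x (hr.hasFDerivAt.sqrt (ne_of_gt hx.2))
  have hv : dirDeriv rsq (baseField p x) x = if p = 0 then 2 * rsq x else 0 := by
    rw [dirDeriv_rsq hx.1]
    fin_cases p <;>
      simp [baseField, liftField, spinField, dxc_liftVec hx.1, dxc_spinVec, qmul_skew, rsq]
  show fderiv ℝ _ x _ = _
  rw [show (fun y => (rad y)⁻¹) = (fun y => y⁻¹) ∘ fun y => Real.sqrt (rsq y) from rfl, h.fderiv]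
  simp only [ContinuousLinearMap.coe_smul', Pi.smul_apply, smul_eq_mul]
  rw [show fderiv ℝ rsq x (baseField p x) = dirDeriv rsq (baseField p x) x from rfl, hv, rad]
  split_ifs
  · field_simp
    rw [Real.sq_sqrt hx.2.le]
  · simp

/-- `dr² + r² h` as a changed, rescaled frame, and the sign of its Ricci tensor. -/
theorem coneMetric_ricci_nonneg {s : Set (Pt 7)} (hs : IsOpen s) (hsub : s ⊆ chartOff)
    {M N : Pt 7 → Matrix (Fin 7) (Fin 7) ℝ}
    (hM : ∀ i j, ContDiffOn ℝ 2 (fun y => M y i j) s)
    (hN : ∀ i j, ContDiffOn ℝ 2 (fun y => N y i j) s) (hNM : ∀ y ∈ s, N y * M y = 1)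
    (hrow : ∀ y ∈ s, ∀ a, M y 0 a = if a = 0 then 1 else 0) {x : Pt 7} (hx : x ∈ s)
    (hpos : ∀ w : Fin 7 → ℝ, 0 ≤ ∑ b, ∑ d, coneJ (frameJet baseField M N x) b d * w b * w d)
    (v : Pt 7) : 0 ≤ ∑ j, ∑ l, ricci (coneMetric N) j l x * v j * v l := by
  have h0 := isFrame_base.mono hs hsub
  have h1 := h0.changeFrame hM hN hNM
  have hρ : ContDiffOn ℝ 2 (fun y => (rad y)⁻¹) s := fun y hy =>
    ((((contDiffOn_rsq.contDiffAt (isOpen_chart.mem_nhds (hsub hy).1)).sqrt
      (ne_of_gt (hsub hy).2)).inv (Real.sqrt_pos.2 (hsub hy).2).ne')).contDiffWithinAt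
  have hne : ∀ y ∈ s, (rad y)⁻¹ ≠ 0 := fun y hy =>
    inv_ne_zero (Real.sqrt_pos.2 (hsub hy).2).ne'
  have hd : ∀ y ∈ s, ∀ a, dirDeriv (fun y => (rad y)⁻¹) (P225.changeFrame baseField M a y) y
      = -(rad y)⁻¹ * if a = 0 then 1 else 0 := fun y hy a => by
    rw [dirDeriv_changeFrame]
    simp [dirDeriv_inv_rad (hsub hy), hrow y hy a]
    split_ifs <;> simp
  have h2 := h1.conformal hρ hne hd
  have h3 : IsFrame (coneMetric N) s (fun a y => (rad y)⁻¹ • P225.changeFrame baseField M a y)
      (confStruct (changeStruct baseField (fun a b f _ => baseStruct a b f) M N)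
        (fun a => if a = 0 then 1 else 0) fun y => (rad y)⁻¹) := by
    refine h2.congr_metric fun y hy => ?_
    have hr := Real.mul_self_sqrt (hsub hy).2.le
    have hc : ∀ a i, changeCoframe (changeMetric baseMetric baseField N)
        (P225.changeFrame baseField M) (scalarField fun y => ((rad y)⁻¹)⁻¹) a i y
        = rad y * ∑ p, N y a p * baseCo p i y := fun a i => by
      rw [changeCoframe]
      simp only [scalarField, Matrix.smul_apply, one_apply, smul_eq_mul, mul_ite, mul_one, mul_zero,
        ite_mul, zero_mul, Finset.sum_ite_eq, Finset.mem_univ, if_true, inv_inv]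
      rw [h0.coframe_change hy (hNM y hy)]
      simp only [changeCoframe, coframe_base (hsub hy)]
    ext i j
    show coneMetric N y i j = changeMetric _ _ _ y i j
    simp only [coneMetric, changeMetric, of_apply]
    rw [Finset.mul_sum]
    refine Finset.sum_congr rfl fun a _ => ?_
    rw [hc a i, hc a j, mul_mul_mul_comm, show rad y * rad y = rsq y from hr]
  refine h3.ricci_nonneg hx (fun w => ?_) v
  have key : ∀ b d, frameRicci (fun a y => (rad y)⁻¹ • P225.changeFrame baseField M a y)
      (confStruct (changeStruct baseField (fun a b f _ => baseStruct a b f) M N)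
        (fun a => if a = 0 then 1 else 0) fun y => (rad y)⁻¹) b d x
      = (rad x)⁻¹ ^ 2 * coneJ (frameJet baseField M N x) b d := fun b d => by
    rw [h1.frameRicci_conformal hx hρ hd b d, h0.frameRicci_jet hx hM hN b d]
    have hc : ∀ p q r, frameConn (changeStruct baseField (fun a b f _ => baseStruct a b f) M N)
        p q r x = FrameJet.connJ baseStruct (frameJet baseField M N x) p q r := fun p q r => by
      simp only [frameConn, changeStruct_eq_structJ, FrameJet.connJ]
    simp only [hc, coneJ, mul_ite, mul_one, mul_zero, ite_mul, zero_mul, one_mul, ite_pow, ne_eq,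
      OfNat.ofNat_ne_zero, not_false_eq_true, zero_pow, one_pow, Finset.sum_ite_eq',
      Finset.mem_univ, if_true, Nat.cast_ofNat]
    split_ifs <;> ring
  simp only [key, mul_assoc, ← Finset.mul_sum]
  refine mul_nonneg (sq_nonneg _) ?_
  simpa only [mul_assoc] using hpos w

end

end Vale.Agent.P225
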