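import Vale.Agent.P225.Geom.Frame

/-!
P225: the Ricci tensor is symmetric (first Bianchi identity and skewness of the curvature).
-/

namespace Vale.Agent.P225

open scoped BigOperators

noncomputable section

variable {n : ℕ} {g : MetricField n} {s : Set (Pt n)} {e : Fin n → Pt n → Pt n}
  {c : Fin n → Fin n → Fin n → Pt n → ℝ} {x : Pt n}

theorem IsFrame.riem_bianchi (h : IsFrame g s e c) (hx : x ∈ s) (k i l j : Fin n) :
    riem g k i l j x + riem g k l j i x + riem g k j i l x = 0 := by
  have hpd : ∀ a b m, pd (christoffel g k a b) m x = pd (christoffel g k b a) m x := fun a b m =>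
    dirDeriv_congr h.isOpen hx (fun _ hy => h.christoffel_symm hy k a b) _
  have hs := fun p a b => h.christoffel_symm hx p a b
  simp only [riem, hpd l j i, hpd l i j, hpd j i l, hs _ l j, hs _ l i, hs _ j i,
    Finset.sum_sub_distrib]
  ring

theorem riem_swap (k i l j : Fin n) : riem g k i l j x = -riem g k l i j x := by
  simp only [riem, Finset.sum_sub_distrib]; ring

theorem frameConn_skew {a b d : Fin n} (hc : ∀ a b d, c a b d x = -c b a d x) :
    frameConn c a b d x = -frameConn c a d b x := by
  simp only [frameConn, hc b d a, hc d a b, hc b a d]; ring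

theorem IsFrame.struct_antisymm (h : IsFrame g s e c) (hx : x ∈ s) (a b d : Fin n) :
    c a b d x = -c b a d x := by
  have h1 := h.sum_coframe_frame hx d (fun f => c a b f x)
  have h2 := h.sum_coframe_frame hx d (fun f => c b a f x)
  rw [← h1, ← h2, ← Finset.sum_neg_distrib]
  refine Finset.sum_congr rfl fun k _ => ?_
  rw [← h.bracket x hx a b k, ← h.bracket x hx b a k]
  ring

theorem IsFrame.trace_riem (h : IsFrame g s e c) (hx : x ∈ s) (b d : Fin n) :
    ∑ i, ∑ l, (∑ k, riem g k i l k x) * e b x i * e d x l = 0 := by
  have hz : ∀ a, ∑ k, coframe g e a k x *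
      (∑ i, ∑ l, ∑ j, e b x i * e d x l * e a x j * riem g k i l j x) = 0 := by
    intro a
    have hd : ∀ p q, dirDeriv (frameConn c q a a) (e p x) x = 0 := by
      intro p q
      rw [dirDeriv_congr h.isOpen hx (h := fun _ => 0) (fun y hy => by
        have := frameConn_skew (a := q) (b := a) (d := a) fun p q r => h.struct_antisymm hy p q r
        linarith), dirDeriv]
      simp
    have hw : ∀ p, frameConn c p a a x = 0 := fun p => by
      have := frameConn_skew (a := p) (b := a) (d := a) fun p q r => h.struct_antisymm hx p q r
      linarith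
    have two : ∀ u : Fin n → ℝ, ∀ v : Fin n → Fin n → ℝ,
        ∑ k, coframe g e a k x * ∑ f, u f * ∑ q, v f q * e q x k = ∑ f, u f * v f a := by
      intro u v
      rw [Finset.sum_congr rfl fun k _ => Finset.mul_sum _ _ _, Finset.sum_comm]
      refine Finset.sum_congr rfl fun f _ => ?_
      rw [← h.sum_coframe_frame hx a (v f), Finset.mul_sum]
      exact Finset.sum_congr rfl fun k _ => by ring
    simp only [h.curvature hx b d a, mul_sub, mul_add, Finset.sum_sub_distrib,
      Finset.sum_add_distrib]
    rw [h.sum_coframe_frame hx a (fun f => dirDeriv (frameConn c d a f) (e b x) x),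
      h.sum_coframe_frame hx a (fun f => dirDeriv (frameConn c b a f) (e d x) x),
      two (fun f => frameConn c d a f x) (fun f q => frameConn c b f q x),
      two (fun f => frameConn c b a f x) (fun f q => frameConn c d f q x),
      two (fun f => c b d f x) (fun f q => frameConn c f a q x)]
    simp only [hd, hw, mul_zero, Finset.sum_const_zero, sub_zero, zero_sub, zero_add]
    have hsk : ∀ p q r, frameConn c p q r x = -frameConn c p r q x := fun p q r =>
      frameConn_skew fun p q r => h.struct_antisymm hx p q r
    rw [← Finset.sum_sub_distrib]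
    refine Finset.sum_eq_zero fun f _ => ?_
    rw [hsk b f a, hsk d f a]
    ring
  calc ∑ i, ∑ l, (∑ k, riem g k i l k x) * e b x i * e d x l
      = ∑ a, ∑ k, coframe g e a k x *
          (∑ i, ∑ l, ∑ j, e b x i * e d x l * e a x j * riem g k i l j x) := by
        have hk : ∀ k i l, riem g k i l k x
            = ∑ a, ∑ j, e a x j * coframe g e a k x * riem g k i l j x := by
          intro k i l
          rw [Finset.sum_comm]
          simp only [← Finset.sum_mul, h.dual hx]
          simp
        simp only [hk, Finset.mul_sum, Finset.sum_mul]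
        symm
        rw [Finset.sum_comm, Finset.sum_congr rfl fun k _ => Finset.sum_comm, Finset.sum_comm]
        refine Finset.sum_congr rfl fun i _ => ?_
        rw [Finset.sum_congr rfl fun k _ => Finset.sum_comm, Finset.sum_comm]
        refine Finset.sum_congr rfl fun l _ => Finset.sum_congr rfl fun k _ => ?_
        exact Finset.sum_congr rfl fun a _ => Finset.sum_congr rfl fun j _ => by ring
    _ = 0 := Finset.sum_eq_zero fun a _ => hz a

/-- The Ricci tensor in the frame is symmetric. -/
theorem IsFrame.frameRicci_symm (h : IsFrame g s e c) (hx : x ∈ s) (b d : Fin n) :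
    frameRicci e c b d x = frameRicci e c d b x := by
  have hdiff : ∀ j l, ricci g j l x - ricci g l j x = -∑ k, riem g k l j k x := by
    intro j l
    rw [ricci_eq_riem, ricci_eq_riem, ← Finset.sum_sub_distrib, ← Finset.sum_neg_distrib]
    refine Finset.sum_congr rfl fun i _ => ?_
    linarith [h.riem_bianchi hx i i l j, riem_swap (g := g) (x := x) i j i l]
  rw [← h.ricci_frame hx b d, ← h.ricci_frame hx d b, ← sub_eq_zero]
  have e1 : ∑ j, ∑ l, ricci g j l x * e b x j * e d x l
      = ∑ j, ∑ l, ricci g l j x * e d x j * e b x l := by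
    rw [Finset.sum_comm]
    exact Finset.sum_congr rfl fun j _ => Finset.sum_congr rfl fun l _ => by ring
  rw [e1]
  simp only [← Finset.sum_sub_distrib]
  rw [Finset.sum_comm, ← neg_eq_zero, ← Finset.sum_neg_distrib]
  refine Eq.trans ?_ (h.trace_riem hx b d)
  refine Finset.sum_congr rfl fun l _ => ?_
  rw [← Finset.sum_neg_distrib]
  refine Finset.sum_congr rfl fun j _ => ?_
  linear_combination -(e d x j * e b x l) * hdiff j l

end

end Vale.Agent.P225
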