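import Vale.Agent.P225.Geom.Transform
import Vale.Agent.P225.Geom.Symm

/-!
P225: conformal change of frame `e ↦ ρ e`, with constant logarithmic derivative of `ρ` along the frame.
-/

namespace Vale.Agent.P225

open scoped BigOperators
open Set Matrix

noncomputable section

variable {n : ℕ} {g : MetricField n} {s : Set (Pt n)} {e : Fin n → Pt n → Pt n}
  {c : Fin n → Fin n → Fin n → Pt n → ℝ} {x : Pt n} {τ : Fin n → ℝ} {ρ : Pt n → ℝ}

theorem IsFrame.congr_struct (h : IsFrame g s e c) {c' : Fin n → Fin n → Fin n → Pt n → ℝ}
    (hc : ∀ y ∈ s, ∀ a b f, c a b f y = c' a b f y) : IsFrame g s e c' where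
  isOpen := h.isOpen
  smooth_g := h.smooth_g
  posDef := h.posDef
  smooth_e := h.smooth_e
  smooth_c a b d := (h.smooth_c a b d).congr fun y hy => (hc y hy a b d).symm
  ortho := h.ortho
  bracket y hy a b k := by
    rw [h.bracket y hy a b k]
    exact Finset.sum_congr rfl fun f _ => by rw [hc y hy]

/-- Structure functions after the change `e ↦ ρ e`, without the common factor `ρ`. -/
def confCore (c : Fin n → Fin n → Fin n → Pt n → ℝ) (τ : Fin n → ℝ) (a b f : Fin n) (x : Pt n) : ℝ :=
  c a b f x - (if b = f then τ a else 0) + (if a = f then τ b else 0)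

/-- Structure functions after the change `e ↦ ρ e`. -/
def confStruct (c : Fin n → Fin n → Fin n → Pt n → ℝ) (τ : Fin n → ℝ) (ρ : Pt n → ℝ)
    (a b f : Fin n) (x : Pt n) : ℝ :=
  ρ x * confCore c τ a b f x

/-- The scalar field `ρ` as a matrix field. -/
def scalarField (ρ : Pt n → ℝ) : Pt n → Matrix (Fin n) (Fin n) ℝ := fun x => ρ x • 1

theorem changeFrame_scalar (a : Fin n) : changeFrame e (scalarField ρ) a x = ρ x • e a x := by
  funext k; simp [changeFrame, scalarField, one_apply]

theorem IsFrame.conformal (h : IsFrame g s e c) (hρ : ContDiffOn ℝ 2 ρ s) (hne : ∀ y ∈ s, ρ y ≠ 0)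
    (hd : ∀ y ∈ s, ∀ a, dirDeriv ρ (e a y) y = -ρ y * τ a) :
    IsFrame (changeMetric g e (scalarField fun y => (ρ y)⁻¹)) s
      (fun a y => ρ y • e a y) (confStruct c τ ρ) := by
  have hM : ∀ i j, ContDiffOn ℝ 2 (fun y => scalarField ρ y i j) s := fun i j => by
    simp only [scalarField, Matrix.smul_apply, smul_eq_mul]
    exact hρ.mul contDiffOn_const
  have hN : ∀ i j, ContDiffOn ℝ 2 (fun y => scalarField (fun y => (ρ y)⁻¹) y i j) s := fun i j => by
    simp only [scalarField, Matrix.smul_apply, smul_eq_mul]
    exact (hρ.inv hne).mul contDiffOn_const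
  have hNM : ∀ y ∈ s, scalarField (fun y => (ρ y)⁻¹) y * scalarField ρ y = 1 := fun y hy => by
    simp [scalarField, smul_smul, mul_inv_cancel₀ (hne y hy)]
  have hfr := h.changeFrame hM hN hNM
  rw [show P225.changeFrame e (scalarField ρ) = fun a y => ρ y • e a y from
    funext fun a => funext fun y => changeFrame_scalar a] at hfr
  refine hfr.congr_struct fun y hy a b f => ?_
  have dρ : DifferentiableAt ℝ ρ y :=
    (hρ.contDiffAt (h.isOpen.mem_nhds hy)).differentiableAt (by norm_num)
  have hD : ∀ p q r, dirDeriv (fun z => scalarField ρ z p q) (ρ y • e r y) y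
      = ρ y * (-ρ y * τ r) * if p = q then 1 else 0 := by
    intro p q r
    simp only [scalarField, Matrix.smul_apply, one_apply, smul_eq_mul]
    rw [dirDeriv_mul dρ (differentiableAt_const _)]
    have : dirDeriv ρ (ρ y • e r y) y = ρ y * dirDeriv ρ (e r y) y := by simp [dirDeriv]
    rw [this, hd y hy]
    simp [dirDeriv]
  simp only [changeStruct, changeBracket, changeFrame_scalar, hD]
  have hne' := hne y hy
  have e1 : ∀ h, ∑ p, ∑ q, scalarField ρ y p a * scalarField ρ y q b * c p q h y
      = ρ y ^ 2 * c a b h y := fun h => by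
    simp only [scalarField, Matrix.smul_apply, one_apply, smul_eq_mul, mul_ite, mul_one, mul_zero,
      ite_mul, zero_mul, Finset.sum_ite_eq', Finset.mem_univ, if_true]
    ring
  have e2 : ∀ p q, scalarField (fun y => (ρ y)⁻¹) y p q = if p = q then (ρ y)⁻¹ else 0 := fun p q => by
    simp [scalarField, one_apply]
  simp only [e1, e2, ite_mul, zero_mul, Finset.sum_ite_eq, Finset.mem_univ, if_true, confStruct,
    confCore, eq_comm (a := f) (b := a), eq_comm (a := f) (b := b)]
  field_simp
  split_ifs <;> ring

theorem frameConn_confCore (a b d : Fin n) : frameConn (confCore c τ) a b d x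
    = frameConn c a b d x + (if a = d then τ b else 0) - (if a = b then τ d else 0) := by
  simp only [frameConn, confCore, eq_comm (a := b) (b := d), eq_comm (a := d) (b := a),
    eq_comm (a := b) (b := a)]
  ring

theorem frameConn_confStruct (a b d : Fin n) :
    frameConn (confStruct c τ ρ) a b d = fun y => ρ y * frameConn (confCore c τ) a b d y := by
  funext y; simp only [frameConn, confStruct]; ring

/-- The Ricci tensor after the change `e ↦ ρ e`. -/
theorem IsFrame.frameRicci_conformal (h : IsFrame g s e c) (hx : x ∈ s)
    (hρ : ContDiffOn ℝ 2 ρ s) (hd : ∀ y ∈ s, ∀ a, dirDeriv ρ (e a y) y = -ρ y * τ a) (b d : Fin n) :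
    frameRicci (fun a y => ρ y • e a y) (confStruct c τ ρ) b d x
      = ρ x ^ 2 * (frameRicci e c b d x
        + ((n : ℝ) - 2) * ((∑ f, frameConn c b d f x * τ f) + τ b * τ d)
        - (if b = d then (∑ f, τ f * ∑ a, frameConn c a f a x)
            + ((n : ℝ) - 2) * ∑ f, τ f ^ 2 else 0)) := by
  have dρ : DifferentiableAt ℝ ρ x :=
    (hρ.contDiffAt (h.isOpen.mem_nhds hx)).differentiableAt (by norm_num)
  have hdist : ∀ p q r m, dirDeriv (frameConn (confStruct c τ ρ) p q r) (ρ x • e m x) x
      = ρ x ^ 2 * (dirDeriv (frameConn c p q r) (e m x) x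
          - τ m * frameConn (confCore c τ) p q r x) := by
    intro p q r m
    have hfun : frameConn (confStruct c τ ρ) p q r = fun y => ρ y * (frameConn c p q r y
        + ((if p = r then τ q else 0) - (if p = q then τ r else 0))) := by
      rw [frameConn_confStruct]; funext y; rw [frameConn_confCore]; ring
    have hdc := h.differentiableAt_conn hx p q r
    have hdsum : dirDeriv (fun y => frameConn c p q r y
        + ((if p = r then τ q else 0) - (if p = q then τ r else 0))) (e m x) x
        = dirDeriv (frameConn c p q r) (e m x) x := by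
      simp only [dirDeriv, fderiv_add_const]
    have hlin : ∀ F : Pt n → ℝ, dirDeriv F (ρ x • e m x) x = ρ x * dirDeriv F (e m x) x := by
      intro F; simp [dirDeriv]
    rw [hfun, hlin, dirDeriv_mul dρ (hdc.add_const _), hd x hx, hdsum, frameConn_confCore]
    ring
  have hsk : ∀ p q r, frameConn c p q r x = -frameConn c p r q x := fun p q r =>
    frameConn_skew fun p q r => h.struct_antisymm hx p q r
  have htor : ∀ p q r, c p q r x = frameConn c p q r x - frameConn c q p r x := fun p q r => by
    simp only [frameConn, h.struct_antisymm hx q p r, h.struct_antisymm hx p r q,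
      h.struct_antisymm hx r q p]
    ring
  set Ω := fun p q r => frameConn (confCore c τ) p q r x with hΩd
  set H := ∑ f, frameConn c b d f x * τ f with hH
  set Z := ∑ a, frameConn c a d b x * τ a with hZ
  set t := fun f => ∑ a, frameConn c a f a x with ht
  set u2 := ∑ f, τ f ^ 2 with hu2
  have hT : ∀ f, ∑ a, Ω a f a = t f + ((n : ℝ) - 1) * τ f := fun f => by
    simp [hΩd, frameConn_confCore, Finset.sum_add_distrib, Finset.sum_sub_distrib, ht]
    ring
  have h0 : ∑ a, (-τ a * Ω b d a) = -H - τ b * τ d + (if b = d then u2 else 0) := by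
    simp only [hΩd, frameConn_confCore, mul_add, mul_sub, Finset.sum_add_distrib,
      Finset.sum_sub_distrib, mul_ite, mul_zero, Finset.sum_ite_eq, Finset.mem_univ, if_true]
    have e1 : ∑ a, -τ a * frameConn c b d a x = -H := by
      rw [hH, ← Finset.sum_neg_distrib]; exact Finset.sum_congr rfl fun a _ => by ring
    rw [e1]
    by_cases hbd : b = d <;> simp [hbd, hu2, sq] <;> ring
  have h1 : ∑ f, Ω b d f * ∑ a, Ω a f a = (∑ f, frameConn c b d f x * t f) + ((n : ℝ) - 1) * H
      + τ d * t b + ((n : ℝ) - 1) * (τ d * τ b)
      - (if b = d then (∑ f, τ f * t f) + ((n : ℝ) - 1) * u2 else 0) := by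
    simp only [hT]
    generalize (n : ℝ) - 1 = k
    have e : ∀ f, Ω b d f * (t f + k * τ f) = frameConn c b d f x * t f
        + k * (frameConn c b d f x * τ f) + (if b = f then τ d * t f + k * (τ d * τ f) else 0)
        - (if b = d then τ f * t f + k * τ f ^ 2 else 0) := fun f => by
      simp only [hΩd, frameConn_confCore]; split_ifs <;> ring
    simp only [e, Finset.sum_add_distrib, Finset.sum_sub_distrib, ← Finset.mul_sum,
      Finset.sum_ite_eq, Finset.mem_univ, if_true, ← hH]
    by_cases hbd : b = d <;> simp [hbd, hu2, Finset.sum_add_distrib, Finset.mul_sum] <;> ring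
  have h2 : ∑ a, ∑ f, Ω a d f * Ω b f a = (∑ a, ∑ f, frameConn c a d f x * frameConn c b f a x)
      + 2 * H - Z - (if b = d then u2 else 0) + τ b * τ d := by
    have e : ∀ a f, Ω a d f * Ω b f a = frameConn c a d f x * frameConn c b f a x
        + (if b = a then frameConn c a d f x * τ f else 0)
        - (if b = f then frameConn c a d f x * τ a else 0)
        + (if a = f then τ d * frameConn c b f a x else 0)
        + (if a = f then (if b = a then τ d * τ f else 0) else 0)
        - (if a = f then (if b = f then τ d * τ a else 0) else 0)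
        - (if a = d then τ f * frameConn c b f a x else 0)
        - (if a = d then (if b = a then τ f * τ f else 0) else 0)
        + (if a = d then (if b = f then τ f * τ a else 0) else 0) := fun a f => by
      simp only [hΩd, frameConn_confCore]; split_ifs <;> ring
    have ez : ∀ a, frameConn c b a a x = 0 := fun a => by linarith [hsk b a a]
    have e2 : ∑ f, τ f * frameConn c b f d x = -H := by
      rw [hH, ← Finset.sum_neg_distrib]
      exact Finset.sum_congr rfl fun a _ => by rw [hsk b a d]; ring
    have e3 : ∑ a, frameConn c a d b x * τ a = Z := hZ.symm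
    simp only [e, Finset.sum_add_distrib, Finset.sum_sub_distrib, Finset.sum_ite_irrel,
      Finset.sum_const_zero, Finset.sum_ite_eq, Finset.sum_ite_eq', Finset.mem_univ, if_true, ez,
      mul_zero, e2, e3, ← hH]
    by_cases hbd : b = d <;> simp [hbd, hu2, sq] <;> ring
  have h3 : ∑ a, ∑ f, confCore c τ a b f x * Ω f d a
      = (∑ a, ∑ f, c a b f x * frameConn c f d a x) + τ d * t b + Z - 2 * H - 2 * (τ b * τ d)
        + (if b = d then u2 else 0) + τ b * t d + n * (τ b * τ d) := by
    have e : ∀ a f, confCore c τ a b f x * Ω f d a = c a b f x * frameConn c f d a x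
        + (if a = f then τ d * c a b f x else 0)
        - (if f = d then c a b f x * τ a else 0)
        - (if b = f then τ a * frameConn c f d a x else 0)
        - (if b = f then (if a = f then τ a * τ d else 0) else 0)
        + (if b = f then (if f = d then τ a * τ a else 0) else 0)
        + (if a = f then τ b * frameConn c f d a x else 0)
        + (if a = f then τ b * τ d else 0)
        - (if a = f then (if f = d then τ b * τ a else 0) else 0) := fun a f => by
      simp only [hΩd, confCore, frameConn_confCore, eq_comm (a := f) (b := a)]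
      split_ifs <;> ring
    have e1 : ∑ a, τ d * c a b a x = τ d * t b := by
      simp only [ht, Finset.mul_sum]
      exact Finset.sum_congr rfl fun a _ => by
        rw [htor, (by linarith [hsk b a a] : frameConn c b a a x = 0)]; ring
    have e2 : ∑ a, c a b d x * τ a = H - Z := by
      rw [hH, hZ, ← Finset.sum_sub_distrib]
      exact Finset.sum_congr rfl fun a _ => by rw [htor, hsk a b d, hsk b a d]; ring
    have e3 : ∑ a, τ a * frameConn c b d a x = H := by
      rw [hH]; exact Finset.sum_congr rfl fun a _ => mul_comm _ _
    have e4 : ∑ a, τ b * frameConn c a d a x = τ b * t d := (Finset.mul_sum _ _ _).symm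
    simp only [e, Finset.sum_add_distrib, Finset.sum_sub_distrib, Finset.sum_ite_irrel,
      Finset.sum_const_zero, Finset.sum_ite_eq, Finset.sum_ite_eq', Finset.mem_univ, if_true,
      e1, e2, e3, e4, Finset.sum_const, Finset.card_univ, Fintype.card_fin, nsmul_eq_mul]
    by_cases hbd : b = d <;> simp [hbd, hu2, sq] <;> ring
  calc frameRicci (fun a y => ρ y • e a y) (confStruct c τ ρ) b d x
      = ρ x ^ 2 * ((∑ a, (dirDeriv (frameConn c b d a) (e a x) x
          - dirDeriv (frameConn c a d a) (e b x) x)) + ∑ a, (-τ a * Ω b d a)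
          + τ b * ∑ a, Ω a d a + ∑ f, Ω b d f * ∑ a, Ω a f a
          - ∑ a, ∑ f, Ω a d f * Ω b f a - ∑ a, ∑ f, confCore c τ a b f x * Ω f d a) := by
        have e1 : ∑ f, Ω b d f * ∑ a, Ω a f a = ∑ a, ∑ f, Ω b d f * Ω a f a := by
          simp only [Finset.mul_sum]; exact Finset.sum_comm
        rw [e1, Finset.mul_sum (a := τ b), ← Finset.sum_add_distrib, ← Finset.sum_add_distrib,
          ← Finset.sum_add_distrib, ← Finset.sum_sub_distrib, ← Finset.sum_sub_distrib,
          Finset.mul_sum]
        simp only [frameRicci, hdist]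
        simp only [frameConn_confStruct, confStruct, hΩd]
        refine Finset.sum_congr rfl fun a _ => ?_
        have e2 : ∀ f, ρ x * frameConn (confCore c τ) b d f x * (ρ x * frameConn (confCore c τ) a f a x)
            - ρ x * frameConn (confCore c τ) a d f x * (ρ x * frameConn (confCore c τ) b f a x)
            - ρ x * confCore c τ a b f x * (ρ x * frameConn (confCore c τ) f d a x)
            = ρ x ^ 2 * (frameConn (confCore c τ) b d f x * frameConn (confCore c τ) a f a x
            - frameConn (confCore c τ) a d f x * frameConn (confCore c τ) b f a x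
            - confCore c τ a b f x * frameConn (confCore c τ) f d a x) := fun f => by ring
        simp only [e2, ← Finset.mul_sum, Finset.sum_sub_distrib]
        ring
    _ = _ := by
        rw [h0, h1, h2, h3, hT]
        have e4 : frameRicci e c b d x = (∑ a, (dirDeriv (frameConn c b d a) (e a x) x
            - dirDeriv (frameConn c a d a) (e b x) x)) + (∑ f, frameConn c b d f x * t f)
            - (∑ a, ∑ f, frameConn c a d f x * frameConn c b f a x)
            - (∑ a, ∑ f, c a b f x * frameConn c f d a x) := by
          simp only [frameRicci, ht, Finset.mul_sum, Finset.sum_sub_distrib, Finset.sum_add_distrib]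
          rw [Finset.sum_comm (f := fun f a => frameConn c b d f x * frameConn c a f a x)]
          ring
        rw [e4]
        simp only [hH, ht]
        split_ifs <;> ring

end

end Vale.Agent.P225
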