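import Vale.Agent.P225.Geom.Cone

/-!
P225: the jet of a product of two changes of frame, and the Lipschitz bound for the cone Ricci tensor
under perturbations of the jet.
-/

namespace Vale.Agent.P225

open scoped BigOperators
open Set Matrix

noncomputable section

variable {n : ℕ}

/-- The product of two arrays. -/
def mulA (a b : Arr n) : Arr n := fun i j => ∑ h, a i h * b h j

namespace FrameJet

/-- The jet of a product of changes of frame (derivatives along one fixed frame). -/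
def mul (J J' : FrameJet n) : FrameJet n :=
  (mulA J.mat J'.mat, mulA J'.inv J.inv,
    fun p => mulA (J.dmat p) J'.mat + mulA J.mat (J'.dmat p),
    fun p => mulA (J'.dinv p) J.inv + mulA J'.inv (J.dinv p),
    fun r p => mulA (J.ddmat r p) J'.mat + mulA (J.dmat p) (J'.dmat r)
      + mulA (J.dmat r) (J'.dmat p) + mulA J.mat (J'.ddmat r p))

/-- The jet of the trivial change of frame. -/
def one : FrameJet n :=
  (fun i j => if i = j then 1 else 0, fun i j => if i = j then 1 else 0, 0, 0, 0)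

theorem one_mul' (J : FrameJet n) : mul one J = J := by
  obtain ⟨a, b, c, d, e⟩ := J
  simp only [mul, one, mat, inv, dmat, dinv, ddmat, Prod.mk.injEq]
  refine ⟨?_, ?_, ?_, ?_, ?_⟩ <;> funext i
  · funext j; simp [mulA]
  · funext j; simp [mulA]
  · funext j k; simp [mulA]
  · funext j k; simp [mulA]
  · funext j k l; simp [mulA]

theorem contDiff_mul : ContDiff ℝ 1 fun q : FrameJet n × FrameJet n => mul q.1 q.2 := by
  unfold mul mulA mat inv dmat dinv ddmat
  fun_prop

end FrameJet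

variable {s : Set (Pt n)} {g : MetricField n} {e : Fin n → Pt n → Pt n}
  {c : Fin n → Fin n → Fin n → Pt n → ℝ}
  {M N M' N' : Pt n → Matrix (Fin n) (Fin n) ℝ} {x : Pt n}

theorem frameJet_mul (h : IsFrame g s e c) (hx : x ∈ s)
    (hM : ∀ i j, ContDiffOn ℝ 2 (fun y => M y i j) s)
    (hN : ∀ i j, ContDiffOn ℝ 2 (fun y => N y i j) s)
    (hM' : ∀ i j, ContDiffOn ℝ 2 (fun y => M' y i j) s)
    (hN' : ∀ i j, ContDiffOn ℝ 2 (fun y => N' y i j) s) :
    frameJet e (fun y => M y * M' y) (fun y => N' y * N y) x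
      = FrameJet.mul (frameJet e M N x) (frameJet e M' N' x) := by
  have d0 : ∀ (F : Pt n → ℝ), ContDiffOn ℝ 2 F s → ∀ y ∈ s, DifferentiableAt ℝ F y := fun F hF y hy =>
    (hF.contDiffAt (h.isOpen.mem_nhds hy)).differentiableAt (by norm_num)
  have d1 : ∀ (F : Pt n → ℝ), ContDiffOn ℝ 2 F s → ∀ p,
      DifferentiableAt ℝ (fun y => dirDeriv F (e p y) y) x := fun F hF p => by
    have h1 : ContDiffOn ℝ 1 (fun y => dirDeriv F (e p y) y) s :=
      (hF.fderiv_of_isOpen h.isOpen (m := 1) (by norm_num)).clm_apply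
        ((contDiffOn_pi.2 fun i => h.smooth_e p i).of_le (by norm_num))
    exact (h1.contDiffAt (h.isOpen.mem_nhds hx)).differentiableAt (by norm_num)
  have prod : ∀ (A B : Pt n → Matrix (Fin n) (Fin n) ℝ),
      (∀ i j, ContDiffOn ℝ 2 (fun y => A y i j) s) → (∀ i j, ContDiffOn ℝ 2 (fun y => B y i j) s) →
      ∀ y ∈ s, ∀ v i j, dirDeriv (fun z => (A z * B z) i j) v y
        = ∑ m, dirDeriv (fun z => A z i m) v y * B y m j
          + ∑ m, A y i m * dirDeriv (fun z => B z m j) v y := by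
    intro A B hA hB y hy v i j
    simp only [Matrix.mul_apply]
    rw [dirDeriv_sum fun m => (d0 _ (hA i m) y hy).fun_mul (d0 _ (hB m j) y hy),
      ← Finset.sum_add_distrib]
    exact Finset.sum_congr rfl fun m _ =>
      dirDeriv_mul (d0 _ (hA i m) y hy) (d0 _ (hB m j) y hy) v
  simp only [frameJet, FrameJet.mul, FrameJet.mat, FrameJet.inv, FrameJet.dmat, FrameJet.dinv,
    FrameJet.ddmat, Prod.mk.injEq]
  refine ⟨?_, ?_, ?_, ?_, ?_⟩
  · funext i j; simp [mulA, Matrix.mul_apply]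
  · funext i j; simp [mulA, Matrix.mul_apply]
  · funext p i j
    rw [prod M M' hM hM' x hx]
    rfl
  · funext p i j
    rw [prod N' N hN' hN x hx]
    rfl
  · funext r p i j
    rw [dirDeriv_congr h.isOpen hx (fun y hy => prod M M' hM hM' y hy (e p y) i j)]
    have dA : ∀ m, DifferentiableAt ℝ
        (fun y => dirDeriv (fun z => M z i m) (e p y) y * M' y m j) x := fun m =>
      (d1 _ (hM i m) p).fun_mul (d0 _ (hM' m j) x hx)
    have dB : ∀ m, DifferentiableAt ℝ
        (fun y => M y i m * dirDeriv (fun z => M' z m j) (e p y) y) x := fun m =>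
      (d0 _ (hM i m) x hx).fun_mul (d1 _ (hM' m j) p)
    rw [dirDeriv_add' (DifferentiableAt.fun_sum fun m _ => dA m)
      (DifferentiableAt.fun_sum fun m _ => dB m), dirDeriv_sum dA, dirDeriv_sum dB]
    simp only [dirDeriv_mul (d1 _ (hM i _) p) (d0 _ (hM' _ j) x hx),
      dirDeriv_mul (d0 _ (hM i _) x hx) (d1 _ (hM' _ j) p), Finset.sum_add_distrib, mulA,
      Pi.add_apply]
    ring

theorem exists_lipschitz_comp {E F : Type*} [NormedAddCommGroup E] [NormedSpace ℝ E] [ProperSpace E]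
    [NormedAddCommGroup F] [NormedSpace ℝ F] {G : E → F} {Φ : F → ℝ} (hG : ContDiff ℝ 1 G)
    (hΦ : ContDiff ℝ 1 Φ) (R : ℝ) :
    ∃ K : NNReal, LipschitzOnWith K (fun q => Φ (G q)) (Metric.closedBall 0 R) :=
  (hΦ.comp hG).contDiffOn.exists_lipschitzOnWith one_ne_zero
    (convex_closedBall _ _) (isCompact_closedBall _ _)

/-- On a bounded set of jets the cone Ricci tensor is Lipschitz in the perturbing factor. -/
theorem coneJ_lipschitz (R : ℝ) : ∃ L : ℝ, 0 ≤ L ∧ ∀ JE Jm : FrameJet 7, ‖JE‖ ≤ R → ‖Jm‖ ≤ R →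
    ‖(FrameJet.one : FrameJet 7)‖ ≤ R → ∀ b d,
    |coneJ (FrameJet.mul JE Jm) b d - coneJ Jm b d| ≤ L * ‖JE - FrameJet.one‖ := by
  have h : ∀ b d : Fin 7, ∃ K : NNReal, LipschitzOnWith K
      (fun q : FrameJet 7 × FrameJet 7 => coneJ (FrameJet.mul q.1 q.2) b d)
      (Metric.closedBall 0 R) := fun b d =>
    exists_lipschitz_comp (G := fun q : FrameJet 7 × FrameJet 7 => FrameJet.mul q.1 q.2)
      (Φ := fun J => coneJ J b d) FrameJet.contDiff_mul (contDiff_coneJ b d) R
  choose K hK using h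
  refine ⟨∑ b, ∑ d, (K b d : ℝ),
    Finset.sum_nonneg fun b _ => Finset.sum_nonneg fun d _ => (K b d).2, ?_⟩
  intro JE Jm hE hm h1 b d
  have m1 : (JE, Jm) ∈ Metric.closedBall (0 : FrameJet 7 × FrameJet 7) R := by
    exact mem_closedBall_zero_iff.2 (max_le hE hm)
  have m2 : ((FrameJet.one : FrameJet 7), Jm) ∈ Metric.closedBall (0 : FrameJet 7 × FrameJet 7) R := by
    exact mem_closedBall_zero_iff.2 (max_le h1 hm)
  have h := (hK b d).norm_sub_le m1 m2
  simp only [Real.norm_eq_abs, FrameJet.one_mul'] at h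
  rw [show ‖((JE, Jm) : FrameJet 7 × FrameJet 7) - (FrameJet.one, Jm)‖ = ‖JE - FrameJet.one‖ by
    simp [Prod.norm_def]] at h
  refine h.trans (mul_le_mul_of_nonneg_right ?_ (norm_nonneg _))
  calc (K b d : ℝ) ≤ ∑ d', (K b d' : ℝ) :=
        Finset.single_le_sum (f := fun d' => (K b d' : ℝ)) (fun i _ => (K b i).2) (Finset.mem_univ d)
    _ ≤ ∑ b', ∑ d', (K b' d' : ℝ) :=
        Finset.single_le_sum (f := fun b' => ∑ d', (K b' d' : ℝ))
          (fun i _ => Finset.sum_nonneg fun d' _ => (K i d').2) (Finset.mem_univ b)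

end

end Vale.Agent.P225
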