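import Vale.Agent.P225.Geom.EndJet
import Vale.Agent.P225.Geom.JetMul
import Vale.Agent.P225.Metric.Warp

/-!
P225: the Ricci criterion on the end, for warped metrics `dr² + r² P⁻¹` with
`P = A (1 + E) gram(w) (1 + E)ᵀ Aᵀ`: `A` keeps the brackets of the fields, `E` is small.
-/

namespace Vale.Agent.P225

open scoped BigOperators Topology
open Set Matrix

noncomputable section

/-- Two metrics with a common orthonormal frame are equal. -/
theorem IsFrame.metric_unique {n : ℕ} {g g' : MetricField n} {s : Set (Pt n)}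
    {e e' : Fin n → Pt n → Pt n} {c c' : Fin n → Fin n → Fin n → Pt n → ℝ}
    (h : IsFrame g s e c) (h' : IsFrame g' s e' c') {x : Pt n} (hx : x ∈ s)
    (he : ∀ a, e a x = e' a x) : g x = g' x := by
  have hinv : (g x)⁻¹ = (g' x)⁻¹ := by
    ext i j
    rw [h.inv_eq hx, h'.inv_eq hx]
    simp only [he]
  rw [← nonsing_inv_nonsing_inv (g x) (h.isUnit_det hx), hinv,
    nonsing_inv_nonsing_inv (g' x) (h'.isUnit_det hx)]

theorem contDiffOn_rootN : ContDiffOn ℝ 2 rootN wPos := by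
  have hp : ∀ i : Fin 3, ContDiffOn ℝ 2 (fun w : Fin 3 → ℝ => w i) wPos := fun i =>
    (contDiff_apply ℝ ℝ i).contDiffOn
  have hd : ContDiffOn ℝ 2 wdet wPos :=
    (((hp 0).mul (hp 1)).add ((hp 0).mul (hp 2))).add ((hp 1).mul (hp 2))
  have h0 : ∀ w ∈ wPos, w 0 + w 2 ≠ 0 := fun w hw => hw.1.ne'
  have ha := ((hp 0).add (hp 2)).sqrt h0
  have hc := (hd.div ((hp 0).add (hp 2)) h0).sqrt fun w hw => (div_pos hw.2 hw.1).ne'
  have hcn : ∀ w ∈ wPos, Real.sqrt (wdet w / (w 0 + w 2)) ≠ 0 := fun w hw =>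
    (Real.sqrt_pos.2 (div_pos hw.2 hw.1)).ne'
  refine contDiffOn_pi.2 fun i => contDiffOn_pi.2 fun j => ?_
  fin_cases i <;> fin_cases j
  · exact ha.inv fun w hw => (Real.sqrt_pos.2 hw.1).ne'
  · exact contDiffOn_const
  · exact (hp 2).neg.div (((hp 0).add (hp 2)).mul hc) fun w hw => mul_ne_zero (h0 w hw) (hcn w hw)
  · exact hc.inv hcn

/-- The triangular root on the six fields. -/
def chol6 (w : Fin 3 → ℝ) : M6 :=
  Matrix.of fun p q => if p.2 = q.2 then rootM w p.1 q.1 else 0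

/-- Its inverse. -/
def cholInv6 (w : Fin 3 → ℝ) : M6 :=
  Matrix.of fun p q => if p.2 = q.2 then rootN w p.1 q.1 else 0

theorem lift7_blk {A : M6} {m : Arr 2}
    (hA : ∀ p q, A p q = if p.2 = q.2 then m p.1 q.1 else 0) (i j : Fin 7) :
    lift7 A i j = blk m 1 i j := by
  obtain rfl | ⟨α, a, rfl⟩ := eq_zero_or_spi i <;> obtain rfl | ⟨β, b, rfl⟩ := eq_zero_or_spi j
  · rw [lift7_zero_zero, blk_zero_zero]
  · rw [show spi β b = idx (β, b) from rfl, lift7_zero_idx, ← show spi β b = idx (β, b) from rfl,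
      blk_zero_spi]
  · rw [show spi α a = idx (α, a) from rfl, lift7_idx_zero, ← show spi α a = idx (α, a) from rfl,
      blk_spi_zero]
  · rw [show spi α a = idx (α, a) from rfl, show spi β b = idx (β, b) from rfl, lift7_idx_idx, hA,
      ← show spi α a = idx (α, a) from rfl, ← show spi β b = idx (β, b) from rfl, blk_spi_spi]

theorem rootN_mul {w : Fin 3 → ℝ} (hw : w ∈ wPos) : mul2 (rootN w) (rootM w) = fun i j =>
    if i = j then 1 else 0 := by
  have h0 := hw.1
  have ha : Real.sqrt (w 0 + w 2) ≠ 0 := (Real.sqrt_pos.2 h0).ne'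
  have hc : Real.sqrt (wdet w / (w 0 + w 2)) ≠ 0 := (Real.sqrt_pos.2 (div_pos hw.2 h0)).ne'
  have e1 : Real.sqrt (w 0 + w 2) * Real.sqrt (w 0 + w 2) = w 0 + w 2 := Real.mul_self_sqrt h0.le
  funext i j
  fin_cases i <;> fin_cases j <;> simp [mul2, rootN, rootM, Fin.sum_univ_two, ha, hc]
  field_simp
  rw [sq, e1]
  field_simp
  ring

theorem cholInv6_mul {w : Fin 3 → ℝ} (hw : w ∈ wPos) : cholInv6 w * chol6 w = 1 := by
  ext ⟨α, i⟩ ⟨β, j⟩
  rw [mul_apply, Fintype.sum_prod_type, one_apply]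
  have h := congrFun (congrFun (rootN_mul hw) α) β
  simp only [mul2] at h
  simp only [cholInv6, chol6, of_apply, ite_mul, zero_mul, mul_ite, mul_zero,
    Finset.sum_ite_eq, Finset.mem_univ, if_true, Prod.mk.injEq]
  by_cases hij : i = j
  · subst hij; simpa using h
  · simp [hij]

theorem gram_eq_chol {w : Fin 3 → ℝ} (hw : w ∈ wPos) : gram w = chol6 w * (chol6 w)ᵀ := by
  have h0 := hw.1
  have ha : Real.sqrt (w 0 + w 2) ≠ 0 := (Real.sqrt_pos.2 h0).ne'
  have e1 : Real.sqrt (w 0 + w 2) * Real.sqrt (w 0 + w 2) = w 0 + w 2 := Real.mul_self_sqrt h0.le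
  have e2 : Real.sqrt (wdet w / (w 0 + w 2)) * Real.sqrt (wdet w / (w 0 + w 2))
      = wdet w / (w 0 + w 2) := Real.mul_self_sqrt (div_pos hw.2 h0).le
  have hm : ∀ α β, (!![w 0 + w 2, w 2; w 2, w 1 + w 2] : Matrix (Fin 2) (Fin 2) ℝ) α β
      = ∑ h, rootM w α h * rootM w β h := fun α β => by
    fin_cases α <;> fin_cases β <;> simp [rootM, Fin.sum_univ_two]
    · exact e1.symm
    · field_simp
    · field_simp
    · rw [e2, div_mul_div_comm, e1, ← add_div, eq_div_iff h0.ne', wdet]; ring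
  ext ⟨α, i⟩ ⟨β, j⟩
  rw [mul_apply, Fintype.sum_prod_type]
  simp only [gram, chol6, of_apply, transpose_apply, hm, ite_mul, zero_mul, mul_ite, mul_zero,
    Finset.sum_ite_eq, Finset.mem_univ, if_true]
  by_cases hij : i = j
  · subst hij; simp
  · simp [hij, Ne.symm hij]

theorem row_lift7 (X : M6) (a : Fin 7) : lift7 X 0 a = if a = 0 then 1 else 0 := by
  obtain rfl | ⟨α, i, rfl⟩ := eq_zero_or_spi a
  · rw [lift7_zero_zero, if_pos rfl]
  · rw [if_neg (spi_ne_zero α i), show spi α i = idx (α, i) from rfl, lift7_zero_idx]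

theorem differentiableAt_tlog {x : Pt 7} (hx : x ∈ chartOff) : DifferentiableAt ℝ tlog x :=
  ((differentiableAt_rsq hx.1).log (ne_of_gt hx.2)).mul_const (1 / 2)
    |>.congr_of_eventuallyEq (Filter.Eventually.of_forall fun y => by simp [tlog]; ring)

theorem contDiffAt_tlog {x : Pt 7} (hx : x ∈ chartOff) : ContDiffAt ℝ 2 tlog x :=
  ((contDiffOn_rsq.contDiffAt (isOpen_chart.mem_nhds hx.1)).log (ne_of_gt hx.2)).div_const 2

theorem dirDeriv_tlog_lift (X : Pt 7 → M6) {x : Pt 7} (hx : x ∈ chartOff) (p : Fin 7) :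
    dirDeriv tlog (changeFrame baseField (fun y => lift7 (X y)) p x) x
      = if p = 0 then 1 else 0 := by
  rw [dirDeriv_changeFrame, sum_fin7]
  simp [dirDeriv_tlog_zero hx, dirDeriv_tlog_idx hx, row_lift7]

/-- The jet of the model factor in a frame along which `tlog` has derivatives `δ`. -/
theorem frameJet_model {e : Fin 7 → Pt 7 → Pt 7} {s : Set (Pt 7)} (hs : IsOpen s)
    (hsub : s ⊆ chartOff) (he : ∀ y ∈ s, ∀ p, dirDeriv tlog (e p y) y = if p = 0 then 1 else 0)
    {W : ℝ → Fin 3 → ℝ} (hW : ∀ y ∈ s, ContDiffAt ℝ 2 W (tlog y) ∧ W (tlog y) ∈ wPos)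
    {x : Pt 7} (hx : x ∈ s) :
    frameJet e (fun y => lift7 (chol6 (W (tlog y)))) (fun y => lift7 (cholInv6 (W (tlog y)))) x
      = modelAt (W (tlog x), deriv W (tlog x), deriv (deriv W) (tlog x)) := by
  set t := tlog x with ht
  obtain ⟨hWt, hpt⟩ := hW x hx
  have eM : ∀ y : Pt 7, ∀ i j, lift7 (chol6 (W (tlog y))) i j = blk (rootM (W (tlog y))) 1 i j :=
    fun y => lift7_blk fun _ _ => rfl
  have eN : ∀ y : Pt 7, ∀ i j, lift7 (cholInv6 (W (tlog y))) i j = blk (rootN (W (tlog y))) 1 i j :=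
    fun y => lift7_blk fun _ _ => rfl
  -- chain rule for functions of `tlog`
  have chain : ∀ (F : ℝ → ℝ) (F' : ℝ) (y : Pt 7), y ∈ s → HasDerivAt F F' (tlog y) → ∀ p,
      dirDeriv (fun z => F (tlog z)) (e p y) y = if p = 0 then F' else 0 := by
    intro F F' y hy hF p
    have h := (hF.comp_hasFDerivAt y (differentiableAt_tlog (hsub hy)).hasFDerivAt).fderiv
    show fderiv ℝ (F ∘ tlog) y (e p y) = _
    rw [h]
    have := he y hy p
    simp only [dirDeriv] at this
    simp [this]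
  have hblk : ∀ (G : ℝ → Arr 2) (G' : Arr 2) (z : ℝ) (u : ℝ), HasDerivAt G G' u → ∀ i j,
      HasDerivAt (fun u => blk (G u) z i j) (blk G' 0 i j) u := by
    intro G G' z u hG i j
    simp only [blk]
    split_ifs
    · exact hasDerivAt_const u z
    · exact hasDerivAt_const u (0 : ℝ)
    · exact hasDerivAt_const u (0 : ℝ)
    · exact hasDerivAt_pi.1 (hasDerivAt_pi.1 hG _) _
    · exact hasDerivAt_const u (0 : ℝ)
  -- the derivative of the inverse
  have hN' : HasDerivAt (fun u => rootN (W u))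
      (fun α β => -mul2 (mul2 (rootN (W t)) (rootD (W t) (deriv W t))) (rootN (W t)) α β) t := by
    have hNd : DifferentiableAt ℝ (fun u => rootN (W u)) t :=
      ((contDiffOn_rootN.contDiffAt (isOpen_wPos.mem_nhds hpt)).differentiableAt (by norm_num)).comp t
        (hWt.differentiableAt (by norm_num))
    refine hNd.hasDerivAt.congr_deriv ?_
    set D := deriv (fun u => rootN (W u)) t with hD
    have hM' := hasDerivAt_rootM hWt hpt
    have hprod : ∀ α β, ∑ h, (D α h * rootM (W t) h β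
        + rootN (W t) α h * rootD (W t) (deriv W t) h β) = 0 := by
      intro α β
      have h1 : HasDerivAt (fun u => mul2 (rootN (W u)) (rootM (W u)) α β)
          (∑ h, (D α h * rootM (W t) h β + rootN (W t) α h * rootD (W t) (deriv W t) h β)) t :=
        HasDerivAt.fun_sum fun h _ =>
          (hasDerivAt_pi.1 (hasDerivAt_pi.1 hNd.hasDerivAt α) h).mul
            (hasDerivAt_pi.1 (hasDerivAt_pi.1 hM' h) β)
      refine h1.unique ((hasDerivAt_const t (if α = β then (1 : ℝ) else 0)).congr_of_eventuallyEq ?_)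
      filter_upwards [hWt.continuousAt.preimage_mem_nhds (isOpen_wPos.mem_nhds hpt)] with u hu
      exact congrFun (congrFun (rootN_mul hu) α) β
    let cM : Matrix (Fin 2) (Fin 2) ℝ := Matrix.of (rootM (W t))
    let cN : Matrix (Fin 2) (Fin 2) ℝ := Matrix.of (rootN (W t))
    let dD : Matrix (Fin 2) (Fin 2) ℝ := Matrix.of D
    let dR : Matrix (Fin 2) (Fin 2) ℝ := Matrix.of (rootD (W t) (deriv W t))
    have hNM : cN * cM = 1 := by
      ext α β
      rw [mul_apply, one_apply]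
      exact congrFun (congrFun (rootN_mul hpt) α) β
    have h0 : dD * cM + cN * dR = 0 := by
      ext α β
      have := hprod α β
      rw [Finset.sum_add_distrib] at this
      simpa [mul_apply, cM, cN, dD, dR] using this
    have hMN : cM * cN = 1 := mul_eq_one_comm.1 hNM
    have hfin : dD = -(cN * dR * cN) := by
      calc dD = dD * (cM * cN) := by rw [hMN, Matrix.mul_one]
        _ = (dD * cM) * cN := by rw [Matrix.mul_assoc]
        _ = _ := by rw [eq_neg_of_add_eq_zero_left h0, Matrix.neg_mul]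
    funext α β
    have := congrFun (congrFun hfin α) β
    simpa [mul_apply, mul2, cN, dD, dR] using this
  simp only [frameJet, modelAt, modelJet, Prod.mk.injEq]
  refine ⟨?_, ?_, ?_, ?_, ?_⟩
  · funext i j; exact eM x i j
  · funext i j; exact eN x i j
  · funext p i j
    rw [show (fun y => lift7 (chol6 (W (tlog y))) i j) = fun y => blk (rootM (W (tlog y))) 1 i j from
      funext fun y => eM y i j, chain (fun u => blk (rootM (W u)) 1 i j) _ x hx
        (hblk _ _ 1 t (hasDerivAt_rootM hWt hpt) i j) p]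
    by_cases hp : p = 0 <;> simp [hp]
  · funext p i j
    rw [show (fun y => lift7 (cholInv6 (W (tlog y))) i j) = fun y => blk (rootN (W (tlog y))) 1 i j
      from funext fun y => eN y i j, chain (fun u => blk (rootN (W u)) 1 i j) _ x hx
        (hblk _ _ 1 t hN' i j) p]
    by_cases hp : p = 0 <;> simp [hp]
  · funext r p i j
    have hfirst : ∀ y ∈ s, dirDeriv (fun z => lift7 (chol6 (W (tlog z))) i j) (e p y) y
        = if p = 0 then blk (rootD (W (tlog y)) (deriv W (tlog y))) 0 i j else 0 := fun y hy => by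
      rw [show (fun y => lift7 (chol6 (W (tlog y))) i j) = fun y => blk (rootM (W (tlog y))) 1 i j from
        funext fun y => eM y i j]
      exact chain (fun u => blk (rootM (W u)) 1 i j) _ y hy
        (hblk _ _ 1 _ (hasDerivAt_rootM (hW y hy).1 (hW y hy).2) i j) p
    rw [dirDeriv_congr hs hx hfirst]
    by_cases hp : p = 0
    · subst hp
      simp only [if_true]
      rw [chain (fun u => blk (rootD (W u) (deriv W u)) 0 i j) _ x hx
        (hblk _ _ 0 t (hasDerivAt_rootD hWt hpt) i j) r]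
      by_cases hr : r = 0 <;> simp [hr]
    · simp [hp, dirDeriv]

/-- The form of a model. -/
theorem modelForm (z : (Fin 3 → ℝ) × (Fin 3 → ℝ) × (Fin 3 → ℝ)) (w : Fin 7 → ℝ) :
    ∑ b, ∑ d, coneJ (modelAt z) b d * w b * w d
      = coneJ (modelAt z) 0 0 * w 0 ^ 2
        + ∑ i, ∑ α, ∑ β, tanAt z α β * w (spi α i) * w (spi β i) := by
  have hzz : ∀ α i, coneJ (modelAt z) 0 (spi α i) = 0 ∧ coneJ (modelAt z) (spi α i) 0 = 0 :=
    fun α i => by simp [modelAt, coneJ_model]
  have hne : ∀ α β, ∀ i j : Fin 3, i ≠ j → coneJ (modelAt z) (spi α i) (spi β j) = 0 :=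
    fun α β i j hij => by simp [modelAt, coneJ_model, hij]
  simp only [sum_split, fun α i => (hzz α i).1, fun α i => (hzz α i).2, zero_mul,
    Finset.sum_const_zero, add_zero, zero_add]
  rw [sq, ← mul_assoc]
  congr 1
  rw [Finset.sum_comm]
  refine Finset.sum_congr rfl fun i _ => Finset.sum_congr rfl fun α _ =>
    Finset.sum_congr rfl fun β _ => ?_
  rw [Finset.sum_eq_single i (fun j _ hj => by rw [hne α β i j (Ne.symm hj)]; ring)
    (fun h => absurd (Finset.mem_univ i) h), tanAt_eq]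

/-- Ricci nonnegativity of a changed and rescaled frame, through the jet of the change. -/
theorem rescaled_ricci_nonneg {g gf : MetricField 7} {s : Set (Pt 7)} {f : Fin 7 → Pt 7 → Pt 7}
    (hF : IsFrame gf s f fun a b c _ => baseStruct a b c)
    {M N : Pt 7 → Matrix (Fin 7) (Fin 7) ℝ} (hM : ∀ i j, ContDiffOn ℝ 2 (fun y => M y i j) s)
    (hN : ∀ i j, ContDiffOn ℝ 2 (fun y => N y i j) s) (hNM : ∀ y ∈ s, N y * M y = 1)
    (hrow : ∀ y ∈ s, ∀ a, M y 0 a = if a = 0 then 1 else 0)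
    {ρ : Pt 7 → ℝ} (hρ : ContDiffOn ℝ 2 ρ s) (hne : ∀ y ∈ s, ρ y ≠ 0)
    (hd0 : ∀ y ∈ s, ∀ p, dirDeriv ρ (f p y) y = -ρ y * if p = 0 then 1 else 0)
    {eG : Fin 7 → Pt 7 → Pt 7} {cG : Fin 7 → Fin 7 → Fin 7 → Pt 7 → ℝ}
    (hG : IsFrame g s eG cG) (he : ∀ y ∈ s, ∀ a, eG a y = ρ y • changeFrame f M a y)
    {x : Pt 7} (hx : x ∈ s)
    (hpsd : ∀ w : Fin 7 → ℝ, 0 ≤ ∑ b, ∑ d, coneJ (frameJet f M N x) b d * w b * w d)
    (v : Pt 7) : 0 ≤ ∑ j, ∑ l, ricci g j l x * v j * v l := by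
  have hd : ∀ y ∈ s, ∀ a, dirDeriv ρ (changeFrame f M a y) y
      = -ρ y * if a = 0 then 1 else 0 := fun y hy a => by
    rw [dirDeriv_changeFrame]
    simp [hd0 y hy, hrow y hy, ite_mul]
    split_ifs <;> simp
  have h1 := hF.changeFrame hM hN hNM
  have h2 := h1.conformal hρ hne hd
  have h3 := h2.congr_metric fun y hy => (h2.metric_unique hG hy fun a => (he y hy a).symm).symm
  refine h3.ricci_nonneg hx (fun w => ?_) v
  have key : ∀ b d, frameRicci (fun a y => ρ y • changeFrame f M a y)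
      (confStruct (changeStruct f (fun a b c _ => baseStruct a b c) M N)
        (fun a => if a = 0 then 1 else 0) ρ) b d x
      = ρ x ^ 2 * coneJ (frameJet f M N x) b d := fun b d => by
    rw [h1.frameRicci_conformal hx hρ hd b d, hF.frameRicci_jet hx hM hN b d]
    have hc : ∀ p q r, frameConn (changeStruct f (fun a b c _ => baseStruct a b c) M N) p q r x
        = FrameJet.connJ baseStruct (frameJet f M N x) p q r := fun p q r => by
      simp only [frameConn, changeStruct_eq_structJ, FrameJet.connJ]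
    simp only [hc, coneJ, mul_ite, mul_one, mul_zero, ite_mul, zero_mul, one_mul, ite_pow, ne_eq,
      OfNat.ofNat_ne_zero, not_false_eq_true, zero_pow, one_pow, Finset.sum_ite_eq',
      Finset.mem_univ, if_true, Nat.cast_ofNat]
    split_ifs <;> ring
  simp only [key, mul_assoc, ← Finset.mul_sum]
  refine mul_nonneg (sq_nonneg _) ?_
  simpa only [mul_assoc] using hpsd w

/-- Reduction of the Ricci tensor of a warped metric to the jet of the small factor and the jet of
the model. -/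
theorem warp_ricci_reduce {P : ℝ → Sph → M6} {s : Set (Pt 7)} {A B E E' : Pt 7 → M6}
    {W : ℝ → Fin 3 → ℝ} (hs : IsOpen s) (hsub : s ⊆ chartOff)
    (hA : ∀ p q, ContDiffOn ℝ 2 (fun y => A y p q) s)
    (hB : ∀ p q, ContDiffOn ℝ 2 (fun y => B y p q) s)
    (hE : ∀ p q, ContDiffOn ℝ 2 (fun y => E y p q) s)
    (hE' : ∀ p q, ContDiffOn ℝ 2 (fun y => E' y p q) s)
    (hBA : ∀ y ∈ s, B y * A y = 1) (hEE : ∀ y ∈ s, (1 + E' y) * (1 + E y) = 1)
    (hbr : ∀ y ∈ s, ∀ a b f, changeStruct baseField (fun p q r _ => baseStruct p q r)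
        (fun z => lift7 (A z)) (fun z => lift7 (B z)) a b f y = baseStruct a b f)
    (hW : ∀ y ∈ s, ContDiffAt ℝ 2 W (tlog y) ∧ W (tlog y) ∈ wPos)
    (hP : ∀ y ∈ s, P (tlog y) (sph y)
      = A y * (1 + E y) * gram (W (tlog y)) * (1 + E y)ᵀ * (A y)ᵀ)
    {x : Pt 7} (hx : x ∈ s)
    (hpsd : ∀ w : Fin 7 → ℝ, 0 ≤ ∑ b, ∑ d, coneJ (FrameJet.mul
      (frameJet (changeFrame baseField fun z => lift7 (A z)) (fun z => lift7 (1 + E z))
        (fun z => lift7 (1 + E' z)) x)
      (modelAt (W (tlog x), deriv W (tlog x), deriv (deriv W) (tlog x)))) b d * w b * w d)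
    (v : Pt 7) : 0 ≤ ∑ j, ∑ l, ricci (warpMetric P) j l x * v j * v l := by
  set f := changeFrame baseField (fun y => lift7 (A y)) with hf
  -- smoothness of the factors
  have hE1 : ∀ F : Pt 7 → M6, (∀ p q, ContDiffOn ℝ 2 (fun y => F y p q) s) → ∀ i j,
      ContDiffOn ℝ 2 (fun y => lift7 (1 + F y) i j) s := fun F hF i j =>
    contDiffOn_lift7 (fun p q => by
      simp only [Matrix.add_apply]; exact contDiffOn_const.add (hF p q)) i j
  have hWs : ∀ G : (Fin 3 → ℝ) → Arr 2, ContDiffOn ℝ 2 G wPos → ∀ α β,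
      ContDiffOn ℝ 2 (fun y => G (W (tlog y)) α β) s := fun G hG α β y hy => by
    have h1 := ((hG.contDiffAt (isOpen_wPos.mem_nhds (hW y hy).2)).comp (tlog y) (hW y hy).1).comp y
      (contDiffAt_tlog (hsub hy))
    exact (contDiffAt_pi.1 (contDiffAt_pi.1 h1 α) β).contDiffWithinAt
  have hC : ∀ G : (Fin 3 → ℝ) → Arr 2, ContDiffOn ℝ 2 G wPos → ∀ p q : Fin 2 × Fin 3,
      ContDiffOn ℝ 2
        (fun y => (if p.2 = q.2 then G (W (tlog y)) p.1 q.1 else 0 : ℝ)) s := fun G hG p q => by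
    by_cases h : p.2 = q.2
    · simpa only [if_pos h] using hWs G hG p.1 q.1
    · simpa only [if_neg h] using contDiffOn_const
  have hCM : ∀ i j, ContDiffOn ℝ 2 (fun y => lift7 (chol6 (W (tlog y))) i j) s :=
    contDiffOn_lift7 (hC rootM contDiffOn_rootM)
  have hCN : ∀ i j, ContDiffOn ℝ 2 (fun y => lift7 (cholInv6 (W (tlog y))) i j) s :=
    contDiffOn_lift7 (hC rootN contDiffOn_rootN)
  -- the frame of the isometry
  have hb : IsFrame baseMetric s baseField fun a b f _ => baseStruct a b f :=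
    isFrame_base.mono hs hsub
  have hF := (hb.changeFrame (fun i j => contDiffOn_lift7 hA i j) (fun i j => contDiffOn_lift7 hB i j)
    (fun y hy => by rw [lift7_mul, hBA y hy, lift7_one])).congr_struct hbr
  -- the second change of frame and the rescaling
  set M2 := fun y => lift7 (1 + E y) * lift7 (chol6 (W (tlog y))) with hM2
  set N2 := fun y => lift7 (cholInv6 (W (tlog y))) * lift7 (1 + E' y) with hN2
  have hM2s : ∀ i j, ContDiffOn ℝ 2 (fun y => M2 y i j) s := fun i j => by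
    simp only [hM2, mul_apply]
    exact ContDiffOn.sum fun m _ => (hE1 E hE i m).mul (hCM m j)
  have hN2s : ∀ i j, ContDiffOn ℝ 2 (fun y => N2 y i j) s := fun i j => by
    simp only [hN2, mul_apply]
    exact ContDiffOn.sum fun m _ => (hCN i m).mul (hE1 E' hE' m j)
  have hNM2 : ∀ y ∈ s, N2 y * M2 y = 1 := fun y hy => by
    simp only [hM2, hN2, lift7_mul, Matrix.mul_assoc, ← Matrix.mul_assoc (1 + E' y), hEE y hy,
      Matrix.one_mul, cholInv6_mul (hW y hy).2, lift7_one]
  have hρ : ContDiffOn ℝ 2 (fun y => (rad y)⁻¹) s := fun y hy =>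
    ((((contDiffOn_rsq.contDiffAt (isOpen_chart.mem_nhds (hsub hy).1)).sqrt
      (ne_of_gt (hsub hy).2)).inv (Real.sqrt_pos.2 (hsub hy).2).ne')).contDiffWithinAt
  have hne : ∀ y ∈ s, (rad y)⁻¹ ≠ 0 := fun y hy =>
    inv_ne_zero (Real.sqrt_pos.2 (hsub hy).2).ne'
  have hd0 : ∀ y ∈ s, ∀ p, dirDeriv (fun y => (rad y)⁻¹) (f p y) y
      = -(rad y)⁻¹ * if p = 0 then 1 else 0 := fun y hy p => by
    rw [hf, dirDeriv_changeFrame]
    simp [dirDeriv_inv_rad (hsub hy), row_lift7, ite_mul]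
    split_ifs <;> simp
  -- the warped metric has the same frame
  set Mb := fun y => A y * ((1 + E y) * chol6 (W (tlog y))) with hMb
  set Nb := fun y => cholInv6 (W (tlog y)) * (1 + E' y) * B y with hNb
  have hsm : ∀ p q, ContDiffOn ℝ 2 (fun y => (A y * ((1 + E y) * chol6 (W (tlog y)))) p q) s :=
    fun p q => by
      simp only [mul_apply, Matrix.add_apply]
      exact ContDiffOn.sum fun m _ => (hA p m).mul (ContDiffOn.sum fun m' _ =>
        (contDiffOn_const.add (hE m m')).mul (hC rootM contDiffOn_rootM m' q))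
  have hsn : ∀ p q, ContDiffOn ℝ 2 (fun y => (cholInv6 (W (tlog y)) * (1 + E' y) * B y) p q) s :=
    fun p q => by
      simp only [mul_apply, Matrix.add_apply]
      exact ContDiffOn.sum fun m _ => (ContDiffOn.sum fun m' _ =>
        (hC rootN contDiffOn_rootN p m').mul (contDiffOn_const.add (hE' m' m))).mul (hB m q)
  have hloc : WarpLocal P s Mb Nb :=
    { isOpen := hs
      subset := hsub
      smooth_M := hsm
      smooth_N := hsn
      inv := fun y hy => by
        simp only [hMb, hNb, Matrix.mul_assoc, ← Matrix.mul_assoc (B y), hBA y hy, Matrix.one_mul,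
          ← Matrix.mul_assoc (1 + E' y), hEE y hy, cholInv6_mul (hW y hy).2]
      sqrt := fun y hy => by
        simp only [hMb, hP y hy, gram_eq_chol (hW y hy).2, transpose_mul, Matrix.mul_assoc] }
  refine rescaled_ricci_nonneg hF hM2s hN2s hNM2
    (fun y _ a => by simp only [hM2, lift7_mul, row_lift7]) hρ hne hd0 hloc.isFrame
    (fun y hy a => ?_) hx ?_ v
  · funext i
    simp only [Pi.smul_apply, smul_eq_mul, hf, changeFrame, WarpLocal.frameM, Matrix.smul_apply,
      hMb, ← lift7_mul, hM2, mul_apply (M := lift7 (A y)), rad, Finset.mul_sum, Finset.sum_mul]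
    rw [Finset.sum_comm]
    exact Finset.sum_congr rfl fun p _ => Finset.sum_congr rfl fun q _ => by ring
  have hmul : frameJet f M2 N2 x = FrameJet.mul
      (frameJet f (fun y => lift7 (1 + E y)) (fun y => lift7 (1 + E' y)) x)
      (modelAt (W (tlog x), deriv W (tlog x), deriv (deriv W) (tlog x))) := by
    rw [← frameJet_model hs hsub
      (fun y hy p => dirDeriv_tlog_lift A (hsub hy) p) hW hx]
    exact frameJet_mul hF hx (hE1 E hE) (hE1 E' hE') hCM hCN
  intro w
  rw [hmul]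
  exact hpsd w

/-- The Ricci criterion on the end. -/
theorem warp_ricci_nonneg : ∃ L δ : ℝ, 0 < δ ∧ 0 ≤ L ∧
    ∀ (P : ℝ → Sph → M6) (s : Set (Pt 7)) (A B E E' : Pt 7 → M6) (W : ℝ → Fin 3 → ℝ),
    IsOpen s → s ⊆ chartOff →
    (∀ p q, ContDiffOn ℝ 2 (fun y => A y p q) s) → (∀ p q, ContDiffOn ℝ 2 (fun y => B y p q) s) →
    (∀ p q, ContDiffOn ℝ 2 (fun y => E y p q) s) → (∀ p q, ContDiffOn ℝ 2 (fun y => E' y p q) s) →
    (∀ y ∈ s, B y * A y = 1) → (∀ y ∈ s, (1 + E' y) * (1 + E y) = 1) →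
    (∀ y ∈ s, ∀ a b f, changeStruct baseField (fun p q r _ => baseStruct p q r)
        (fun z => lift7 (A z)) (fun z => lift7 (B z)) a b f y = baseStruct a b f) →
    (∀ y ∈ s, ContDiffAt ℝ 2 W (tlog y) ∧ W (tlog y) ∈ wPos) →
    (∀ y ∈ s, P (tlog y) (sph y)
      = A y * (1 + E y) * gram (W (tlog y)) * (1 + E y)ᵀ * (A y)ᵀ) →
    ∀ x ∈ s, ∀ k ∈ pathSet, ‖W (tlog x) - k‖ ≤ δ → ‖deriv W (tlog x)‖ ≤ δ →
    ‖deriv (deriv W) (tlog x)‖ ≤ δ →
    ∀ ε : ℝ, ε ≤ δ →
    ‖frameJet (changeFrame baseField fun z => lift7 (A z)) (fun z => lift7 (1 + E z))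
        (fun z => lift7 (1 + E' z)) x - FrameJet.one‖ ≤ ε →
    L * ε ≤ radOf W (tlog x) →
    ∀ v : Pt 7, 0 ≤ ∑ j, ∑ l, ricci (warpMetric P) j l x * v j * v l := by
  obtain ⟨δ₁, hδ₁, hpos⟩ := tanAt_pos
  have hK : IsCompact
      ((fun w : Fin 3 → ℝ => (w, ((0 : Fin 3 → ℝ), (0 : Fin 3 → ℝ)))) '' pathSet) :=
    isCompact_pathSet.image (continuous_id.prodMk continuous_const)
  have hopen : IsOpen (wPos ×ˢ (univ : Set ((Fin 3 → ℝ) × (Fin 3 → ℝ)))) :=
    isOpen_wPos.prod isOpen_univ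
  obtain ⟨δ₂, hδ₂, hth⟩ := hK.exists_cthickening_subset_open hopen (by
    rintro _ ⟨w, hw, rfl⟩; exact ⟨pathSet_subset hw, trivial⟩)
  obtain ⟨R₀, hR₀⟩ := hK.cthickening.exists_bound_of_continuousOn (continuousOn_modelAt.mono hth)
  set R := max R₀ (‖(FrameJet.one : FrameJet 7)‖ + 1) with hR
  obtain ⟨L, hL0, hL⟩ := coneJ_lipschitz R
  refine ⟨49 * L, min (min δ₁ δ₂) (min 1 (1 / (1000 * (49 * L + 1)))),
    lt_min (lt_min hδ₁ hδ₂) (lt_min one_pos (by positivity)), by positivity, ?_⟩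
  intro P s A B E E' W hs hsub hA hB hE hE' hBA hEE hbr hW hP x hx k hk hwk hw1 hw2 ε hε hjet hrad
  set δ := min (min δ₁ δ₂) (min 1 (1 / (1000 * (49 * L + 1)))) with hδ
  have hδ1 : δ ≤ δ₁ := (min_le_left _ _).trans (min_le_left _ _)
  have hδ2 : δ ≤ δ₂ := (min_le_left _ _).trans (min_le_right _ _)
  have hε0 : 0 ≤ ε := (norm_nonneg _).trans hjet
  have hε1 : ε ≤ 1 := hε.trans ((min_le_right _ _).trans (min_le_left _ _))
  have hεs : ε * (1000 * (49 * L + 1)) ≤ 1 := by
    rw [← le_div_iff₀ (by positivity)]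
    exact hε.trans ((min_le_right _ _).trans (min_le_right _ _))
  set t := tlog x with ht
  set z := (W t, (deriv W t, deriv (deriv W) t)) with hz
  obtain ⟨-, hTan⟩ := hpos k hk (W t) (deriv W t) (deriv (deriv W) t)
    (hwk.trans hδ1) (hw1.trans hδ1) (hw2.trans hδ1)
  -- the jets are bounded
  have hzR : ‖modelAt z‖ ≤ R := by
    refine (hR₀ z (Metric.mem_cthickening_of_dist_le _ (k, ((0 : Fin 3 → ℝ), (0 : Fin 3 → ℝ))) _ _
      ⟨k, hk, rfl⟩ ?_)).trans (le_max_left _ _)
    simp only [hz, Prod.dist_eq, dist_zero_right]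
    exact max_le ((dist_eq_norm _ _).trans_le (hwk.trans hδ2))
      (max_le (hw1.trans hδ2) (hw2.trans hδ2))
  set f := changeFrame baseField (fun y => lift7 (A y)) with hf
  set JE := frameJet f (fun y => lift7 (1 + E y)) (fun y => lift7 (1 + E' y)) x with hJE
  have hER : ‖JE‖ ≤ R := by
    have := norm_le_insert' JE FrameJet.one
    exact (this.trans (by linarith)).trans (le_max_right _ _)
  intro v
  refine warp_ricci_reduce hs hsub hA hB hE hE' hBA hEE hbr hW hP hx (fun w => ?_) v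
  have hnear := fun b d => hL JE (modelAt z) hER hzR
    ((le_add_of_nonneg_right zero_le_one).trans (le_max_right _ _)) b d
  have hform := modelForm z w
  rw [show coneJ (modelAt z) 0 0 = radOf W t from rad_modelAt (hW x hx).1 (hW x hx).2] at hform
  have htan : ∀ i, 1 / 1000 * (w (spi 0 i) ^ 2 + w (spi 1 i) ^ 2)
      ≤ ∑ α, ∑ β, tanAt z α β * w (spi α i) * w (spi β i) := fun i =>
    hTan fun α => w (spi α i)
  have hsq : ∑ b, w b ^ 2 = w 0 ^ 2 + ∑ i, (w (spi 0 i) ^ 2 + w (spi 1 i) ^ 2) := by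
    rw [sum_split, Fin.sum_univ_two, Finset.sum_add_distrib]
  have hdiff : -(7 * L * ε * ∑ b, w b ^ 2)
      ≤ ∑ b, ∑ d, (coneJ (FrameJet.mul JE (modelAt z)) b d - coneJ (modelAt z) b d) * w b * w d := by
    have h7 : ∑ _b : Fin 7, ∑ d, L * ε * (w _b ^ 2 + w d ^ 2) / 2 = 7 * L * ε * ∑ b, w b ^ 2 := by
      simp only [Finset.sum_add_distrib, mul_add, add_div, Finset.sum_const, Finset.card_univ,
        Fintype.card_fin, nsmul_eq_mul, Finset.mul_sum, Finset.sum_div]
      rw [← Finset.sum_add_distrib]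
      exact Finset.sum_congr rfl fun b _ => by push_cast; ring
    rw [← h7, ← Finset.sum_neg_distrib]
    refine Finset.sum_le_sum fun b _ => ?_
    rw [← Finset.sum_neg_distrib]
    refine Finset.sum_le_sum fun d _ => ?_
    have hb' := (hnear b d).trans (mul_le_mul_of_nonneg_left hjet hL0)
    set D := coneJ (FrameJet.mul JE (modelAt z)) b d - coneJ (modelAt z) b d
    have h3 : |D * w b * w d| ≤ L * ε * ((w b ^ 2 + w d ^ 2) / 2) := by
      rw [mul_assoc, abs_mul]
      refine mul_le_mul hb' ?_ (abs_nonneg _) (by positivity)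
      rw [abs_mul]
      nlinarith [sq_abs (w b), sq_abs (w d), sq_nonneg (|w b| - |w d|)]
    nlinarith [neg_abs_le (D * w b * w d)]
  simp only [sub_mul, Finset.sum_sub_distrib] at hdiff
  have hti : ∑ i, 1 / 1000 * (w (spi 0 i) ^ 2 + w (spi 1 i) ^ 2)
      ≤ ∑ i, ∑ α, ∑ β, tanAt z α β * w (spi α i) * w (spi β i) :=
    Finset.sum_le_sum fun i _ => htan i
  rw [← Finset.mul_sum] at hti
  have hS : 0 ≤ ∑ i, (w (spi 0 i) ^ 2 + w (spi 1 i) ^ 2) :=
    Finset.sum_nonneg fun i _ => by positivity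
  nlinarith [mul_nonneg hε0 hL0, sq_nonneg (w 0), mul_nonneg (sub_nonneg.2 hrad) (sq_nonneg (w 0)),
    mul_nonneg (mul_nonneg hε0 hL0) (sq_nonneg (w 0)), mul_nonneg (mul_nonneg hε0 hL0) hS]

end

end Vale.Agent.P225
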