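import Vale.Agent.P225.Defs

/-!
P225: the coordinate Ricci tensor and Laplacian evaluated in an orthonormal frame.
The structure functions of the frame may vary from point to point.
-/

namespace Vale.Agent.P225

open scoped BigOperators
open Set Matrix

noncomputable section

variable {n : ℕ} {g : MetricField n} {s : Set (Pt n)} {e : Fin n → Pt n → Pt n}
  {c : Fin n → Fin n → Fin n → Pt n → ℝ} {x : Pt n}

/-- The derivative of `f` along the vector `v`. -/
def dirDeriv (f : Pt n → ℝ) (v : Pt n) (x : Pt n) : ℝ := fderiv ℝ f x v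

theorem dirDeriv_eq_sum (f : Pt n → ℝ) (v : Pt n) (x : Pt n) :
    dirDeriv f v x = ∑ i, v i * pd f i x := by
  conv_lhs => rw [dirDeriv, pi_eq_sum_univ' v]
  simp [pd, map_sum]

theorem dirDeriv_mul {f h : Pt n → ℝ} (hf : DifferentiableAt ℝ f x) (hh : DifferentiableAt ℝ h x)
    (v : Pt n) :
    dirDeriv (fun y => f y * h y) v x = dirDeriv f v x * h x + f x * dirDeriv h v x := by
  simp only [dirDeriv, fderiv_fun_mul hf hh, _root_.add_apply,
    _root_.smul_apply, smul_eq_mul]
  ring

theorem dirDeriv_sum {ι : Type*} [Fintype ι] {f : ι → Pt n → ℝ}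
    (hf : ∀ i, DifferentiableAt ℝ (f i) x) (v : Pt n) :
    dirDeriv (fun y => ∑ i, f i y) v x = ∑ i, dirDeriv (f i) v x := by
  simp only [dirDeriv]
  rw [fderiv_fun_sum fun i _ => hf i]
  simp

theorem dirDeriv_congr (hs : IsOpen s) (hx : x ∈ s) {f h : Pt n → ℝ} (hfh : EqOn f h s)
    (v : Pt n) : dirDeriv f v x = dirDeriv h v x := by
  simp only [dirDeriv, (hfh.eventuallyEq_of_mem (hs.mem_nhds hx)).fderiv_eq]

/-- An orthonormal frame of `g` on the open set `s`, with its structure functions. -/
structure IsFrame (g : MetricField n) (s : Set (Pt n)) (e : Fin n → Pt n → Pt n)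
    (c : Fin n → Fin n → Fin n → Pt n → ℝ) : Prop where
  isOpen : IsOpen s
  smooth_g : ∀ i j, ContDiffOn ℝ 2 (fun y => g y i j) s
  posDef : ∀ y ∈ s, (g y).PosDef
  smooth_e : ∀ a k, ContDiffOn ℝ 2 (fun y => e a y k) s
  smooth_c : ∀ a b d, ContDiffOn ℝ 1 (c a b d) s
  ortho : ∀ y ∈ s, ∀ a b, ∑ j, ∑ l, g y j l * e a y j * e b y l = if a = b then 1 else 0
  bracket : ∀ y ∈ s, ∀ a b k, dirDeriv (fun z => e b z k) (e a y) y
    - dirDeriv (fun z => e a z k) (e b y) y = ∑ f, c a b f y * e f y k

/-- The connection coefficients of the frame (Koszul formula). -/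
def frameConn (c : Fin n → Fin n → Fin n → Pt n → ℝ) (a b d : Fin n) (x : Pt n) : ℝ :=
  (c a b d x - c b d a x + c d a b x) / 2

/-- The Ricci tensor computed from the structure functions. -/
def frameRicci (e : Fin n → Pt n → Pt n) (c : Fin n → Fin n → Fin n → Pt n → ℝ)
    (b d : Fin n) (x : Pt n) : ℝ :=
  ∑ a, (dirDeriv (frameConn c b d a) (e a x) x - dirDeriv (frameConn c a d a) (e b x) x
    + ∑ f, (frameConn c b d f x * frameConn c a f a x - frameConn c a d f x * frameConn c b f a x
      - c a b f x * frameConn c f d a x))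

/-- The frame covector `g(e a, ·)`. -/
def coframe (g : MetricField n) (e : Fin n → Pt n → Pt n) (a : Fin n) (k : Fin n) (x : Pt n) : ℝ :=
  ∑ m, e a x m * g x m k

/-- The covariant derivative `∇_{e a} e b` in coordinates. -/
def covFrame (g : MetricField n) (e : Fin n → Pt n → Pt n) (a b k : Fin n) (x : Pt n) : ℝ :=
  ∑ i, e a x i * pd (fun z => e b z k) i x
    + ∑ i, ∑ j, christoffel g k i j x * e a x i * e b x j

theorem IsFrame.symm (h : IsFrame g s e c) (hx : x ∈ s) (i j : Fin n) : g x i j = g x j i := by
  have := congrFun₂ (h.posDef x hx).isHermitian.eq j i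
  simpa using this

theorem IsFrame.pd_g_symm (h : IsFrame g s e c) (hx : x ∈ s) (i j m : Fin n) :
    pd (fun y => g y i j) m x = pd (fun y => g y j i) m x :=
  dirDeriv_congr h.isOpen hx (fun _ hy => h.symm hy i j) _

theorem IsFrame.christoffel_symm (h : IsFrame g s e c) (hx : x ∈ s) (k i j : Fin n) :
    christoffel g k i j x = christoffel g k j i x := by
  refine Finset.sum_congr rfl fun l _ => ?_
  rw [h.pd_g_symm hx i j l]
  ring

theorem IsFrame.isUnit_det (h : IsFrame g s e c) (hx : x ∈ s) : IsUnit (g x).det :=
  (h.posDef x hx).det_pos.ne'.isUnit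

theorem IsFrame.christoffel_lower (h : IsFrame g s e c) (hx : x ∈ s) (l i j : Fin n) :
    ∑ p, g x l p * christoffel g p i j x = (pd (fun y => g y j l) i x
      + pd (fun y => g y i l) j x - pd (fun y => g y i j) l x) / 2 := by
  have hmul := mul_nonsing_inv (g x) (h.isUnit_det hx)
  simp only [christoffel, Finset.mul_sum]
  rw [Finset.sum_comm, Finset.sum_eq_single l]
  · have h1 := congrFun₂ hmul l l
    rw [mul_apply, one_apply_eq] at h1
    simp_rw [← mul_div_assoc, ← mul_assoc, ← Finset.sum_div, ← Finset.sum_mul]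
    rw [h1, one_mul]
  · intro m _ hm
    have h1 := congrFun₂ hmul l m
    rw [mul_apply, one_apply_ne hm.symm] at h1
    simp_rw [← mul_div_assoc, ← mul_assoc, ← Finset.sum_div, ← Finset.sum_mul]
    rw [h1, zero_mul, zero_div]
  · simp

theorem IsFrame.metric_compat (h : IsFrame g s e c) (hx : x ∈ s) (i j l : Fin n) :
    pd (fun y => g y j l) i x = ∑ p, g x l p * christoffel g p i j x
      + ∑ p, g x j p * christoffel g p i l x := by
  rw [h.christoffel_lower hx, h.christoffel_lower hx, h.pd_g_symm hx l j i]
  ring

theorem IsFrame.differentiableAt_e (h : IsFrame g s e c) (hx : x ∈ s) (a k : Fin n) :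
    DifferentiableAt ℝ (fun y => e a y k) x :=
  ((h.smooth_e a k).contDiffAt (h.isOpen.mem_nhds hx)).differentiableAt (by norm_num)

theorem IsFrame.differentiableAt_g (h : IsFrame g s e c) (hx : x ∈ s) (i j : Fin n) :
    DifferentiableAt ℝ (fun y => g y i j) x :=
  ((h.smooth_g i j).contDiffAt (h.isOpen.mem_nhds hx)).differentiableAt (by norm_num)

theorem IsFrame.dual (h : IsFrame g s e c) (hx : x ∈ s) (i k : Fin n) :
    ∑ a, e a x i * coframe g e a k x = if i = k then 1 else 0 := by
  let M : Matrix (Fin n) (Fin n) ℝ := Matrix.of fun i a => e a x i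
  have hM : (Mᵀ * g x) * M = 1 := by
    ext a b
    simp only [mul_apply, transpose_apply, M, of_apply, one_apply, Finset.sum_mul]
    rw [Finset.sum_comm, ← h.ortho x hx a b]
    refine Finset.sum_congr rfl fun j _ => Finset.sum_congr rfl fun l _ => ?_
    ring
  have hM2 : M * (Mᵀ * g x) = 1 := mul_eq_one_comm.1 hM
  have := congrFun₂ hM2 i k
  simpa [mul_apply, one_apply, coframe, M] using this

theorem IsFrame.coframe_apply (h : IsFrame g s e c) (hx : x ∈ s) (a b : Fin n) :
    ∑ k, coframe g e a k x * e b x k = if a = b then 1 else 0 := by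
  rw [← h.ortho x hx a b]
  simp only [coframe, Finset.sum_mul]
  rw [Finset.sum_comm]
  refine Finset.sum_congr rfl fun m _ => Finset.sum_congr rfl fun k _ => ?_
  ring

theorem IsFrame.coframe_expand (h : IsFrame g s e c) (hx : x ∈ s) (w : Fin n → ℝ) (k : Fin n) :
    ∑ a, (∑ m, coframe g e a m x * w m) * e a x k = w k := by
  simp only [Finset.sum_mul]
  rw [Finset.sum_comm]
  have : ∀ m, ∑ a, coframe g e a m x * w m * e a x k = if k = m then w m else 0 := by
    intro m
    rw [show (if k = m then w m else 0) = (if k = m then 1 else 0) * w m by split <;> simp,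
      ← h.dual hx k m, Finset.sum_mul]
    exact Finset.sum_congr rfl fun a _ => by ring
  simp [this]

theorem sum_coframe (g : MetricField n) (e : Fin n → Pt n → Pt n) (d : Fin n) (w : Fin n → ℝ) :
    ∑ k, coframe g e d k x * w k = ∑ j, ∑ k, g x j k * e d x j * w k := by
  simp only [coframe, Finset.sum_mul]
  rw [Finset.sum_comm]
  exact Finset.sum_congr rfl fun j _ => Finset.sum_congr rfl fun k _ => by ring

theorem IsFrame.torsion (h : IsFrame g s e c) (hx : x ∈ s) (a b k : Fin n) :
    covFrame g e a b k x - covFrame g e b a k x = ∑ f, c a b f x * e f x k := by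
  rw [← h.bracket x hx a b k, dirDeriv_eq_sum, dirDeriv_eq_sum]
  have : ∑ i, ∑ j, christoffel g k i j x * e b x i * e a x j
      = ∑ i, ∑ j, christoffel g k i j x * e a x i * e b x j := by
    rw [Finset.sum_comm]
    exact Finset.sum_congr rfl fun i _ => Finset.sum_congr rfl fun j _ => by
      rw [h.christoffel_symm hx k j i]; ring
  simp only [covFrame, this]
  ring

/-- The bilinear form `g` at `x`. -/
def gForm (g : MetricField n) (x : Pt n) (u v : Fin n → ℝ) : ℝ :=
  ∑ j, ∑ l, g x j l * u j * v l

/-- The Christoffel bilinear map. -/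
def gammaMap (g : MetricField n) (x : Pt n) (u v : Fin n → ℝ) (p : Fin n) : ℝ :=
  ∑ i, ∑ j, christoffel g p i j x * u i * v j

theorem sum_swap13 {ι : Type*} [Fintype ι] (F : ι → ι → ι → ℝ) :
    ∑ a, ∑ b, ∑ d, F a b d = ∑ d, ∑ b, ∑ a, F a b d := by
  rw [Finset.sum_comm, Finset.sum_congr rfl fun b _ => Finset.sum_comm, Finset.sum_comm]

theorem sum_swap14 {ι : Type*} [Fintype ι] (F : ι → ι → ι → ι → ℝ) :
    ∑ a, ∑ b, ∑ d, ∑ f, F a b d f = ∑ f, ∑ b, ∑ d, ∑ a, F a b d f := by
  rw [Finset.sum_comm, Finset.sum_congr rfl fun b _ => sum_swap13 (fun a d f => F a b d f),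
    Finset.sum_comm]

theorem gForm_add_left (u u' v : Fin n → ℝ) :
    gForm g x (u + u') v = gForm g x u v + gForm g x u' v := by
  simp [gForm, mul_add, add_mul, Finset.sum_add_distrib]

theorem gForm_add_right (u v v' : Fin n → ℝ) :
    gForm g x u (v + v') = gForm g x u v + gForm g x u v' := by
  simp [gForm, mul_add, Finset.sum_add_distrib]

theorem IsFrame.gForm_comm (h : IsFrame g s e c) (hx : x ∈ s) (u v : Fin n → ℝ) :
    gForm g x u v = gForm g x v u := by
  rw [gForm, Finset.sum_comm, gForm]
  exact Finset.sum_congr rfl fun j _ => Finset.sum_congr rfl fun l _ => by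
    rw [h.symm hx l j]; ring

theorem IsFrame.compat_bilinear (h : IsFrame g s e c) (hx : x ∈ s) (u v w : Fin n → ℝ) :
    ∑ j, ∑ l, dirDeriv (fun y => g y j l) u x * v j * w l
      = gForm g x (gammaMap g x u v) w + gForm g x v (gammaMap g x u w) := by
  simp only [dirDeriv_eq_sum, h.metric_compat hx, gForm, gammaMap, mul_add, Finset.mul_sum,
    Finset.sum_mul, add_mul, Finset.sum_add_distrib]
  congr 1
  · rw [sum_swap14]
    refine Finset.sum_congr rfl fun p _ => Finset.sum_congr rfl fun l _ =>
      Finset.sum_congr rfl fun i _ => Finset.sum_congr rfl fun j _ => ?_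
    rw [h.symm hx l p]
    ring
  · refine Finset.sum_congr rfl fun j _ => ?_
    rw [sum_swap13]
    refine Finset.sum_congr rfl fun p _ => Finset.sum_congr rfl fun i _ =>
      Finset.sum_congr rfl fun l _ => ?_
    ring

theorem covFrame_eq (a b : Fin n) :
    (fun k => covFrame g e a b k x)
      = (fun k => dirDeriv (fun z => e b z k) (e a x) x) + gammaMap g x (e a x) (e b x) := by
  ext k
  simp [covFrame, gammaMap, dirDeriv_eq_sum]

theorem IsFrame.skew (h : IsFrame g s e c) (hx : x ∈ s) (a b d : Fin n) :
    ∑ k, coframe g e d k x * covFrame g e a b k x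
      + ∑ k, coframe g e b k x * covFrame g e a d k x = 0 := by
  have dg := h.differentiableAt_g hx
  have de := h.differentiableAt_e hx
  have hconst : dirDeriv (fun y => ∑ j, ∑ l, g y j l * e b y j * e d y l) (e a x) x = 0 := by
    rw [dirDeriv_congr h.isOpen hx (h := fun _ => if b = d then 1 else 0)
      (fun y hy => h.ortho y hy b d), dirDeriv]
    simp
  rw [dirDeriv_sum (fun j => DifferentiableAt.fun_sum fun l _ =>
    ((dg j l).fun_mul (de b j)).fun_mul (de d l))] at hconst
  have expand : ∀ j, dirDeriv (fun y => ∑ l, g y j l * e b y j * e d y l) (e a x) x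
      = ∑ l, (dirDeriv (fun y => g y j l) (e a x) x * e b x j * e d x l
        + g x j l * dirDeriv (fun y => e b y j) (e a x) x * e d x l
        + g x j l * e b x j * dirDeriv (fun y => e d y l) (e a x) x) := by
    intro j
    rw [dirDeriv_sum (fun l => ((dg j l).fun_mul (de b j)).fun_mul (de d l))]
    refine Finset.sum_congr rfl fun l _ => ?_
    rw [dirDeriv_mul ((dg j l).fun_mul (de b j)) (de d l), dirDeriv_mul (dg j l) (de b j)]
    ring
  rw [Finset.sum_congr rfl fun j _ => expand j] at hconst
  simp only [Finset.sum_add_distrib] at hconst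
  rw [h.compat_bilinear hx] at hconst
  change _ + gForm g x (fun k => dirDeriv (fun z => e b z k) (e a x) x) (e d x)
    + gForm g x (e b x) (fun k => dirDeriv (fun z => e d z k) (e a x) x) = 0 at hconst
  rw [sum_coframe, sum_coframe]
  change gForm g x (e d x) (fun k => covFrame g e a b k x)
    + gForm g x (e b x) (fun k => covFrame g e a d k x) = 0
  rw [covFrame_eq, covFrame_eq, h.gForm_comm hx (e d x), gForm_add_left, gForm_add_right]
  linarith

theorem IsFrame.covFrame_expand (h : IsFrame g s e c) (hx : x ∈ s) (a b k : Fin n) :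
    covFrame g e a b k x = ∑ d, frameConn c a b d x * e d x k := by
  have hA : ∀ a b d, ∑ m, coframe g e d m x * covFrame g e a b m x = frameConn c a b d x := by
    have tor : ∀ a b d, ∑ m, coframe g e d m x * covFrame g e a b m x
        - ∑ m, coframe g e d m x * covFrame g e b a m x = c a b d x := by
      intro a b d
      rw [← Finset.sum_sub_distrib]
      simp only [← mul_sub, h.torsion hx, Finset.mul_sum]
      rw [Finset.sum_comm]
      have : ∀ f, ∑ m, coframe g e d m x * (c a b f x * e f x m)
          = c a b f x * if d = f then 1 else 0 := by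
        intro f
        rw [← h.coframe_apply hx d f, Finset.mul_sum]
        exact Finset.sum_congr rfl fun m _ => by ring
      simp [this]
    intro a b d
    rw [frameConn, ← tor a b d, ← tor b d a, ← tor d a b]
    linarith [h.skew hx a b d, h.skew hx b a d, h.skew hx d a b]
  rw [← h.coframe_expand hx (fun m => covFrame g e a b m x) k]
  exact Finset.sum_congr rfl fun d _ => by rw [hA]

theorem IsFrame.contDiffAt_pd_e (h : IsFrame g s e c) (hx : x ∈ s) (a k i : Fin n) :
    ContDiffAt ℝ 1 (fun y => pd (fun z => e a z k) i y) x := by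
  have h2 := ((h.smooth_e a k).contDiffAt (h.isOpen.mem_nhds hx))
  exact (h2.fderiv_right (m := 1) (by norm_num)).clm_apply contDiffAt_const

theorem IsFrame.contDiffAt_pd_g (h : IsFrame g s e c) (hx : x ∈ s) (i j m : Fin n) :
    ContDiffAt ℝ 1 (fun y => pd (fun z => g z i j) m y) x := by
  have h2 := ((h.smooth_g i j).contDiffAt (h.isOpen.mem_nhds hx))
  exact (h2.fderiv_right (m := 1) (by norm_num)).clm_apply contDiffAt_const

theorem IsFrame.inv_eq (h : IsFrame g s e c) (hx : x ∈ s) (i j : Fin n) :
    (g x)⁻¹ i j = ∑ a, e a x i * e a x j := by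
  let M : Matrix (Fin n) (Fin n) ℝ := Matrix.of fun i a => e a x i
  have hM : (M * Mᵀ) * g x = 1 := by
    ext i k
    rw [one_apply, ← h.dual hx i k]
    simp only [mul_apply, transpose_apply, M, of_apply, coframe, Finset.sum_mul, Finset.mul_sum]
    rw [Finset.sum_comm]
    exact Finset.sum_congr rfl fun a _ => Finset.sum_congr rfl fun m _ => by ring
  rw [inv_eq_left_inv hM]
  simp [mul_apply, M]

theorem IsFrame.contDiffAt_christoffel (h : IsFrame g s e c) (hx : x ∈ s) (k i j : Fin n) :
    ContDiffAt ℝ 1 (christoffel g k i j) x := by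
  have he : ∀ a m, ContDiffAt ℝ 1 (fun y => e a y m) x := fun a m =>
    ((h.smooth_e a m).contDiffAt (h.isOpen.mem_nhds hx)).of_le (by norm_num)
  have main : ContDiffAt ℝ 1 (fun y => ∑ l, (∑ a, e a y k * e a y l) *
      (pd (fun z => g z j l) i y + pd (fun z => g z i l) j y
        - pd (fun z => g z i j) l y) / 2) x :=
    ContDiffAt.sum fun l _ => (((ContDiffAt.sum fun a _ => (he a k).mul (he a l)).mul
      (((h.contDiffAt_pd_g hx j l i).add (h.contDiffAt_pd_g hx i l j)).sub
        (h.contDiffAt_pd_g hx i j l))).div_const 2)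
  refine main.congr_of_eventuallyEq ?_
  filter_upwards [h.isOpen.mem_nhds hx] with y hy
  exact Finset.sum_congr rfl fun l _ => by rw [h.inv_eq hy]

/-- The curvature tensor `R^k_ilj` in coordinates. -/
def riem (g : MetricField n) (k i l j : Fin n) (x : Pt n) : ℝ :=
  pd (christoffel g k l j) i x - pd (christoffel g k i j) l x
    + ∑ p, (christoffel g k i p x * christoffel g p l j x
      - christoffel g k l p x * christoffel g p i j x)

theorem ricci_eq_riem (j l : Fin n) : ricci g j l x = ∑ i, riem g i i l j x := rfl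

theorem gammaMap_add_left (u u' v : Fin n → ℝ) :
    gammaMap g x (u + u') v = gammaMap g x u v + gammaMap g x u' v := by
  ext p; simp [gammaMap, mul_add, add_mul, Finset.sum_add_distrib]

theorem gammaMap_add_right (u v v' : Fin n → ℝ) :
    gammaMap g x u (v + v') = gammaMap g x u v + gammaMap g x u v' := by
  ext p; simp [gammaMap, mul_add, Finset.sum_add_distrib]

theorem gammaMap_sum_smul_left (w : Fin n → ℝ) (u : Fin n → Fin n → ℝ) (v : Fin n → ℝ) (p : Fin n) :
    gammaMap g x (fun i => ∑ f, w f * u f i) v p = ∑ f, w f * gammaMap g x (u f) v p := by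
  simp only [gammaMap, Finset.mul_sum, Finset.sum_mul]
  rw [Finset.sum_congr rfl fun i _ => Finset.sum_comm, Finset.sum_comm]
  exact Finset.sum_congr rfl fun f _ => Finset.sum_congr rfl fun i _ =>
    Finset.sum_congr rfl fun j _ => by ring

/-- `∇_a ∇_b e_d` in coordinates, without the tensor correction. -/
def covTwice (g : MetricField n) (e : Fin n → Pt n → Pt n) (a b d k : Fin n) (x : Pt n) : ℝ :=
  dirDeriv (covFrame g e b d k) (e a x) x
    + gammaMap g x (e a x) (fun i => covFrame g e b d i x) k

theorem IsFrame.differentiableAt_conn (h : IsFrame g s e c) (hx : x ∈ s) (a b d : Fin n) :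
    DifferentiableAt ℝ (frameConn c a b d) x := by
  have hc : ∀ a b d, DifferentiableAt ℝ (c a b d) x := fun a b d =>
    ((h.smooth_c a b d).contDiffAt (h.isOpen.mem_nhds hx)).differentiableAt (by norm_num)
  show DifferentiableAt ℝ (fun y => (c a b d y - c b d a y + c d a b y) / 2) x
  simp_rw [div_eq_inv_mul]
  exact (((hc a b d).fun_sub (hc b d a)).fun_add (hc d a b)).const_mul (2⁻¹ : ℝ)

theorem IsFrame.covTwice_frame (h : IsFrame g s e c) (hx : x ∈ s) (a b d k : Fin n) :
    covTwice g e a b d k x = ∑ f, dirDeriv (frameConn c b d f) (e a x) x * e f x k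
      + ∑ f, frameConn c b d f x * ∑ q, frameConn c a f q x * e q x k := by
  have de := h.differentiableAt_e hx
  have hd : dirDeriv (covFrame g e b d k) (e a x) x = ∑ f, (dirDeriv (frameConn c b d f) (e a x) x
      * e f x k + frameConn c b d f x * dirDeriv (fun y => e f y k) (e a x) x) := by
    rw [dirDeriv_congr h.isOpen hx (fun y hy => h.covFrame_expand hy b d k),
      dirDeriv_sum fun f => (h.differentiableAt_conn hx b d f).fun_mul (de f k)]
    exact Finset.sum_congr rfl fun f _ => dirDeriv_mul (h.differentiableAt_conn hx b d f) (de f k) _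
  have hg : gammaMap g x (e a x) (fun i => covFrame g e b d i x) k
      = ∑ f, frameConn c b d f x * gammaMap g x (e a x) (e f x) k := by
    simp only [gammaMap, h.covFrame_expand hx b d, Finset.mul_sum]
    rw [Finset.sum_congr rfl fun i _ => Finset.sum_comm, Finset.sum_comm]
    exact Finset.sum_congr rfl fun f _ => Finset.sum_congr rfl fun i _ =>
      Finset.sum_congr rfl fun j _ => by ring
  rw [covTwice, hd, hg, Finset.sum_add_distrib, add_assoc, ← Finset.sum_add_distrib]
  congr 1
  refine Finset.sum_congr rfl fun f _ => ?_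
  rw [← h.covFrame_expand hx a f k, ← mul_add]
  congr 1
  simp [covFrame, gammaMap, dirDeriv_eq_sum]

theorem IsFrame.pd_pd_symm (h : IsFrame g s e c) (hx : x ∈ s) (d k i m : Fin n) :
    pd (fun y => pd (fun z => e d z k) i y) m x = pd (fun y => pd (fun z => e d z k) m y) i x := by
  have h2 := ((h.smooth_e d k).contDiffAt (h.isOpen.mem_nhds hx))
  have hd := (h2.fderiv_right (m := 1) (by norm_num)).differentiableAt (by norm_num)
  have key : ∀ i m, pd (fun y => pd (fun z => e d z k) i y) m x
      = fderiv ℝ (fderiv ℝ (fun z => e d z k)) x (Pi.single m 1) (Pi.single i 1) := by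
    intro i m
    simp only [pd]
    rw [fderiv_clm_apply hd (differentiableAt_const _)]
    simp
  rw [key, key]
  exact (h2.isSymmSndFDerivAt (by simp)).eq _ _

theorem IsFrame.covTwice_coord (h : IsFrame g s e c) (hx : x ∈ s) (a b d k : Fin n) :
    covTwice g e a b d k x
      = dirDeriv (fun z => e d z k) (fun i => dirDeriv (fun z => e b z i) (e a x) x) x
        + ∑ i, ∑ m, e b x i * e a x m * pd (fun y => pd (fun z => e d z k) i y) m x
        + ∑ i, ∑ j, dirDeriv (christoffel g k i j) (e a x) x * e b x i * e d x j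
        + gammaMap g x (fun i => dirDeriv (fun z => e b z i) (e a x) x) (e d x) k
        + gammaMap g x (e b x) (fun i => dirDeriv (fun z => e d z i) (e a x) x) k
        + gammaMap g x (e a x) (fun i => dirDeriv (fun z => e d z i) (e b x) x) k
        + gammaMap g x (e a x) (gammaMap g x (e b x) (e d x)) k := by
  have de := h.differentiableAt_e hx
  have dp := fun i => (h.contDiffAt_pd_e hx d k i).differentiableAt (by norm_num)
  have dG := fun i j => (h.contDiffAt_christoffel hx k i j).differentiableAt (by norm_num)
  rw [covTwice, covFrame_eq b d, gammaMap_add_right, Pi.add_apply, ← add_assoc]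
  congr 2
  have h1 : DifferentiableAt ℝ (fun y => ∑ i, e b y i * pd (fun z => e d z k) i y) x :=
    DifferentiableAt.fun_sum fun i _ => (de b i).fun_mul (dp i)
  have h2 : DifferentiableAt ℝ
      (fun y => ∑ i, ∑ j, christoffel g k i j y * e b y i * e d y j) x :=
    DifferentiableAt.fun_sum fun i _ => DifferentiableAt.fun_sum fun j _ =>
      ((dG i j).fun_mul (de b i)).fun_mul (de d j)
  change fderiv ℝ (fun y => (∑ i, e b y i * pd (fun z => e d z k) i y)
    + ∑ i, ∑ j, christoffel g k i j y * e b y i * e d y j) x (e a x) = _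
  rw [fderiv_fun_add h1 h2, _root_.add_apply]
  change dirDeriv _ (e a x) x + dirDeriv _ (e a x) x = _
  rw [dirDeriv_sum fun i => (de b i).fun_mul (dp i),
    dirDeriv_sum fun i => DifferentiableAt.fun_sum fun j _ =>
      ((dG i j).fun_mul (de b i)).fun_mul (de d j)]
  simp only [dirDeriv_mul (de b _) (dp _), Finset.sum_add_distrib]
  have e1 : ∀ i, dirDeriv (fun y => ∑ j, christoffel g k i j y * e b y i * e d y j) (e a x) x
      = ∑ j, (dirDeriv (christoffel g k i j) (e a x) x * e b x i * e d x j
        + christoffel g k i j x * dirDeriv (fun z => e b z i) (e a x) x * e d x j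
        + christoffel g k i j x * e b x i * dirDeriv (fun z => e d z j) (e a x) x) := by
    intro i
    rw [dirDeriv_sum fun j => ((dG i j).fun_mul (de b i)).fun_mul (de d j)]
    refine Finset.sum_congr rfl fun j _ => ?_
    rw [dirDeriv_mul ((dG i j).fun_mul (de b i)) (de d j), dirDeriv_mul (dG i j) (de b i)]
    ring
  simp only [e1, Finset.sum_add_distrib, gammaMap]
  have e2 : ∀ i, e b x i * dirDeriv (fun y => pd (fun z => e d z k) i y) (e a x) x
      = ∑ m, e b x i * e a x m * pd (fun y => pd (fun z => e d z k) i y) m x := by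
    intro i
    rw [dirDeriv_eq_sum, Finset.mul_sum]
    exact Finset.sum_congr rfl fun m _ => by ring
  simp only [e2]
  rw [dirDeriv_eq_sum (fun z => e d z k)]
  ring

theorem IsFrame.curvature (h : IsFrame g s e c) (hx : x ∈ s) (a b d k : Fin n) :
    ∑ i, ∑ l, ∑ j, e a x i * e b x l * e d x j * riem g k i l j x
      = ∑ f, dirDeriv (frameConn c b d f) (e a x) x * e f x k
        + ∑ f, frameConn c b d f x * ∑ q, frameConn c a f q x * e q x k
        - ∑ f, dirDeriv (frameConn c a d f) (e b x) x * e f x k
        - ∑ f, frameConn c a d f x * ∑ q, frameConn c b f q x * e q x k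
        - ∑ f, c a b f x * ∑ q, frameConn c f d q x * e q x k := by
  have hbr : dirDeriv (fun z => e d z k) (fun i => dirDeriv (fun z => e b z i) (e a x) x) x
      - dirDeriv (fun z => e d z k) (fun i => dirDeriv (fun z => e a z i) (e b x) x) x
      + (gammaMap g x (fun i => dirDeriv (fun z => e b z i) (e a x) x) (e d x) k
        - gammaMap g x (fun i => dirDeriv (fun z => e a z i) (e b x) x) (e d x) k)
      = ∑ f, c a b f x * ∑ q, frameConn c f d q x * e q x k := by
    have hlin : ∀ u v : Fin n → ℝ, dirDeriv (fun z => e d z k) u x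
        - dirDeriv (fun z => e d z k) v x = dirDeriv (fun z => e d z k) (u - v) x := by
      intro u v; simp [dirDeriv]
    have hlin2 : ∀ u v : Fin n → ℝ, gammaMap g x u (e d x) k - gammaMap g x v (e d x) k
        = gammaMap g x (u - v) (e d x) k := by
      intro u v
      rw [sub_eq_iff_eq_add, ← Pi.add_apply, ← gammaMap_add_left, sub_add_cancel]
    have hdiff : (fun i => dirDeriv (fun z => e b z i) (e a x) x)
        - (fun i => dirDeriv (fun z => e a z i) (e b x) x)
        = fun i => ∑ f, c a b f x * e f x i := funext fun i => h.bracket x hx a b i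
    rw [hlin, hlin2, hdiff, gammaMap_sum_smul_left, dirDeriv_eq_sum]
    simp only [Finset.sum_mul]
    rw [Finset.sum_comm, ← Finset.sum_add_distrib]
    refine Finset.sum_congr rfl fun f _ => ?_
    rw [← h.covFrame_expand hx f d k, covFrame]
    simp only [gammaMap, mul_add, Finset.mul_sum]
    congr 1
    exact Finset.sum_congr rfl fun i _ => by ring
  have hsymm : ∑ i, ∑ m, e b x i * e a x m * pd (fun y => pd (fun z => e d z k) i y) m x
      = ∑ i, ∑ m, e a x i * e b x m * pd (fun y => pd (fun z => e d z k) i y) m x := by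
    rw [Finset.sum_comm]
    refine Finset.sum_congr rfl fun i _ => Finset.sum_congr rfl fun m _ => ?_
    rw [h.pd_pd_symm hx d k i m]
    ring
  have hG : ∑ i, ∑ l, ∑ j, e a x i * e b x l * e d x j * riem g k i l j x
      = (∑ i, ∑ j, dirDeriv (christoffel g k i j) (e a x) x * e b x i * e d x j)
        - (∑ i, ∑ j, dirDeriv (christoffel g k i j) (e b x) x * e a x i * e d x j)
        + (gammaMap g x (e a x) (gammaMap g x (e b x) (e d x)) k
        - gammaMap g x (e b x) (gammaMap g x (e a x) (e d x)) k) := by
    simp only [riem, gammaMap, dirDeriv_eq_sum, mul_add, mul_sub, Finset.mul_sum, Finset.sum_mul,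
      Finset.sum_add_distrib, Finset.sum_sub_distrib]
    congr 1
    · congr 1
      · rw [Finset.sum_comm]
        refine Finset.sum_congr rfl fun l _ => ?_
        rw [Finset.sum_comm]
        refine Finset.sum_congr rfl fun j _ => Finset.sum_congr rfl fun i _ => by ring
      · refine Finset.sum_congr rfl fun i _ => ?_
        rw [Finset.sum_comm]
        exact Finset.sum_congr rfl fun j _ => Finset.sum_congr rfl fun l _ => by ring
    · congr 1
      · refine Finset.sum_congr rfl fun i _ => ?_
        rw [Finset.sum_congr rfl fun l _ => Finset.sum_comm, Finset.sum_comm]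
        exact Finset.sum_congr rfl fun p _ => Finset.sum_congr rfl fun l _ =>
          Finset.sum_congr rfl fun j _ => by ring
      · rw [sum_swap13 (fun i p l => ∑ j, christoffel g k i p x * e b x i *
          (christoffel g p l j x * e a x l * e d x j))]
        refine Finset.sum_congr rfl fun i _ => ?_
        rw [Finset.sum_congr rfl fun l _ => Finset.sum_comm, Finset.sum_comm]
        exact Finset.sum_congr rfl fun p _ => Finset.sum_congr rfl fun l _ =>
          Finset.sum_congr rfl fun j _ => by ring
  rw [hG]
  linarith [h.covTwice_coord hx a b d k, h.covTwice_coord hx b a d k,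
    h.covTwice_frame hx a b d k, h.covTwice_frame hx b a d k]

theorem IsFrame.sum_coframe_frame (h : IsFrame g s e c) (hx : x ∈ s) (a : Fin n) (w : Fin n → ℝ) :
    ∑ k, coframe g e a k x * ∑ q, w q * e q x k = w a := by
  simp only [Finset.mul_sum]
  rw [Finset.sum_comm]
  have : ∀ q, ∑ k, coframe g e a k x * (w q * e q x k) = w q * if a = q then 1 else 0 := by
    intro q
    rw [← h.coframe_apply hx a q, Finset.mul_sum]
    exact Finset.sum_congr rfl fun k _ => by ring
  simp [this]

/-- The coordinate Ricci tensor on two frame vectors. -/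
theorem IsFrame.ricci_frame (h : IsFrame g s e c) (hx : x ∈ s) (b d : Fin n) :
    ∑ j, ∑ l, ricci g j l x * e d x j * e b x l = frameRicci e c b d x := by
  have key : ∀ a, ∑ k, coframe g e a k x *
      (∑ i, ∑ l, ∑ j, e a x i * e b x l * e d x j * riem g k i l j x)
      = dirDeriv (frameConn c b d a) (e a x) x - dirDeriv (frameConn c a d a) (e b x) x
        + ∑ f, (frameConn c b d f x * frameConn c a f a x
          - frameConn c a d f x * frameConn c b f a x - c a b f x * frameConn c f d a x) := by
    intro a
    have two : ∀ u : Fin n → ℝ, ∀ v : Fin n → Fin n → ℝ,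
        ∑ k, coframe g e a k x * ∑ f, u f * ∑ q, v f q * e q x k = ∑ f, u f * v f a := by
      intro u v
      rw [Finset.sum_congr rfl fun k _ => Finset.mul_sum _ _ _]
      rw [Finset.sum_comm]
      refine Finset.sum_congr rfl fun f _ => ?_
      rw [← h.sum_coframe_frame hx a (v f), Finset.mul_sum]
      exact Finset.sum_congr rfl fun k _ => by ring
    simp only [h.curvature hx a b d, mul_sub, mul_add, Finset.sum_sub_distrib,
      Finset.sum_add_distrib]
    rw [h.sum_coframe_frame hx a (fun f => dirDeriv (frameConn c b d f) (e a x) x),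
      h.sum_coframe_frame hx a (fun f => dirDeriv (frameConn c a d f) (e b x) x),
      two (fun f => frameConn c b d f x) (fun f q => frameConn c a f q x),
      two (fun f => frameConn c a d f x) (fun f q => frameConn c b f q x),
      two (fun f => c a b f x) (fun f q => frameConn c f d q x)]
    ring
  rw [frameRicci, ← Finset.sum_congr rfl fun a _ => key a]
  simp only [ricci_eq_riem, Finset.mul_sum, Finset.sum_mul]
  calc ∑ j, ∑ l, ∑ i, riem g i i l j x * e d x j * e b x l
      = ∑ i, ∑ l, ∑ j, riem g i i l j x * e d x j * e b x l := sum_swap13 _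
    _ = ∑ k, ∑ i, ∑ l, ∑ j, (∑ a, e a x i * coframe g e a k x)
          * (e b x l * e d x j * riem g k i l j x) := by
        refine Finset.sum_congr rfl fun k _ => ?_
        simp only [h.dual hx, ite_mul, one_mul, zero_mul]
        symm
        rw [Finset.sum_eq_single k]
        · exact Finset.sum_congr rfl fun l _ => Finset.sum_congr rfl fun j _ => by
            rw [if_pos rfl]; ring
        · intro i _ hi
          simp [hi]
        · simp
    _ = _ := by
        simp only [Finset.sum_mul]
        symm
        rw [Finset.sum_comm]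
        refine Finset.sum_congr rfl fun k _ => ?_
        rw [Finset.sum_comm]
        refine Finset.sum_congr rfl fun i _ => ?_
        rw [Finset.sum_comm]
        refine Finset.sum_congr rfl fun l _ => ?_
        rw [Finset.sum_comm]
        exact Finset.sum_congr rfl fun j _ => Finset.sum_congr rfl fun a _ => by ring

/-- The Ricci form is nonnegative when the frame expression is. -/
theorem IsFrame.ricci_nonneg (h : IsFrame g s e c) (hx : x ∈ s)
    (hpos : ∀ w : Fin n → ℝ, 0 ≤ ∑ b, ∑ d, frameRicci e c b d x * w b * w d) (v : Pt n) :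
    0 ≤ ∑ j, ∑ l, ricci g j l x * v j * v l := by
  set w : Fin n → ℝ := fun a => ∑ m, coframe g e a m x * v m
  refine (hpos w).trans_eq ?_
  have hv : ∀ k, v k = ∑ a, w a * e a x k := fun k => (h.coframe_expand hx v k).symm
  calc ∑ b, ∑ d, frameRicci e c b d x * w b * w d
      = ∑ b, ∑ d, ∑ j, ∑ l, ricci g j l x * e d x j * e b x l * w b * w d := by
        simp only [← h.ricci_frame hx, Finset.sum_mul]
    _ = ∑ j, ∑ l, ∑ d, ∑ b, ricci g j l x * e d x j * e b x l * w b * w d := by
        rw [Finset.sum_comm, Finset.sum_congr rfl fun d _ => Finset.sum_comm, Finset.sum_comm]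
        refine Finset.sum_congr rfl fun j _ => ?_
        rw [Finset.sum_congr rfl fun d _ => Finset.sum_comm, Finset.sum_comm]
    _ = ∑ j, ∑ l, ricci g j l x * v j * v l := by
        refine Finset.sum_congr rfl fun j _ => Finset.sum_congr rfl fun l _ => ?_
        rw [hv j, hv l]
        simp only [Finset.mul_sum, Finset.sum_mul]
        rw [Finset.sum_comm]
        exact Finset.sum_congr rfl fun b _ => Finset.sum_congr rfl fun d _ => by ring

/-- The Laplacian in the frame. -/
theorem IsFrame.laplacian_frame (h : IsFrame g s e c) (hx : x ∈ s) {u : Pt n → ℝ}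
    (hu : ContDiffAt ℝ 2 u x) :
    laplacian g u x = ∑ a, (dirDeriv (fun y => dirDeriv u (e a y) y) (e a x) x
      - ∑ b, frameConn c a a b x * dirDeriv u (e b x) x) := by
  have de := h.differentiableAt_e hx
  have dp : ∀ j, DifferentiableAt ℝ (fun y => pd u j y) x := fun j =>
    (((hu.fderiv_right (m := 1) (by norm_num)).clm_apply
      (contDiffAt_const (c := (Pi.single j 1 : Pt n)))).differentiableAt (by norm_num))
  have hterm : ∀ a, dirDeriv (fun y => dirDeriv u (e a y) y) (e a x) x
      - ∑ b, frameConn c a a b x * dirDeriv u (e b x) x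
      = ∑ i, ∑ j, e a x i * e a x j * (pd (pd u j) i x - ∑ k, christoffel g k i j x * pd u k x) := by
    intro a
    have e2 : ∑ b, frameConn c a a b x * dirDeriv u (e b x) x
        = ∑ k, covFrame g e a a k x * pd u k x := by
      simp only [dirDeriv_eq_sum, h.covFrame_expand hx a a, Finset.mul_sum, Finset.sum_mul]
      rw [Finset.sum_comm]
      exact Finset.sum_congr rfl fun k _ => Finset.sum_congr rfl fun b _ => by ring
    have e1 : dirDeriv (fun y => dirDeriv u (e a y) y) (e a x) x
        = ∑ j, (dirDeriv (fun y => e a y j) (e a x) x * pd u j x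
          + e a x j * dirDeriv (fun y => pd u j y) (e a x) x) := by
      rw [funext fun y => dirDeriv_eq_sum u (e a y) y,
        dirDeriv_sum fun j => (de a j).fun_mul (dp j)]
      exact Finset.sum_congr rfl fun j _ => dirDeriv_mul (de a j) (dp j) _
    rw [e1, e2]
    simp only [covFrame, dirDeriv_eq_sum, add_mul, mul_sub, Finset.sum_add_distrib,
      Finset.sum_sub_distrib, Finset.sum_mul, Finset.mul_sum]
    rw [show ∀ p q r t : ℝ, p + q - (r + t) = (p - r) + (q - t) from fun p q r t => by ring,
      sub_self, zero_add]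
    congr 1
    · rw [Finset.sum_comm]
      exact Finset.sum_congr rfl fun i _ => Finset.sum_congr rfl fun j _ => by ring
    · rw [Finset.sum_comm]
      refine Finset.sum_congr rfl fun i _ => ?_
      rw [Finset.sum_comm]
      exact Finset.sum_congr rfl fun j _ => Finset.sum_congr rfl fun k _ => by ring
  rw [Finset.sum_congr rfl fun a _ => hterm a, laplacian]
  symm
  rw [Finset.sum_comm]
  refine Finset.sum_congr rfl fun i _ => ?_
  rw [Finset.sum_comm]
  refine Finset.sum_congr rfl fun j _ => ?_
  rw [h.inv_eq hx, Finset.sum_mul]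

end

end Vale.Agent.P225
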