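import Vale.Agent.P225.Geom.Conformal
import Vale.Agent.P225.Metric.ChangeLap

/-!
P225: the Ricci tensor of a changed frame as a function of the jet of the change of frame, when the
original frame has constant structure functions.
-/

namespace Vale.Agent.P225

open scoped BigOperators
open Set Matrix

noncomputable section

/-- A square array. -/
abbrev Arr (n : ℕ) := Fin n → Fin n → ℝ

/-- A change of frame at a point: matrix, inverse, first derivatives of both along the frame and
second derivatives of the matrix along the frame. -/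
abbrev FrameJet (n : ℕ) :=
  Arr n × Arr n × (Fin n → Arr n) × (Fin n → Arr n) × (Fin n → Fin n → Arr n)

namespace FrameJet

variable {n : ℕ}

/-- The matrix. -/
def mat (J : FrameJet n) : Arr n := J.1
/-- The inverse matrix. -/
def inv (J : FrameJet n) : Arr n := J.2.1
/-- First derivatives of the matrix. -/
def dmat (J : FrameJet n) : Fin n → Arr n := J.2.2.1
/-- First derivatives of the inverse. -/
def dinv (J : FrameJet n) : Fin n → Arr n := J.2.2.2.1
/-- Second derivatives of the matrix. -/
def ddmat (J : FrameJet n) : Fin n → Fin n → Arr n := J.2.2.2.2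

/-- The bracket of two new fields along an old one. -/
def bracketJ (k : Fin n → Fin n → Fin n → ℝ) (J : FrameJet n) (a b h : Fin n) : ℝ :=
  (∑ p, ∑ q, J.mat p a * J.mat q b * k p q h)
    + (∑ p, J.mat p a * J.dmat p h b) - ∑ p, J.mat p b * J.dmat p h a

/-- The new structure functions. -/
def structJ (k : Fin n → Fin n → Fin n → ℝ) (J : FrameJet n) (a b f : Fin n) : ℝ :=
  ∑ h, J.inv f h * bracketJ k J a b h

/-- Their derivatives along an old field. -/
def dstructJ (k : Fin n → Fin n → Fin n → ℝ) (J : FrameJet n) (r a b f : Fin n) : ℝ :=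
  ∑ h, (J.dinv r f h * bracketJ k J a b h + J.inv f h *
    ((∑ p, ∑ q, (J.dmat r p a * J.mat q b + J.mat p a * J.dmat r q b) * k p q h)
      + (∑ p, (J.dmat r p a * J.dmat p h b + J.mat p a * J.ddmat r p h b))
      - ∑ p, (J.dmat r p b * J.dmat p h a + J.mat p b * J.ddmat r p h a)))

/-- Their derivatives along a new field. -/
def newDeriv (k : Fin n → Fin n → Fin n → ℝ) (J : FrameJet n) (m a b f : Fin n) : ℝ :=
  ∑ r, J.mat r m * dstructJ k J r a b f

/-- The new connection coefficients. -/
def connJ (k : Fin n → Fin n → Fin n → ℝ) (J : FrameJet n) (a b d : Fin n) : ℝ :=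
  (structJ k J a b d - structJ k J b d a + structJ k J d a b) / 2

/-- Their derivatives along a new field. -/
def dconnJ (k : Fin n → Fin n → Fin n → ℝ) (J : FrameJet n) (m a b d : Fin n) : ℝ :=
  (newDeriv k J m a b d - newDeriv k J m b d a + newDeriv k J m d a b) / 2

/-- The Ricci tensor in the new frame. -/
def ricciJ (k : Fin n → Fin n → Fin n → ℝ) (J : FrameJet n) (b d : Fin n) : ℝ :=
  ∑ a, (dconnJ k J a b d a - dconnJ k J b a d a + ∑ f, (connJ k J b d f * connJ k J a f a
    - connJ k J a d f * connJ k J b f a - structJ k J a b f * connJ k J f d a))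

end FrameJet

variable {n : ℕ} {g : MetricField n} {s : Set (Pt n)} {e : Fin n → Pt n → Pt n}
  {k : Fin n → Fin n → Fin n → ℝ} {M N : Pt n → Matrix (Fin n) (Fin n) ℝ} {x : Pt n}

/-- The jet of a change of frame at a point. -/
def frameJet (e : Fin n → Pt n → Pt n) (M N : Pt n → Matrix (Fin n) (Fin n) ℝ) (x : Pt n) :
    FrameJet n :=
  (fun i j => M x i j, fun i j => N x i j,
    fun p i j => dirDeriv (fun y => M y i j) (e p x) x,
    fun p i j => dirDeriv (fun y => N y i j) (e p x) x,
    fun r p i j => dirDeriv (fun y => dirDeriv (fun z => M z i j) (e p y) y) (e r x) x)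

theorem changeStruct_eq_structJ (a b f : Fin n) :
    changeStruct e (fun p q r _ => k p q r) M N a b f x
      = FrameJet.structJ k (frameJet e M N x) a b f := by
  simp only [changeStruct, changeBracket, dirDeriv_changeFrame, FrameJet.structJ,
    FrameJet.bracketJ, FrameJet.mat, FrameJet.inv, FrameJet.dmat, frameJet]

theorem dirDeriv_sub' {f h : Pt n → ℝ} (hf : DifferentiableAt ℝ f x) (hh : DifferentiableAt ℝ h x)
    (v : Pt n) : dirDeriv (fun y => f y - h y) v x = dirDeriv f v x - dirDeriv h v x := by
  simp [dirDeriv, fderiv_fun_sub hf hh]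

theorem dirDeriv_add' {f h : Pt n → ℝ} (hf : DifferentiableAt ℝ f x) (hh : DifferentiableAt ℝ h x)
    (v : Pt n) : dirDeriv (fun y => f y + h y) v x = dirDeriv f v x + dirDeriv h v x := by
  simp [dirDeriv, fderiv_fun_add hf hh]

theorem dirDeriv_const' (r : ℝ) (v : Pt n) : dirDeriv (fun _ => r) v x = 0 := by
  simp [dirDeriv]

theorem IsFrame.differentiableAt_deriv (h : IsFrame g s e fun a b f _ => k a b f) (hx : x ∈ s)
    {F : Pt n → ℝ} (hF : ContDiffOn ℝ 2 F s) (p : Fin n) :
    DifferentiableAt ℝ (fun y => dirDeriv F (e p y) y) x := by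
  have h1 : ContDiffOn ℝ 1 (fun y => dirDeriv F (e p y) y) s :=
    (hF.fderiv_of_isOpen h.isOpen (m := 1) (by norm_num)).clm_apply
      ((contDiffOn_pi.2 fun i => h.smooth_e p i).of_le (by norm_num))
  exact (h1.contDiffAt (h.isOpen.mem_nhds hx)).differentiableAt (by norm_num)

theorem IsFrame.dirDeriv_changeStruct (hfr : IsFrame g s e fun a b f _ => k a b f) (hx : x ∈ s)
    (hM : ∀ i j, ContDiffOn ℝ 2 (fun y => M y i j) s)
    (hN : ∀ i j, ContDiffOn ℝ 2 (fun y => N y i j) s) (r a b f : Fin n) :
    dirDeriv (changeStruct e (fun p q r _ => k p q r) M N a b f) (e r x) x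
      = FrameJet.dstructJ k (frameJet e M N x) r a b f := by
  have dM : ∀ i j, DifferentiableAt ℝ (fun y => M y i j) x := fun i j =>
    ((hM i j).contDiffAt (hfr.isOpen.mem_nhds hx)).differentiableAt (by norm_num)
  have dN : ∀ i j, DifferentiableAt ℝ (fun y => N y i j) x := fun i j =>
    ((hN i j).contDiffAt (hfr.isOpen.mem_nhds hx)).differentiableAt (by norm_num)
  have dD : ∀ p i j, DifferentiableAt ℝ (fun y => dirDeriv (fun z => M z i j) (e p y) y) x :=
    fun p i j => hfr.differentiableAt_deriv hx (hM i j) p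
  rw [show changeStruct e (fun p q r _ => k p q r) M N a b f = fun y => ∑ h, N y f h *
      ((∑ p, ∑ q, M y p a * M y q b * k p q h)
        + (∑ p, M y p a * dirDeriv (fun z => M z h b) (e p y) y)
        - ∑ p, M y p b * dirDeriv (fun z => M z h a) (e p y) y) from
    funext fun y => by simp only [changeStruct, changeBracket, dirDeriv_changeFrame]]
  have d1 : ∀ h, DifferentiableAt ℝ (fun y => ∑ p, ∑ q, M y p a * M y q b * k p q h) x := fun h =>
    DifferentiableAt.fun_sum fun p _ => DifferentiableAt.fun_sum fun q _ =>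
      ((dM p a).fun_mul (dM q b)).fun_mul (differentiableAt_const _)
  have d2 : ∀ c h d, DifferentiableAt ℝ
      (fun y => ∑ p, M y p c * dirDeriv (fun z => M z h d) (e p y) y) x := fun c h d =>
    DifferentiableAt.fun_sum fun p _ => (dM p c).fun_mul (dD p h d)
  rw [dirDeriv_sum fun h => (dN f h).fun_mul (((d1 h).fun_add (d2 a h b)).fun_sub (d2 b h a))]
  refine Finset.sum_congr rfl fun h _ => ?_
  rw [dirDeriv_mul (dN f h) (((d1 h).fun_add (d2 a h b)).fun_sub (d2 b h a)),
    dirDeriv_sub' ((d1 h).fun_add (d2 a h b)) (d2 b h a), dirDeriv_add' (d1 h) (d2 a h b),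
    dirDeriv_sum fun p => (dM p a).fun_mul (dD p h b),
    dirDeriv_sum fun p => (dM p b).fun_mul (dD p h a),
    dirDeriv_sum fun p => DifferentiableAt.fun_sum fun q _ =>
      ((dM p a).fun_mul (dM q b)).fun_mul (differentiableAt_const _)]
  have e1 : ∀ p, dirDeriv (fun y => ∑ q, M y p a * M y q b * k p q h) (e r x) x
      = ∑ q, (dirDeriv (fun y => M y p a) (e r x) x * M x q b
        + M x p a * dirDeriv (fun y => M y q b) (e r x) x) * k p q h := fun p => by
    rw [dirDeriv_sum fun q => ((dM p a).fun_mul (dM q b)).fun_mul (differentiableAt_const _)]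
    refine Finset.sum_congr rfl fun q _ => ?_
    rw [dirDeriv_mul ((dM p a).fun_mul (dM q b)) (differentiableAt_const _),
      dirDeriv_mul (dM p a) (dM q b), dirDeriv_const']
    ring
  simp only [e1, dirDeriv_mul (dM _ _) (dD _ _ _), frameJet, FrameJet.mat, FrameJet.inv,
    FrameJet.dmat, FrameJet.dinv, FrameJet.ddmat, FrameJet.bracketJ]

/-- The Ricci tensor in the new frame is `FrameJet.ricciJ` of the jet. -/
theorem IsFrame.frameRicci_jet (hfr : IsFrame g s e fun a b f _ => k a b f) (hx : x ∈ s)
    (hM : ∀ i j, ContDiffOn ℝ 2 (fun y => M y i j) s)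
    (hN : ∀ i j, ContDiffOn ℝ 2 (fun y => N y i j) s) (b d : Fin n) :
    frameRicci (P225.changeFrame e M) (changeStruct e (fun p q r _ => k p q r) M N) b d x
      = FrameJet.ricciJ k (frameJet e M N x) b d := by
  set c' := changeStruct e (fun p q r _ => k p q r) M N with hc'
  have hc : ∀ p q r, DifferentiableAt ℝ (c' p q r) x := fun p q r =>
    ((hfr.contDiffOn_changeStruct hM hN p q r).contDiffAt
      (hfr.isOpen.mem_nhds hx)).differentiableAt (by norm_num)
  have hD : ∀ m p q r, dirDeriv (c' p q r) (P225.changeFrame e M m x) x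
      = FrameJet.newDeriv k (frameJet e M N x) m p q r := fun m p q r => by
    simp only [dirDeriv_changeFrame, hc', hfr.dirDeriv_changeStruct hx hM hN,
      FrameJet.newDeriv, FrameJet.mat]
    rfl
  have hG : ∀ m p q r, dirDeriv (frameConn c' p q r) (P225.changeFrame e M m x) x
      = FrameJet.dconnJ k (frameJet e M N x) m p q r := fun m p q r => by
    rw [show frameConn c' p q r = fun y => (c' p q r y - c' q r p y + c' r p q y) * (1 / 2) from
      funext fun y => by simp only [frameConn]; ring,
      dirDeriv_mul (((hc p q r).fun_sub (hc q r p)).fun_add (hc r p q)) (differentiableAt_const _),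
      dirDeriv_const', dirDeriv_add' ((hc p q r).fun_sub (hc q r p)) (hc r p q),
      dirDeriv_sub' (hc p q r) (hc q r p), hD, hD, hD, FrameJet.dconnJ]
    ring
  have hS : ∀ p q r, c' p q r x = FrameJet.structJ k (frameJet e M N x) p q r :=
    fun p q r => changeStruct_eq_structJ p q r
  have hC : ∀ p q r, frameConn c' p q r x = FrameJet.connJ k (frameJet e M N x) p q r :=
    fun p q r => by simp only [frameConn, hS, FrameJet.connJ]
  simp only [frameRicci, hG, hS, hC, FrameJet.ricciJ]

/-- Continuity of `FrameJet.ricciJ` in the jet. -/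
theorem FrameJet.contDiff_ricciJ (k : Fin n → Fin n → Fin n → ℝ) (b d : Fin n) :
    ContDiff ℝ 1 fun J : FrameJet n => FrameJet.ricciJ k J b d := by
  unfold FrameJet.ricciJ FrameJet.dconnJ FrameJet.connJ FrameJet.newDeriv FrameJet.structJ
    FrameJet.dstructJ FrameJet.bracketJ FrameJet.mat FrameJet.inv FrameJet.dmat FrameJet.dinv
    FrameJet.ddmat
  fun_prop

end

end Vale.Agent.P225
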