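import Vale.Agent.P225.Geom.Cone

/-!
P225: the model cones, `h(t)` a left-invariant metric `q(t) ⊗ 1₃` on `S³ × S³`. The jet of the frame
is given by a `2 × 2` matrix `m`, its inverse `n` and the time derivatives `m'`, `m''`.
-/

namespace Vale.Agent.P225

open scoped BigOperators
open FrameJet

noncomputable section

/-- The spatial index of factor `α`, direction `i`. -/
def spi (α : Fin 2) (i : Fin 3) : Fin 7 := ⟨1 + 3 * α.val + i.val, by omega⟩

/-- The factor of a spatial index. -/
def spA (p : Fin 7) : Fin 2 := if p.val ≤ 3 then 0 else 1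

/-- The direction of a spatial index. -/
def spI (p : Fin 7) : Fin 3 := ⟨(p.val + 2) % 3, Nat.mod_lt _ (by norm_num)⟩

theorem sum_split (F : Fin 7 → ℝ) : ∑ p, F p = F 0 + ∑ α, ∑ i, F (spi α i) := by
  simp only [Fin.sum_univ_seven, Fin.sum_univ_two, Fin.sum_univ_three, spi]
  norm_num
  simp only [show ((1 : Fin 7)) = ⟨1, by norm_num⟩ from rfl,
    show ((2 : Fin 7)) = ⟨2, by norm_num⟩ from rfl, show ((3 : Fin 7)) = ⟨3, by norm_num⟩ from rfl,
    show ((4 : Fin 7)) = ⟨4, by norm_num⟩ from rfl, show ((5 : Fin 7)) = ⟨5, by norm_num⟩ from rfl,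
    show ((6 : Fin 7)) = ⟨6, by norm_num⟩ from rfl]
  ring

@[simp] theorem spA_spi (α : Fin 2) (i : Fin 3) : spA (spi α i) = α := by
  fin_cases α <;> fin_cases i <;> rfl

@[simp] theorem spI_spi (α : Fin 2) (i : Fin 3) : spI (spi α i) = i := by
  fin_cases α <;> fin_cases i <;> rfl

@[simp] theorem spi_ne_zero (α : Fin 2) (i : Fin 3) : spi α i ≠ 0 := by
  fin_cases α <;> fin_cases i <;> decide

@[simp] theorem zero_ne_spi (α : Fin 2) (i : Fin 3) : (0 : Fin 7) ≠ spi α i :=
  (spi_ne_zero α i).symm

@[simp] theorem spi_eq_spi (α β : Fin 2) (i j : Fin 3) :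
    spi α i = spi β j ↔ α = β ∧ i = j := by
  constructor
  · intro h
    exact ⟨by simpa using congrArg spA h, by simpa using congrArg spI h⟩
  · rintro ⟨rfl, rfl⟩; rfl

theorem eq_zero_or_spi (p : Fin 7) : p = 0 ∨ ∃ α i, p = spi α i := by
  by_cases h : p = 0
  · exact Or.inl h
  · refine Or.inr ⟨spA p, spI p, ?_⟩
    fin_cases p <;> first | rfl | exact absurd rfl h

/-- The Levi-Civita symbol. -/
def eps (i j k : Fin 3) : ℝ := ((i.val : ℝ) - j.val) * ((j.val : ℝ) - k.val) * ((k.val : ℝ) - i.val) / 2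

theorem baseStruct_spi (α β γ : Fin 2) (i j k : Fin 3) :
    baseStruct (spi α i) (spi β j) (spi γ k)
      = if α = β ∧ β = γ then 2 * eps i j k else 0 := by
  fin_cases α <;> fin_cases β <;> fin_cases γ <;> fin_cases i <;> fin_cases j <;> fin_cases k <;>
    norm_num [baseStruct, spi, eps]

theorem baseStruct_anti (a b f : Fin 7) : baseStruct a b f = -baseStruct b a f := by
  simp only [baseStruct]
  split_ifs with h1 h2 h3
  · ring
  · exact absurd (by rcases h1 with ⟨u, v, w, z, q⟩ | ⟨u, v, w⟩
                     exacts [Or.inl ⟨w, z, u, v, q⟩, Or.inr ⟨v, u, w⟩]) h2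
  · exact absurd (by rcases h3 with ⟨u, v, w, z, q⟩ | ⟨u, v, w⟩
                     exacts [Or.inl ⟨w, z, u, v, q⟩, Or.inr ⟨v, u, w⟩]) h1
  · ring

theorem baseStruct_zero_left (b f : Fin 7) : baseStruct 0 b f = 0 := by simp [baseStruct]

theorem baseStruct_zero_mid (a f : Fin 7) : baseStruct a 0 f = 0 := by simp [baseStruct]

theorem baseStruct_zero_right (a b : Fin 7) : baseStruct a b 0 = 0 := by simp [baseStruct]

/-- The block matrix `diag(z, m ⊗ 1₃)`. -/
def blk (m : Arr 2) (z : ℝ) : Arr 7 := fun p q =>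
  if p = 0 then if q = 0 then z else 0
  else if q = 0 then 0 else if spI p = spI q then m (spA p) (spA q) else 0

@[simp] theorem blk_zero_zero (m : Arr 2) (z : ℝ) : blk m z 0 0 = z := by simp [blk]

@[simp] theorem blk_zero_spi (m : Arr 2) (z : ℝ) (α : Fin 2) (i : Fin 3) :
    blk m z 0 (spi α i) = 0 := by simp [blk]

@[simp] theorem blk_spi_zero (m : Arr 2) (z : ℝ) (α : Fin 2) (i : Fin 3) :
    blk m z (spi α i) 0 = 0 := by simp [blk]

@[simp] theorem blk_spi_spi (m : Arr 2) (z : ℝ) (α β : Fin 2) (i j : Fin 3) :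
    blk m z (spi α i) (spi β j) = if i = j then m α β else 0 := by simp [blk]

/-- The product of two `2 × 2` arrays. -/
def mul2 (a b : Arr 2) : Arr 2 := fun α β => ∑ h, a α h * b h β

/-- The jet of a model. -/
def modelJet (m n m1 m2 : Arr 2) : FrameJet 7 :=
  (blk m 1, blk n 1, fun p => if p = 0 then blk m1 0 else 0,
    fun p => if p = 0 then blk (fun α β => -mul2 (mul2 n m1) n α β) 0 else 0,
    fun r p => if r = 0 ∧ p = 0 then blk m2 0 else 0)

/-- The time part of the brackets. -/
def aM (n m1 : Arr 2) (α γ : Fin 2) : ℝ := mul2 n m1 γ α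

/-- Its derivative. -/
def daM (n m1 m2 : Arr 2) (α γ : Fin 2) : ℝ :=
  mul2 n m2 γ α - mul2 (mul2 n m1) (mul2 n m1) γ α

/-- The spatial part of the brackets. -/
def dM (m n : Arr 2) (α β γ : Fin 2) : ℝ := 2 * ∑ h, n γ h * (m h α * m h β)

/-- Its derivative. -/
def ddM (m n m1 : Arr 2) (α β γ : Fin 2) : ℝ :=
  2 * ∑ h, ((-mul2 (mul2 n m1) n γ h) * (m h α * m h β)
    + n γ h * (m1 h α * m h β + m h α * m1 h β))

variable (m n m1 m2 : Arr 2)

@[simp] theorem mat_model : (modelJet m n m1 m2).mat = blk m 1 := rfl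

@[simp] theorem inv_model : (modelJet m n m1 m2).inv = blk n 1 := rfl

@[simp] theorem dmat_zero : (modelJet m n m1 m2).dmat 0 = blk m1 0 := by
  simp [modelJet, dmat]

@[simp] theorem dmat_spi (α : Fin 2) (i : Fin 3) : (modelJet m n m1 m2).dmat (spi α i) = 0 := by
  simp [modelJet, dmat]

@[simp] theorem dinv_zero :
    (modelJet m n m1 m2).dinv 0 = blk (fun α β => -mul2 (mul2 n m1) n α β) 0 := by
  simp [modelJet, dinv]

@[simp] theorem ddmat_zero : (modelJet m n m1 m2).ddmat 0 0 = blk m2 0 := by
  simp [modelJet, ddmat]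

@[simp] theorem ddmat_spi (r : Fin 7) (α : Fin 2) (i : Fin 3) :
    (modelJet m n m1 m2).ddmat r (spi α i) = 0 := by
  simp [modelJet, ddmat]

theorem bracketJ_model (a b h : Fin 7) :
    bracketJ baseStruct (modelJet m n m1 m2) a b h
      = (∑ p, ∑ q, blk m 1 p a * blk m 1 q b * baseStruct p q h)
        + blk m 1 0 a * blk m1 0 h b - blk m 1 0 b * blk m1 0 h a := by
  simp only [bracketJ, mat_model, sum_split (F := fun p => blk m 1 p _ * _)]
  simp

theorem structJ_time (b f : Fin 7) :
    structJ baseStruct (modelJet m n m1 m2) 0 b f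
      = if b = 0 then 0 else if f = 0 then 0 else
          if spI b = spI f then aM n m1 (spA b) (spA f) else 0 := by
  simp only [structJ, bracketJ_model, inv_model, sum_split, baseStruct_zero_left,
    baseStruct_zero_mid]
  obtain rfl | ⟨β, j, rfl⟩ := eq_zero_or_spi b
  · simp
  obtain rfl | ⟨γ, k, rfl⟩ := eq_zero_or_spi f
  · simp [baseStruct_zero_right]
  · simp only [blk_zero_zero, blk_zero_spi, blk_spi_zero, blk_spi_spi, spA_spi, spI_spi,
      spi_ne_zero, if_false, zero_mul, mul_zero, Finset.sum_const_zero, one_mul, mul_one, add_zero,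
      zero_add, sub_zero]
    by_cases h : j = k
    · subst h
      simp [aM, mul2]
    · simp [h, Ne.symm h]

theorem structJ_anti (J : FrameJet 7) (a b f : Fin 7) :
    structJ baseStruct J a b f = -structJ baseStruct J b a f := by
  have hk := baseStruct_anti
  have h : ∀ h, bracketJ baseStruct J a b h = -bracketJ baseStruct J b a h := fun h => by
    simp only [bracketJ]
    rw [Finset.sum_comm (f := fun p q => J.mat p b * J.mat q a * baseStruct p q h)]
    have : ∑ q, ∑ p, J.mat p b * J.mat q a * baseStruct p q h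
        = -∑ p, ∑ q, J.mat p a * J.mat q b * baseStruct p q h := by
      rw [← Finset.sum_neg_distrib]
      refine Finset.sum_congr rfl fun p _ => ?_
      rw [← Finset.sum_neg_distrib]
      exact Finset.sum_congr rfl fun q _ => by rw [hk q p h]; ring
    rw [this]; ring
  simp only [structJ, h, mul_neg, Finset.sum_neg_distrib]

theorem structJ_spat_zero (α β : Fin 2) (i j : Fin 3) :
    structJ baseStruct (modelJet m n m1 m2) (spi α i) (spi β j) 0 = 0 := by
  simp only [structJ, bracketJ_model, inv_model, sum_split]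
  simp [baseStruct_zero_right]

theorem bracket_spat (x y : Arr 2) (α β : Fin 2) (i j : Fin 3) (η : Fin 2) (l : Fin 3) :
    (∑ p, ∑ q, blk x 0 p (spi α i) * blk y 0 q (spi β j) * baseStruct p q (spi η l))
      = 2 * eps i j l * (x η α * y η β) := by
  simp [sum_split, baseStruct_zero_left, baseStruct_zero_mid, baseStruct_spi, Finset.sum_ite_eq',
    Finset.sum_ite_eq]
  fin_cases η <;> simp <;> ring

theorem blk_col_spi (x : Arr 2) (z : ℝ) (p : Fin 7) (α : Fin 2) (i : Fin 3) :
    blk x z p (spi α i) = blk x 0 p (spi α i) := by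
  obtain rfl | ⟨β, j, rfl⟩ := eq_zero_or_spi p <;> simp

theorem structJ_spat (α β γ : Fin 2) (i j k : Fin 3) :
    structJ baseStruct (modelJet m n m1 m2) (spi α i) (spi β j) (spi γ k)
      = dM m n α β γ * eps i j k := by
  simp only [structJ, bracketJ_model, inv_model, blk_col_spi m 1]
  rw [sum_split]
  simp only [bracket_spat, blk_spi_spi, blk_spi_zero, blk_zero_spi, zero_mul, add_zero, zero_add,
    sub_zero, ite_mul]
  simp [dM, Fin.sum_univ_two]
  ring

theorem dstructJ_space (r : Fin 7) (hr : r ≠ 0) (a b f : Fin 7) :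
    dstructJ baseStruct (modelJet m n m1 m2) r a b f = 0 := by
  obtain rfl | ⟨α, i, rfl⟩ := eq_zero_or_spi r
  · exact absurd rfl hr
  · simp [dstructJ, modelJet, FrameJet.mat, dmat, dinv, ddmat]

theorem newDeriv_model (p a b f : Fin 7) :
    newDeriv baseStruct (modelJet m n m1 m2) p a b f
      = if p = 0 then dstructJ baseStruct (modelJet m n m1 m2) 0 a b f else 0 := by
  rw [newDeriv, sum_split]
  simp only [dstructJ_space m n m1 m2 _ (spi_ne_zero _ _), mul_zero, Finset.sum_const_zero,
    add_zero]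
  obtain rfl | ⟨β, j, rfl⟩ := eq_zero_or_spi p <;> simp

theorem dstructJ_anti (J : FrameJet 7) (r a b f : Fin 7) :
    dstructJ baseStruct J r a b f = -dstructJ baseStruct J r b a f := by
  have hk := baseStruct_anti
  simp only [dstructJ, ← Finset.sum_neg_distrib]
  refine Finset.sum_congr rfl fun h _ => ?_
  have h2 : ∀ F G : Fin 7 → Fin 7 → ℝ, (∀ p q, F p q = G q p) →
      ∑ p, ∑ q, F p q * baseStruct p q h = -∑ p, ∑ q, G p q * baseStruct p q h := by
    intro F G hFG
    rw [← Finset.sum_neg_distrib, Finset.sum_comm]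
    refine Finset.sum_congr rfl fun p _ => ?_
    rw [← Finset.sum_neg_distrib]
    exact Finset.sum_congr rfl fun q _ => by rw [hk p q h, hFG q p]; ring
  simp only [bracketJ]
  rw [h2 (fun p q => J.mat p a * J.mat q b) (fun p q => J.mat p b * J.mat q a) (fun p q => by ring),
    h2 (fun p q => J.dmat r p a * J.mat q b + J.mat p a * J.dmat r q b)
      (fun p q => J.dmat r p b * J.mat q a + J.mat p b * J.dmat r q a) (fun p q => by ring)]
  ring

theorem dstructJ_time (b f : Fin 7) :
    dstructJ baseStruct (modelJet m n m1 m2) 0 0 b f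
      = if b = 0 then 0 else if f = 0 then 0 else
          if spI b = spI f then daM n m1 m2 (spA b) (spA f) else 0 := by
  obtain rfl | ⟨β, j, rfl⟩ := eq_zero_or_spi b
  · have h := dstructJ_anti (modelJet m n m1 m2) 0 0 0 f
    rw [if_pos rfl]
    linarith
  simp only [dstructJ, bracketJ_model, inv_model, mat_model, sum_split, baseStruct_zero_left,
    baseStruct_zero_mid]
  obtain rfl | ⟨γ, k, rfl⟩ := eq_zero_or_spi f
  · simp [baseStruct_zero_right]
  · simp only [dmat_zero, dmat_spi, dinv_zero, ddmat_zero, ddmat_spi, blk_zero_zero, blk_zero_spi,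
      blk_spi_zero, blk_spi_spi, spA_spi, spI_spi, spi_ne_zero, if_false, Pi.zero_apply,
      zero_mul, mul_zero, Finset.sum_const_zero, one_mul, mul_one, add_zero, zero_add, sub_zero]
    by_cases h : j = k
    · subst h
      simp [daM, mul2, Fin.sum_univ_two, Finset.sum_add_distrib]
      ring
    · simp [h, Ne.symm h, Finset.sum_add_distrib]

theorem dstructJ_spat_zero (α β : Fin 2) (i j : Fin 3) :
    dstructJ baseStruct (modelJet m n m1 m2) 0 (spi α i) (spi β j) 0 = 0 := by
  simp only [dstructJ, bracketJ_model, inv_model, mat_model, sum_split]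
  simp [baseStruct_zero_right]

theorem dstructJ_spat (α β γ : Fin 2) (i j k : Fin 3) :
    dstructJ baseStruct (modelJet m n m1 m2) 0 (spi α i) (spi β j) (spi γ k)
      = ddM m n m1 α β γ * eps i j k := by
  simp only [dstructJ, bracketJ_model, inv_model, mat_model, dmat_zero, dinv_zero, blk_col_spi m 1,
    add_mul, Finset.sum_add_distrib]
  simp only [sum_split (F := fun h => blk _ _ _ h * _)]
  simp only [bracket_spat, blk_spi_spi, blk_spi_zero, blk_zero_spi, zero_mul, mul_zero, add_zero,
    zero_add, sub_zero, ite_mul]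
  simp [ddM, Fin.sum_univ_two, sum_split (F := fun p => blk _ _ p _ * _)]
  ring

end

end Vale.Agent.P225
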