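import Vale.Agent.P225.Geom.Model

/-!
P225: the Ricci tensor of the model cones.
-/

namespace Vale.Agent.P225

open scoped BigOperators
open FrameJet

noncomputable section

/-- Second fundamental form of the spheres. -/
def symS (a : Arr 2) (α β : Fin 2) : ℝ := -(a α β + a β α) / 2

/-- Rotation of the frame. -/
def skewK (a : Arr 2) (α β : Fin 2) : ℝ := (a α β - a β α) / 2

/-- The trace of the second fundamental form on the six-manifold. -/
def trS (a : Arr 2) : ℝ := 3 * (symS a 0 0 + symS a 1 1)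

/-- The connection of the left-invariant metric, without the symbol. -/
def gamM (d : Fin 2 → Fin 2 → Fin 2 → ℝ) (α β γ : Fin 2) : ℝ :=
  (d α β γ - d β γ α + d γ α β) / 2

/-- The Ricci tensor of the left-invariant metric. -/
def ricM (d : Fin 2 → Fin 2 → Fin 2 → ℝ) (α β : Fin 2) : ℝ :=
  ∑ ξ, ∑ η, (-(d α ξ η * d β ξ η) + d α ξ η * d β η ξ + d ξ η α * d ξ η β / 2)

/-- The radial Ricci curvature of the model, times `r²`. -/
def radM (a a' : Arr 2) : ℝ :=
  -trS a' - 3 * (∑ α, ∑ β, symS a α β * symS a α β) - trS a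

/-- The tangential Ricci tensor of the model, times `r²`. -/
def tanM (d : Fin 2 → Fin 2 → Fin 2 → ℝ) (a a' : Arr 2) (α β : Fin 2) : ℝ :=
  ricM d α β - symS a' α β - trS a * symS a α β
    + (∑ γ, (skewK a α γ * symS a γ β - symS a α γ * skewK a γ β))
    - 5 * symS a α β - if α = β then trS a + 5 else 0

variable (m n m1 m2 : Arr 2)

theorem structJ_mid (α : Fin 2) (i : Fin 3) (f : Fin 7) :
    structJ baseStruct (modelJet m n m1 m2) (spi α i) 0 f
      = -structJ baseStruct (modelJet m n m1 m2) 0 (spi α i) f := structJ_anti _ _ _ _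

theorem dstructJ_mid (α : Fin 2) (i : Fin 3) (f : Fin 7) :
    dstructJ baseStruct (modelJet m n m1 m2) 0 (spi α i) 0 f
      = -dstructJ baseStruct (modelJet m n m1 m2) 0 0 (spi α i) f := dstructJ_anti _ _ _ _ _

@[simp] theorem connJ_000 : connJ baseStruct (modelJet m n m1 m2) 0 0 0 = 0 := by
  simp [connJ, structJ_time]

@[simp] theorem connJ_00s (α : Fin 2) (i : Fin 3) :
    connJ baseStruct (modelJet m n m1 m2) 0 0 (spi α i) = 0 := by
  simp [connJ, structJ_mid, structJ_time]

@[simp] theorem connJ_0s0 (α : Fin 2) (i : Fin 3) :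
    connJ baseStruct (modelJet m n m1 m2) 0 (spi α i) 0 = 0 := by
  simp [connJ, structJ_mid, structJ_time]

@[simp] theorem connJ_s00 (α : Fin 2) (i : Fin 3) :
    connJ baseStruct (modelJet m n m1 m2) (spi α i) 0 0 = 0 := by
  simp [connJ, structJ_mid, structJ_time]

@[simp] theorem connJ_0ss (α β : Fin 2) (i j : Fin 3) :
    connJ baseStruct (modelJet m n m1 m2) 0 (spi α i) (spi β j)
      = if i = j then skewK (aM n m1) α β else 0 := by
  simp [connJ, structJ_mid, structJ_time, structJ_spat_zero, skewK]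
  by_cases h : i = j
  · subst h; simp; ring
  · simp [h, Ne.symm h]

@[simp] theorem connJ_s0s (α β : Fin 2) (i j : Fin 3) :
    connJ baseStruct (modelJet m n m1 m2) (spi α i) 0 (spi β j)
      = if i = j then symS (aM n m1) α β else 0 := by
  simp [connJ, structJ_mid, structJ_time, structJ_spat_zero, symS]
  by_cases h : i = j
  · subst h; simp; ring
  · simp [h, Ne.symm h]

@[simp] theorem connJ_ss0 (α β : Fin 2) (i j : Fin 3) :
    connJ baseStruct (modelJet m n m1 m2) (spi α i) (spi β j) 0
      = if i = j then -symS (aM n m1) α β else 0 := by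
  simp [connJ, structJ_mid, structJ_time, structJ_spat_zero, symS]
  by_cases h : i = j
  · subst h; simp; ring
  · simp [h, Ne.symm h]

@[simp] theorem connJ_sss (α β γ : Fin 2) (i j k : Fin 3) :
    connJ baseStruct (modelJet m n m1 m2) (spi α i) (spi β j) (spi γ k)
      = gamM (dM m n) α β γ * eps i j k := by
  simp only [connJ, structJ_spat, gamM, eps]
  ring

theorem dconnJ_space (p a b d : Fin 7) (hp : p ≠ 0) :
    dconnJ baseStruct (modelJet m n m1 m2) p a b d = 0 := by
  simp [dconnJ, newDeriv_model, hp]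

@[simp] theorem dconnJ_spi (α : Fin 2) (i : Fin 3) (a b d : Fin 7) :
    dconnJ baseStruct (modelJet m n m1 m2) (spi α i) a b d = 0 :=
  dconnJ_space m n m1 m2 _ a b d (spi_ne_zero α i)

@[simp] theorem dconnJ_000 : dconnJ baseStruct (modelJet m n m1 m2) 0 0 0 0 = 0 := by
  simp [dconnJ, newDeriv_model, dstructJ_time]

@[simp] theorem dconnJ_00s (α : Fin 2) (i : Fin 3) :
    dconnJ baseStruct (modelJet m n m1 m2) 0 0 0 (spi α i) = 0 := by
  simp [dconnJ, newDeriv_model, dstructJ_mid, dstructJ_time]

@[simp] theorem dconnJ_0s0 (α : Fin 2) (i : Fin 3) :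
    dconnJ baseStruct (modelJet m n m1 m2) 0 0 (spi α i) 0 = 0 := by
  simp [dconnJ, newDeriv_model, dstructJ_mid, dstructJ_time]

@[simp] theorem dconnJ_s00 (α : Fin 2) (i : Fin 3) :
    dconnJ baseStruct (modelJet m n m1 m2) 0 (spi α i) 0 0 = 0 := by
  simp [dconnJ, newDeriv_model, dstructJ_mid, dstructJ_time]

@[simp] theorem dconnJ_s0s (α β : Fin 2) (i j : Fin 3) :
    dconnJ baseStruct (modelJet m n m1 m2) 0 (spi α i) 0 (spi β j)
      = if i = j then symS (daM n m1 m2) α β else 0 := by
  simp [dconnJ, newDeriv_model, dstructJ_mid, dstructJ_time, dstructJ_spat_zero, symS]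
  by_cases h : i = j
  · subst h; simp; ring
  · simp [h, Ne.symm h]

@[simp] theorem dconnJ_ss0 (α β : Fin 2) (i j : Fin 3) :
    dconnJ baseStruct (modelJet m n m1 m2) 0 (spi α i) (spi β j) 0
      = if i = j then -symS (daM n m1 m2) α β else 0 := by
  simp [dconnJ, newDeriv_model, dstructJ_mid, dstructJ_time, dstructJ_spat_zero, symS]
  by_cases h : i = j
  · subst h; simp; ring
  · simp [h, Ne.symm h]

@[simp] theorem dconnJ_sss (α β γ : Fin 2) (i j k : Fin 3) :
    dconnJ baseStruct (modelJet m n m1 m2) 0 (spi α i) (spi β j) (spi γ k)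
      = gamM (ddM m n m1) α β γ * eps i j k := by
  simp only [dconnJ, newDeriv_model, if_true, dstructJ_spat, gamM, eps]
  ring

theorem ricciJ_rad : ricciJ baseStruct (modelJet m n m1 m2) 0 0
    = -trS (daM n m1 m2) - 3 * ∑ α, ∑ β, symS (aM n m1) α β * symS (aM n m1) α β := by
  simp only [ricciJ, sum_split]
  simp [structJ_mid, structJ_time, trS, skewK, symS, Fin.sum_univ_two, Fin.sum_univ_three]
  ring

theorem ricciJ_mixed (β : Fin 2) (j : Fin 3) :
    ricciJ baseStruct (modelJet m n m1 m2) 0 (spi β j) = 0 ∧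
    ricciJ baseStruct (modelJet m n m1 m2) (spi β j) 0 = 0 := by
  constructor <;>
  · simp only [ricciJ, sum_split]
    simp [structJ_mid, structJ_time, structJ_spat, structJ_spat_zero, Fin.sum_univ_three,
      Fin.sum_univ_two]
    fin_cases j <;> simp [eps]

theorem gam_ric {d : Fin 2 → Fin 2 → Fin 2 → ℝ} (hd : ∀ a b c, d a b c = d b a c) (α β : Fin 2) :
    ricM d α β = 2 * ∑ ξ, ∑ η, (-(gamM d ξ β η * gamM d α η ξ) + d ξ α η * gamM d η β ξ) := by
  fin_cases α <;> fin_cases β <;>
    simp [ricM, gamM, Fin.sum_univ_two, hd 1 0] <;> ring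

theorem ricciJ_tan (α β : Fin 2) (i j : Fin 3) :
    ricciJ baseStruct (modelJet m n m1 m2) (spi α i) (spi β j)
      = if i = j then ricM (dM m n) α β - symS (daM n m1 m2) α β
          - trS (aM n m1) * symS (aM n m1) α β
          + ∑ γ, (skewK (aM n m1) α γ * symS (aM n m1) γ β
            - symS (aM n m1) α γ * skewK (aM n m1) γ β)
        else 0 := by
  have hd : ∀ a b c, dM m n a b c = dM m n b a c := fun a b c => by
    simp only [dM]; congr 1; exact Finset.sum_congr rfl fun h _ => by ring
  simp only [ricciJ, sum_split]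
  simp [structJ_mid, structJ_time, structJ_spat, structJ_spat_zero, Fin.sum_univ_three,
    Fin.sum_univ_two]
  fin_cases i <;> fin_cases j <;>
    simp [eps, gam_ric hd, trS, symS, skewK, Fin.sum_univ_two] <;>
    ring

/-- The Ricci tensor of the model cone. -/
theorem coneJ_model (b d : Fin 7) :
    coneJ (modelJet m n m1 m2) b d
      = if b = 0 then (if d = 0 then radM (aM n m1) (daM n m1 m2) else 0)
        else if d = 0 then 0
        else if spI b = spI d then tanM (dM m n) (aM n m1) (daM n m1 m2) (spA b) (spA d) else 0 := by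
  have htr : ∑ a, connJ baseStruct (modelJet m n m1 m2) a 0 a = trS (aM n m1) := by
    rw [sum_split]
    simp [trS, Fin.sum_univ_two, Fin.sum_univ_three]
    ring
  simp only [coneJ, htr]
  obtain rfl | ⟨α, i, rfl⟩ := eq_zero_or_spi b <;> obtain rfl | ⟨β, j, rfl⟩ := eq_zero_or_spi d
  · simp [ricciJ_rad, radM]
  · simp [(ricciJ_mixed m n m1 m2 β j).1]
  · simp [(ricciJ_mixed m n m1 m2 α i).2]
  · simp only [ricciJ_tan, connJ_ss0, spI_spi, spA_spi,
      spi_ne_zero, if_false, spi_eq_spi, tanM]
    by_cases hij : i = j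
    · subst hij; by_cases hab : α = β <;> simp [hab] <;> ring
    · simp [hij]

end

end Vale.Agent.P225
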