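import Vale.Agent.P225.Geom.Frame

/-!
P225: change of frame. From an orthonormal frame `e` and a field of matrices `M` with inverse `N`
one gets the metric whose orthonormal frame is `e · M`, with its structure functions.
-/

namespace Vale.Agent.P225

open scoped BigOperators
open Set Matrix

noncomputable section

variable {n : ℕ} {g : MetricField n} {s : Set (Pt n)} {e : Fin n → Pt n → Pt n}
  {c : Fin n → Fin n → Fin n → Pt n → ℝ} {M N : Pt n → Matrix (Fin n) (Fin n) ℝ} {x : Pt n}

/-- The frame `e · M`. -/
def changeFrame (e : Fin n → Pt n → Pt n) (M : Pt n → Matrix (Fin n) (Fin n) ℝ) :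
    Fin n → Pt n → Pt n :=
  fun a x k => ∑ p, M x p a * e p x k

/-- The covectors dual to `e · M`. -/
def changeCoframe (g : MetricField n) (e : Fin n → Pt n → Pt n)
    (N : Pt n → Matrix (Fin n) (Fin n) ℝ) (a k : Fin n) (x : Pt n) : ℝ :=
  ∑ p, N x a p * coframe g e p k x

/-- The metric with orthonormal frame `e · M`, where `N = M⁻¹`. -/
def changeMetric (g : MetricField n) (e : Fin n → Pt n → Pt n)
    (N : Pt n → Matrix (Fin n) (Fin n) ℝ) : MetricField n :=
  fun x => Matrix.of fun i j => ∑ a, changeCoframe g e N a i x * changeCoframe g e N a j x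

/-- The component of `[e·M a, e·M b]` along `e h`. -/
def changeBracket (e : Fin n → Pt n → Pt n) (c : Fin n → Fin n → Fin n → Pt n → ℝ)
    (M : Pt n → Matrix (Fin n) (Fin n) ℝ) (a b h : Fin n) (x : Pt n) : ℝ :=
  (∑ p, ∑ q, M x p a * M x q b * c p q h x)
    + dirDeriv (fun y => M y h b) (changeFrame e M a x) x
    - dirDeriv (fun y => M y h a) (changeFrame e M b x) x

/-- The structure functions of `e · M`. -/
def changeStruct (e : Fin n → Pt n → Pt n) (c : Fin n → Fin n → Fin n → Pt n → ℝ)
    (M N : Pt n → Matrix (Fin n) (Fin n) ℝ) (a b f : Fin n) (x : Pt n) : ℝ :=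
  ∑ h, N x f h * changeBracket e c M a b h x

theorem IsFrame.changeCoframe_frame (hF : IsFrame g s e c) (hx : x ∈ s) (hNM : N x * M x = 1)
    (a b : Fin n) :
    ∑ k, changeCoframe g e N a k x * changeFrame e M b x k = if a = b then 1 else 0 := by
  have h := congrFun₂ hNM a b
  rw [mul_apply, one_apply] at h
  rw [← h]
  simp only [changeCoframe, changeFrame, Finset.sum_mul]
  rw [Finset.sum_comm]
  refine Finset.sum_congr rfl fun p _ => ?_
  have := hF.sum_coframe_frame hx p (fun q => M x q b)
  rw [← this, Finset.mul_sum]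
  exact Finset.sum_congr rfl fun k _ => by ring

theorem IsFrame.changeCoframe_expand (hF : IsFrame g s e c) (hx : x ∈ s) (hMN : M x * N x = 1)
    (v : Pt n) (k : Fin n) :
    ∑ a, (∑ m, changeCoframe g e N a m x * v m) * changeFrame e M a x k = v k := by
  have hw : ∀ a, ∑ m, changeCoframe g e N a m x * v m
      = (N x *ᵥ fun p => ∑ m, coframe g e p m x * v m) a := by
    intro a
    simp only [changeCoframe, mulVec, dotProduct, Finset.sum_mul, Finset.mul_sum]
    rw [Finset.sum_comm]
    exact Finset.sum_congr rfl fun p _ => Finset.sum_congr rfl fun m _ => by ring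
  simp only [hw, changeFrame, Finset.mul_sum]
  rw [Finset.sum_comm, ← hF.coframe_expand hx v k]
  refine Finset.sum_congr rfl fun p _ => ?_
  have h2 := congrFun (mulVec_mulVec (fun p => ∑ m, coframe g e p m x * v m) (M x) (N x)) p
  rw [hMN, one_mulVec] at h2
  rw [← h2]
  simp only [mulVec, dotProduct, Finset.sum_mul]
  refine Finset.sum_congr rfl fun a _ => ?_
  simp only [Finset.mul_sum, Finset.sum_mul]
  exact Finset.sum_congr rfl fun q _ => Finset.sum_congr rfl fun m _ => by ring

theorem IsFrame.contDiffOn_changeFrame (hF : IsFrame g s e c)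
    (hM : ∀ i j, ContDiffOn ℝ 2 (fun y => M y i j) s) (a k : Fin n) :
    ContDiffOn ℝ 2 (fun y => changeFrame e M a y k) s :=
  ContDiffOn.sum fun p _ => (hM p a).mul (hF.smooth_e p k)

theorem IsFrame.contDiffOn_changeMetric (hF : IsFrame g s e c)
    (hN : ∀ i j, ContDiffOn ℝ 2 (fun y => N y i j) s) (i j : Fin n) :
    ContDiffOn ℝ 2 (fun y => changeMetric g e N y i j) s := by
  have hco : ∀ a k, ContDiffOn ℝ 2 (changeCoframe g e N a k) s := fun a k =>
    ContDiffOn.sum fun p _ => (hN a p).mul
      (ContDiffOn.sum fun m _ => (hF.smooth_e p m).mul (hF.smooth_g m k))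
  show ContDiffOn ℝ 2 (fun y => ∑ a, changeCoframe g e N a i y * changeCoframe g e N a j y) s
  exact ContDiffOn.sum fun a _ => (hco a i).mul (hco a j)

theorem IsFrame.changeMetric_posDef (hF : IsFrame g s e c) (hx : x ∈ s) (hMN : M x * N x = 1) :
    (changeMetric g e N x).PosDef := by
  refine posDef_iff_dotProduct_mulVec.2 ⟨?_, fun {v} hv => ?_⟩
  · ext i j
    simp only [changeMetric, conjTranspose_apply, of_apply, star_trivial]
    exact Finset.sum_congr rfl fun a _ => mul_comm _ _
  · have e1 : star v ⬝ᵥ (changeMetric g e N x *ᵥ v)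
        = ∑ a, (∑ m, changeCoframe g e N a m x * v m) ^ 2 := by
      simp only [changeMetric, dotProduct, mulVec, of_apply, star_trivial, Finset.mul_sum,
        Finset.sum_mul, sq]
      rw [Finset.sum_congr rfl fun i _ => Finset.sum_comm, Finset.sum_comm]
      exact Finset.sum_congr rfl fun a _ => Finset.sum_congr rfl fun i _ =>
        Finset.sum_congr rfl fun j _ => by ring
    rw [e1]
    refine lt_of_le_of_ne (Finset.sum_nonneg fun a _ => sq_nonneg _) fun h0 => hv ?_
    have hz := (Finset.sum_eq_zero_iff_of_nonneg fun a _ => sq_nonneg _).1 h0.symm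
    funext k
    rw [← hF.changeCoframe_expand hx hMN v k]
    refine Finset.sum_eq_zero fun a ha => ?_
    rw [sq_eq_zero_iff.1 (hz a ha), zero_mul]

theorem IsFrame.contDiffOn_changeStruct (hF : IsFrame g s e c)
    (hM : ∀ i j, ContDiffOn ℝ 2 (fun y => M y i j) s)
    (hN : ∀ i j, ContDiffOn ℝ 2 (fun y => N y i j) s) (a b f : Fin n) :
    ContDiffOn ℝ 1 (changeStruct e c M N a b f) s := by
  have hD : ∀ p q r, ContDiffOn ℝ 1
      (fun y => dirDeriv (fun z => M z p q) (changeFrame e M r y) y) s := fun p q r =>
    ((hM p q).fderiv_of_isOpen hF.isOpen (m := 1) (by norm_num)).clm_apply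
      ((contDiffOn_pi.2 fun k => hF.contDiffOn_changeFrame hM r k).of_le (by norm_num))
  refine ContDiffOn.sum fun h _ => ((hN f h).of_le (by norm_num)).mul ?_
  exact ((ContDiffOn.sum fun p _ => ContDiffOn.sum fun q _ =>
    (((hM p a).mul (hM q b)).of_le (by norm_num)).mul (hF.smooth_c p q h)).add
      (hD h b a)).sub (hD h a b)

/-- Change of frame. -/
theorem IsFrame.changeFrame (hF : IsFrame g s e c)
    (hM : ∀ i j, ContDiffOn ℝ 2 (fun y => M y i j) s)
    (hN : ∀ i j, ContDiffOn ℝ 2 (fun y => N y i j) s) (hNM : ∀ y ∈ s, N y * M y = 1) :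
    IsFrame (changeMetric g e N) s (P225.changeFrame e M) (changeStruct e c M N) where
  isOpen := hF.isOpen
  smooth_g := hF.contDiffOn_changeMetric hN
  posDef y hy := hF.changeMetric_posDef hy (mul_eq_one_comm.1 (hNM y hy))
  smooth_e := hF.contDiffOn_changeFrame hM
  smooth_c := hF.contDiffOn_changeStruct hM hN
  ortho y hy a b := by
    have e1 : ∑ j, ∑ l, changeMetric g e N y j l * P225.changeFrame e M a y j
          * P225.changeFrame e M b y l
        = ∑ f, (∑ j, changeCoframe g e N f j y * P225.changeFrame e M a y j)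
          * ∑ l, changeCoframe g e N f l y * P225.changeFrame e M b y l := by
      simp only [changeMetric, of_apply, Finset.sum_mul, Finset.mul_sum]
      rw [Finset.sum_congr rfl fun j _ => Finset.sum_comm, Finset.sum_comm]
      refine Finset.sum_congr rfl fun f _ => ?_
      rw [Finset.sum_comm]
      exact Finset.sum_congr rfl fun j _ => Finset.sum_congr rfl fun l _ => by ring
    rw [e1]
    simp [hF.changeCoframe_frame hy (hNM y hy), eq_comm]
  bracket y hy a b k := by
    have dM : ∀ p q, DifferentiableAt ℝ (fun z => M z p q) y := fun p q =>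
      ((hM p q).contDiffAt (hF.isOpen.mem_nhds hy)).differentiableAt (by norm_num)
    have de := hF.differentiableAt_e hy
    have hlin : ∀ (f : Pt n → ℝ) a, dirDeriv f (P225.changeFrame e M a y) y
        = ∑ p, M y p a * dirDeriv f (e p y) y := by
      intro f a
      simp only [dirDeriv_eq_sum, P225.changeFrame, Finset.sum_mul, Finset.mul_sum]
      rw [Finset.sum_comm]
      exact Finset.sum_congr rfl fun p _ => Finset.sum_congr rfl fun i _ => by ring
    have hd : ∀ a b, dirDeriv (fun z => P225.changeFrame e M b z k) (P225.changeFrame e M a y) y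
        = ∑ h, dirDeriv (fun z => M z h b) (P225.changeFrame e M a y) y * e h y k
          + ∑ p, ∑ q, M y p a * M y q b * dirDeriv (fun z => e q z k) (e p y) y := by
      intro a b
      rw [show (fun z => P225.changeFrame e M b z k) = fun z => ∑ q, M z q b * e q z k from rfl,
        dirDeriv_sum fun q => (dM q b).fun_mul (de q k)]
      simp only [dirDeriv_mul (dM _ b) (de _ k), Finset.sum_add_distrib]
      congr 1
      simp only [hlin (fun z => e _ z k), Finset.mul_sum]
      rw [Finset.sum_comm]
      exact Finset.sum_congr rfl fun p _ => Finset.sum_congr rfl fun q _ => by ring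
    have hswap : ∑ p, ∑ q, M y p b * M y q a * dirDeriv (fun z => e q z k) (e p y) y
        = ∑ p, ∑ q, M y p a * M y q b * dirDeriv (fun z => e p z k) (e q y) y := by
      rw [Finset.sum_comm]
      exact Finset.sum_congr rfl fun p _ => Finset.sum_congr rfl fun q _ => by ring
    have hB : ∀ h, changeBracket e c M a b h y = (M y *ᵥ fun f => changeStruct e c M N a b f y) h := by
      intro h
      have e2 : (fun f => changeStruct e c M N a b f y)
          = N y *ᵥ fun h => changeBracket e c M a b h y := funext fun f => rfl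
      rw [e2, mulVec_mulVec, mul_eq_one_comm.1 (hNM y hy), one_mulVec]
    calc _ = ∑ h, changeBracket e c M a b h y * e h y k := by
          rw [hd a b, hd b a, hswap]
          simp only [changeBracket, add_mul, sub_mul, Finset.sum_add_distrib,
            Finset.sum_sub_distrib, Finset.sum_mul]
          have hbr : ∑ p, ∑ q, M y p a * M y q b * dirDeriv (fun z => e q z k) (e p y) y
              - ∑ p, ∑ q, M y p a * M y q b * dirDeriv (fun z => e p z k) (e q y) y
              = ∑ h, ∑ p, ∑ q, M y p a * M y q b * c p q h y * e h y k := by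
            rw [← Finset.sum_sub_distrib]
            simp only [← Finset.sum_sub_distrib, ← mul_sub, hF.bracket y hy, Finset.mul_sum]
            rw [Finset.sum_congr rfl fun p _ => Finset.sum_comm, Finset.sum_comm]
            exact Finset.sum_congr rfl fun h _ => Finset.sum_congr rfl fun p _ =>
              Finset.sum_congr rfl fun q _ => by ring
          linarith
      _ = _ := by
          simp only [hB, mulVec, dotProduct, P225.changeFrame, Finset.sum_mul, Finset.mul_sum]
          rw [Finset.sum_comm]
          exact Finset.sum_congr rfl fun f _ => Finset.sum_congr rfl fun h _ => by ring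

theorem IsFrame.mono (hF : IsFrame g s e c) {t : Set (Pt n)} (ht : IsOpen t) (hts : t ⊆ s) :
    IsFrame g t e c where
  isOpen := ht
  smooth_g i j := (hF.smooth_g i j).mono hts
  posDef y hy := hF.posDef y (hts hy)
  smooth_e a k := (hF.smooth_e a k).mono hts
  smooth_c a b d := (hF.smooth_c a b d).mono hts
  ortho y hy := hF.ortho y (hts hy)
  bracket y hy := hF.bracket y (hts hy)

theorem IsFrame.congr_metric (hF : IsFrame g s e c) {g' : MetricField n}
    (h : ∀ y ∈ s, g' y = g y) : IsFrame g' s e c where
  isOpen := hF.isOpen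
  smooth_g i j := (hF.smooth_g i j).congr fun y hy => by rw [h y hy]
  posDef y hy := by rw [h y hy]; exact hF.posDef y hy
  smooth_e := hF.smooth_e
  smooth_c := hF.smooth_c
  ortho y hy := by rw [h y hy]; exact hF.ortho y hy
  bracket := hF.bracket

theorem IsFrame.coframe_change (hF : IsFrame g s e c) (hx : x ∈ s) (hNM : N x * M x = 1)
    (a k : Fin n) :
    coframe (changeMetric g e N) (P225.changeFrame e M) a k x = changeCoframe g e N a k x := by
  simp only [coframe, changeMetric, of_apply, Finset.mul_sum]
  rw [Finset.sum_comm]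
  calc ∑ f, ∑ m, P225.changeFrame e M a x m
        * (changeCoframe g e N f m x * changeCoframe g e N f k x)
      = ∑ f, (∑ m, changeCoframe g e N f m x * P225.changeFrame e M a x m)
          * changeCoframe g e N f k x := Finset.sum_congr rfl fun f _ => by
        rw [Finset.sum_mul]; exact Finset.sum_congr rfl fun m _ => by ring
    _ = changeCoframe g e N a k x := by simp [hF.changeCoframe_frame hx hNM]

end

end Vale.Agent.P225
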